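import Mathlib

namespace Vale.Agent.Helper28.Cut

open Finset

/-- Capacities on the vertex set `Fin n`: symmetric, nonnegative, zero on the diagonal. -/
def IsCapacity {n : ℕ} (c : Fin n → Fin n → ℝ) : Prop :=
  (∀ i j, c i j = c j i) ∧ (∀ i j, 0 ≤ c i j) ∧ (∀ i, c i i = 0)

/-- Total capacity crossing the cut between `S` and its complement. -/
def cutCap {n : ℕ} (c : Fin n → Fin n → ℝ) (S : Finset (Fin n)) : ℝ :=
  ∑ i ∈ S, ∑ j ∈ Sᶜ, c i j

/-- Sum of `f i j` over all pairs `i < j`. -/
def pairSum {n : ℕ} (f : Fin n → Fin n → ℝ) : ℝ :=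
  ∑ i, ∑ j, if i < j then f i j else 0

/-- Feasible points of the Goemans-Linial relaxation on `n` points: `d i j` is the squared
Euclidean distance of vectors `x i`, `x j` in `ℝ^n`, all triangle inequalities hold, and the
sum of `d i j` over pairs `i < j` is one. -/
def IsGLFeasible {n : ℕ} (d : Fin n → Fin n → ℝ) : Prop :=
  (∃ x : Fin n → Fin n → ℝ, ∀ i j, d i j = ∑ k, (x i k - x j k) ^ 2) ∧
  (∀ i j k, d i k ≤ d i j + d j k) ∧
  pairSum d = 1

/-- The objective of the Goemans-Linial relaxation: sum of `c i j * d i j` over `i < j`. -/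
def glObj {n : ℕ} (c d : Fin n → Fin n → ℝ) : ℝ :=
  pairSum fun i j => c i j * d i j

end Vale.Agent.Helper28.Cut
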