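import Mathlib

namespace Vale.Agent.Helper28.Cut

/-- the flat hypotheses of the extension step: the triangle inequalities used, two pentagonal
inequalities, the matching `03, 12` is the largest, and the four balance conditions at vertex 4 -/
def ExtHyp (d01 d02 d03 d04 d12 d13 d14 d23 d24 d34 : ℝ) : Prop :=
  (d12 ≤ d01 + d02) ∧
  (d14 ≤ d01 + d04) ∧
  (d24 ≤ d02 + d04) ∧
  (d34 ≤ d03 + d04) ∧
  (d03 ≤ d01 + d13) ∧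
  (d04 ≤ d01 + d14) ∧
  (d24 ≤ d12 + d14) ∧
  (d34 ≤ d13 + d14) ∧
  (d03 ≤ d02 + d23) ∧
  (d04 ≤ d02 + d24) ∧
  (d14 ≤ d12 + d24) ∧
  (d34 ≤ d23 + d24) ∧
  (d04 ≤ d03 + d34) ∧
  (d12 ≤ d13 + d23) ∧
  (d14 ≤ d13 + d34) ∧
  (d24 ≤ d23 + d34) ∧
  (d01 ≤ d04 + d14) ∧
  (d02 ≤ d04 + d24) ∧
  (d03 ≤ d04 + d34) ∧
  (d12 ≤ d14 + d24) ∧
  (d13 ≤ d14 + d34) ∧
  (d23 ≤ d24 + d34) ∧
  (d12 + d14 + d24 + d03 ≤ d01 + d02 + d04 + d13 + d23 + d34) ∧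
  (d03 + d04 + d34 + d12 ≤ d01 + d13 + d14 + d02 + d23 + d24) ∧
  (d01 + d23 ≤ d03 + d12) ∧
  (d02 + d13 ≤ d03 + d12) ∧
  (0 ≤ d03 - d04 - d13 + d14 - d23 + d24 + d34) ∧
  (0 ≤ -d02 + d04 + d12 - d14 - d23 + d24 + d34) ∧
  (0 ≤ -d01 + d04 + d12 - d13 + d14 - d24 + d34) ∧
  (0 ≤ -d01 - d02 + d03 + d04 + d14 + d24 - d34)

end Vale.Agent.Helper28.Cut
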