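import Mathlib

namespace Vale.Agent.Helper28.Cut

theorem exists_max2 (x y : ℝ) : ∃ m, (m = x ∨ m = y) ∧ x ≤ m ∧ y ≤ m := by
  rcases le_total x y with h | h
  · exact ⟨y, Or.inr rfl, h, le_refl _⟩
  · exact ⟨x, Or.inl rfl, le_refl _, h⟩

theorem exists_min2 (x y : ℝ) : ∃ m, (m = x ∨ m = y) ∧ m ≤ x ∧ m ≤ y := by
  rcases le_total x y with h | h
  · exact ⟨x, Or.inl rfl, le_refl _, h⟩
  · exact ⟨y, Or.inr rfl, h, le_refl _⟩

theorem exists_max3 (x y z : ℝ) : ∃ m, (m = x ∨ m = y ∨ m = z) ∧ x ≤ m ∧ y ≤ m ∧ z ≤ m := by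
  obtain ⟨m, hm, h1, h2⟩ := exists_max2 x y
  rcases le_total m z with h | h
  · exact ⟨z, Or.inr (Or.inr rfl), le_trans h1 h, le_trans h2 h, le_refl _⟩
  · refine ⟨m, ?_, h1, h2, h⟩
    rcases hm with h' | h'
    · exact Or.inl h'
    · exact Or.inr (Or.inl h')

theorem exists_min3 (x y z : ℝ) : ∃ m, (m = x ∨ m = y ∨ m = z) ∧ m ≤ x ∧ m ≤ y ∧ m ≤ z := by
  obtain ⟨m, hm, h1, h2⟩ := exists_min2 x y
  rcases le_total m z with h | h
  · refine ⟨m, ?_, h1, h2, h⟩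
    rcases hm with h' | h'
    · exact Or.inl h'
    · exact Or.inr (Or.inl h')
  · exact ⟨z, Or.inr (Or.inr rfl), le_trans h h1, le_trans h h2, le_refl _⟩

theorem exists_min4 (x y z w : ℝ) :
    ∃ m, (m = x ∨ m = y ∨ m = z ∨ m = w) ∧ m ≤ x ∧ m ≤ y ∧ m ≤ z ∧ m ≤ w := by
  obtain ⟨m, hm, h1, h2, h3⟩ := exists_min3 x y z
  rcases le_total m w with h | h
  · refine ⟨m, ?_, h1, h2, h3, h⟩
    rcases hm with h' | h' | h'
    · exact Or.inl h'
    · exact Or.inr (Or.inl h')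
    · exact Or.inr (Or.inr (Or.inl h'))
  · exact ⟨w, Or.inr (Or.inr (Or.inr rfl)), le_trans h h1, le_trans h h2, le_trans h h3, le_refl _⟩

/-- feasibility of a planar system of bounds on `a`, `b`, `a + b`, `a - b` -/
theorem octagon (La Ua Lb Ub Ls Us Ld Ud : ℝ) (h1 : La ≤ Ua) (h2 : Lb ≤ Ub) (h3 : Ls ≤ Us)
    (h4 : Ld ≤ Ud) (h5 : La + Lb ≤ Us) (h6 : Ls ≤ Ua + Ub) (h7 : La ≤ Ud + Ub)
    (h8 : Ld + Lb ≤ Ua) (h9 : Ls + Ld ≤ 2 * Ua) (h10 : 2 * La ≤ Us + Ud)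
    (h11 : Ls ≤ 2 * Ub + Ud) (h12 : 2 * Lb + Ld ≤ Us) :
    ∃ a b : ℝ, La ≤ a ∧ a ≤ Ua ∧ Lb ≤ b ∧ b ≤ Ub ∧ Ls ≤ a + b ∧ a + b ≤ Us ∧
      Ld ≤ a - b ∧ a - b ≤ Ud := by
  obtain ⟨a, ha, a1, a2, a3⟩ := exists_max3 La (Lb + Ld) (max (Ls - Ub) ((Ls + Ld) / 2))
  have a4 : Ls - Ub ≤ a := le_trans (le_max_left _ _) a3
  have a5 : (Ls + Ld) / 2 ≤ a := le_trans (le_max_right _ _) a3
  have u1 : a ≤ Ua := by
    rcases ha with rfl | rfl | rfl
    · exact h1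
    · linarith
    · exact max_le (by linarith) (by linarith)
  have u2 : a ≤ Us - Lb := by
    rcases ha with rfl | rfl | rfl
    · linarith
    · linarith
    · exact max_le (by linarith) (by linarith)
  have u3 : a ≤ Ub + Ud := by
    rcases ha with rfl | rfl | rfl
    · linarith
    · linarith
    · exact max_le (by linarith) (by linarith)
  have u4 : a ≤ (Us + Ud) / 2 := by
    rcases ha with rfl | rfl | rfl
    · linarith
    · linarith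
    · exact max_le (by linarith) (by linarith)
  obtain ⟨b, hb, b1, b2, b3⟩ := exists_max3 Lb (Ls - a) (a - Ud)
  refine ⟨a, b, a1, u1, b1, ?_, by linarith, ?_, ?_, by linarith⟩
  · rcases hb with rfl | rfl | rfl <;> linarith
  · rcases hb with rfl | rfl | rfl <;> linarith
  · rcases hb with rfl | rfl | rfl <;> linarith

end Vale.Agent.Helper28.Cut
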