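import Mathlib
import Vale.Agent.Helper28.CutFive0

namespace Vale.Agent.Helper28.Cut

theorem ext_c7 (d01 d02 d03 d04 d12 d13 d14 d23 d24 d34 : ℝ) (h : ExtHyp d01 d02 d03 d04 d12 d13 d14 d23 d24 d34) (La Ud Ub : ℝ)
    (hLa : La = 0 ∨ La = -(1 / 2) * d01 - (1 / 2) * d02 + (1 / 2) * d03 - (1 / 2) * d04 + (1 / 2) * d12 - (1 / 2) * d23 + (1 / 2) * d24 ∨ La = -(1 / 2) * d01 + (1 / 2) * d03 + (1 / 2) * d12 - (1 / 2) * d13 - (1 / 2) * d14 - (1 / 2) * d23 + (1 / 2) * d34) (hUd : Ud = (1 / 2) * d02 - (1 / 2) * d03 + (1 / 2) * d13 - (1 / 2) * d14 + (1 / 2) * d24 ∨ Ud = -(1 / 2) * d03 + (1 / 2) * d04 + (1 / 2) * d13 - (1 / 2) * d14 - (1 / 2) * d23 + (1 / 2) * d24 + (1 / 2) * d34) (hUb : Ub = -(1 / 2) * d02 + (1 / 2) * d03 + (1 / 2) * d12 - (1 / 2) * d13 ∨ Ub = (1 / 2) * d01 - (1 / 2) * d04 + (1 / 2) * d14 ∨ Ub = (1 /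 2) * d23 - (1 / 2) * d24 + (1 / 2) * d34) :
    La ≤ Ud + Ub := by
  obtain ⟨t0_12, t0_14, t0_24, t0_34, t1_03, t1_04, t1_24, t1_34, t2_03, t2_04, t2_14, t2_34, t3_04, t3_12, t3_14, t3_24, t4_01, t4_02, t4_03, t4_12, t4_13, t4_23, p03, p12, hs1, hs2, hc0, hc1, hc2, hc3⟩ := h
  rcases hLa with rfl | rfl | rfl <;> rcases hUd with rfl | rfl <;> rcases hUb with rfl | rfl | rfl <;> linarith only [t0_12, t0_14, t1_03, t2_03, t2_04, t2_14, t2_34, t3_12, t3_14, t4_02, t4_03, t4_12, t4_23, p03, p12, hc1]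

theorem ext_c8 (d01 d02 d03 d04 d12 d13 d14 d23 d24 d34 : ℝ) (h : ExtHyp d01 d02 d03 d04 d12 d13 d14 d23 d24 d34) (Ld Lb Ua : ℝ)
    (hLd : Ld = -(1 / 2) * d01 + (1 / 2) * d03 - (1 / 2) * d14 - (1 / 2) * d23 + (1 / 2) * d24 ∨ Ld = (1 / 2) * d03 - (1 / 2) * d04 + (1 / 2) * d13 - (1 / 2) * d14 - (1 / 2) * d23 + (1 / 2) * d24 - (1 / 2) * d34) (hLb : Lb = 0 ∨ Lb = -(1 / 2) * d01 - (1 / 2) * d02 + (1 / 2) * d03 - (1 / 2) * d04 + (1 / 2) * d12 - (1 / 2) * d13 + (1 / 2) * d14 ∨ Lb = -(1 / 2) * d02 + (1 / 2) * d03 + (1 / 2) * d12 - (1 / 2) * d13 - (1 / 2) * d23 - (1 / 2) * d24 + (1 / 2) * d34) (hUa : Ua = -(1 / 2) * d01 + (1 / 2) * d03 + (1 / 2) * d12 - (1 / 2) * d23 ∨ Ua = (1 / 2) * d02 - (1 / 2) * d04 + (1 / 2) * d24 ∨ Ua = (1 / 2) * d13 - (1 / 2) * d14 + (1 / 2) * d34) :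
    Ld + Lb ≤ Ua := by
  obtain ⟨t0_12, t0_14, t0_24, t0_34, t1_03, t1_04, t1_24, t1_34, t2_03, t2_04, t2_14, t2_34, t3_04, t3_12, t3_14, t3_24, t4_01, t4_02, t4_03, t4_12, t4_13, t4_23, p03, p12, hs1, hs2, hc0, hc1, hc2, hc3⟩ := h
  rcases hLd with rfl | rfl <;> rcases hLb with rfl | rfl | rfl <;> rcases hUa with rfl | rfl | rfl <;> linarith only [t0_12, t0_24, t1_03, t1_04, t1_24, t1_34, t2_03, t3_12, t3_24, t4_01, t4_03, t4_12, t4_13, p03, p12, hc2]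

theorem ext_c9 (d01 d02 d03 d04 d12 d13 d14 d23 d24 d34 : ℝ) (h : ExtHyp d01 d02 d03 d04 d12 d13 d14 d23 d24 d34) (Ls Ld Ua : ℝ)
    (hLs : Ls = -(1 / 2) * d01 - (1 / 2) * d02 + (1 / 2) * d03 - (1 / 2) * d04 + d12 - (1 / 2) * d13 - (1 / 2) * d23 + (1 / 2) * d34 ∨ Ls = (1 / 2) * d03 - (1 / 2) * d04 + d12 - (1 / 2) * d13 - (1 / 2) * d14 - (1 / 2) * d23 - (1 / 2) * d24 + (1 / 2) * d34) (hLd : Ld = -(1 / 2) * d01 + (1 / 2) * d03 - (1 / 2) * d14 - (1 / 2) * d23 + (1 / 2) * d24 ∨ Ld = (1 / 2) * d03 - (1 / 2) * d04 + (1 / 2) * d13 - (1 / 2) * d14 - (1 / 2) * d23 + (1 / 2) * d24 - (1 / 2) * d34) (hUa : Ua = -(1 / 2) * d01 + (1 / 2) * d03 + (1 / 2) * d12 - (1 / 2) * d23 ∨ Ua = (1 / 2) * d02 - (1 / 2) * d04 + (1 / 2) * d24 ∨ Ua = (1 / 2) * d13 - (1 / 2) * d14 + (1 / 2) * d34) :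
    Ls + Ld ≤ 2 * Ua := by
  obtain ⟨t0_12, t0_14, t0_24, t0_34, t1_03, t1_04, t1_24, t1_34, t2_03, t2_04, t2_14, t2_34, t3_04, t3_12, t3_14, t3_24, t4_01, t4_02, t4_03, t4_12, t4_13, t4_23, p03, p12, hs1, hs2, hc0, hc1, hc2, hc3⟩ := h
  rcases hLs with rfl | rfl <;> rcases hLd with rfl | rfl <;> rcases hUa with rfl | rfl | rfl <;> linarith only [t0_12, t0_24, t1_03, t1_34, t2_03, t3_12, t4_01, t4_03, t4_12, p03, p12]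

theorem ext_c10 (d01 d02 d03 d04 d12 d13 d14 d23 d24 d34 : ℝ) (h : ExtHyp d01 d02 d03 d04 d12 d13 d14 d23 d24 d34) (La Us Ud : ℝ)
    (hLa : La = 0 ∨ La = -(1 / 2) * d01 - (1 / 2) * d02 + (1 / 2) * d03 - (1 / 2) * d04 + (1 / 2) * d12 - (1 / 2) * d23 + (1 / 2) * d24 ∨ La = -(1 / 2) * d01 + (1 / 2) * d03 + (1 / 2) * d12 - (1 / 2) * d13 - (1 / 2) * d14 - (1 / 2) * d23 + (1 / 2) * d34) (hUs : Us = (1 / 2) * d03 - (1 / 2) * d04 + (1 / 2) * d34 ∨ Us = (1 / 2) * d03 - (1 / 2) * d04 - (1 / 2) * d13 + (1 / 2) * d14 - (1 / 2) * d23 + (1 / 2) * d24 + (1 / 2) * d34) (hUd : Ud = (1 / 2) * d02 - (1 / 2) * d03 + (1 / 2) * d13 - (1 / 2) * d14 + (1 / 2) * d24 ∨ Ud = -(1 / 2) * d03 + (1 / 2) * d04 + (1 / 2) * d13 - (1 / 2) * d14 - (1 / 2) * d23 + (1 / 2) * d24 + (1 / 2) * d34) :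
    2 * La ≤ Us + Ud := by
  obtain ⟨t0_12, t0_14, t0_24, t0_34, t1_03, t1_04, t1_24, t1_34, t2_03, t2_04, t2_14, t2_34, t3_04, t3_12, t3_14, t3_24, t4_01, t4_02, t4_03, t4_12, t4_13, t4_23, p03, p12, hs1, hs2, hc0, hc1, hc2, hc3⟩ := h
  rcases hLa with rfl | rfl | rfl <;> rcases hUs with rfl | rfl <;> rcases hUd with rfl | rfl <;> linarith only [t0_12, t1_03, t2_03, t2_04, t3_12, t3_14, t4_03, t4_12, t4_23, p03, p12]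

theorem ext_c11 (d01 d02 d03 d04 d12 d13 d14 d23 d24 d34 : ℝ) (h : ExtHyp d01 d02 d03 d04 d12 d13 d14 d23 d24 d34) (Ls Ub Ud : ℝ)
    (hLs : Ls = -(1 / 2) * d01 - (1 / 2) * d02 + (1 / 2) * d03 - (1 / 2) * d04 + d12 - (1 / 2) * d13 - (1 / 2) * d23 + (1 / 2) * d34 ∨ Ls = (1 / 2) * d03 - (1 / 2) * d04 + d12 - (1 / 2) * d13 - (1 / 2) * d14 - (1 / 2) * d23 - (1 / 2) * d24 + (1 / 2) * d34) (hUb : Ub = -(1 / 2) * d02 + (1 / 2) * d03 + (1 / 2) * d12 - (1 / 2) * d13 ∨ Ub = (1 / 2) * d01 - (1 / 2) * d04 + (1 / 2) * d14 ∨ Ub = (1 / 2) * d23 - (1 / 2) * d24 + (1 / 2) * d34) (hUd : Ud = (1 / 2) * d02 - (1 / 2) * d03 + (1 / 2) * d13 - (1 / 2) * d14 + (1 / 2) * d24 ∨ Ud = -(1 / 2) * d03 + (1 / 2) * d04 + (1 / 2) * d13 - (1 / 2) * d14 - (1 / 2) * d23 + (1 / 2) * d24 + (1 / 2) * d34) :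
    Ls ≤ 2 * Ub + Ud := by
  obtain ⟨t0_12, t0_14, t0_24, t0_34, t1_03, t1_04, t1_24, t1_34, t2_03, t2_04, t2_14, t2_34, t3_04, t3_12, t3_14, t3_24, t4_01, t4_02, t4_03, t4_12, t4_13, t4_23, p03, p12, hs1, hs2, hc0, hc1, hc2, hc3⟩ := h
  rcases hLs with rfl | rfl <;> rcases hUb with rfl | rfl | rfl <;> rcases hUd with rfl | rfl <;> linarith only [t0_12, t0_14, t1_03, t2_03, t2_34, t3_12, t4_02, t4_03, t4_12, p03, p12]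

theorem ext_c12 (d01 d02 d03 d04 d12 d13 d14 d23 d24 d34 : ℝ) (h : ExtHyp d01 d02 d03 d04 d12 d13 d14 d23 d24 d34) (Lb Ld Us : ℝ)
    (hLb : Lb = 0 ∨ Lb = -(1 / 2) * d01 - (1 / 2) * d02 + (1 / 2) * d03 - (1 / 2) * d04 + (1 / 2) * d12 - (1 / 2) * d13 + (1 / 2) * d14 ∨ Lb = -(1 / 2) * d02 + (1 / 2) * d03 + (1 / 2) * d12 - (1 / 2) * d13 - (1 / 2) * d23 - (1 / 2) * d24 + (1 / 2) * d34) (hLd : Ld = -(1 / 2) * d01 + (1 / 2) * d03 - (1 / 2) * d14 - (1 / 2) * d23 + (1 / 2) * d24 ∨ Ld = (1 / 2) * d03 - (1 / 2) * d04 + (1 / 2) * d13 - (1 / 2) * d14 - (1 / 2) * d23 + (1 / 2) * d24 - (1 / 2) * d34) (hUs : Us = (1 / 2) * d03 - (1 / 2) * d04 + (1 / 2) * d34 ∨ Us = (1 / 2) * d03 - (1 / 2) * d04 - (1 / 2) * d13 + (1 / 2) * d14 - (1 / 2) * d23 + (1 / 2) * d24 + (1 / 2) * d34) :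
    2 * Lb + Ld ≤ Us := by
  obtain ⟨t0_12, t0_14, t0_24, t0_34, t1_03, t1_04, t1_24, t1_34, t2_03, t2_04, t2_14, t2_34, t3_04, t3_12, t3_14, t3_24, t4_01, t4_02, t4_03, t4_12, t4_13, t4_23, p03, p12, hs1, hs2, hc0, hc1, hc2, hc3⟩ := h
  rcases hLb with rfl | rfl | rfl <;> rcases hLd with rfl | rfl <;> rcases hUs with rfl | rfl <;> linarith only [t0_12, t1_03, t1_04, t2_03, t3_12, t3_24, t4_03, t4_12, t4_13, p03, p12]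

end Vale.Agent.Helper28.Cut
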