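import Mathlib
import Vale.Agent.Helper28.CutFive1
import Vale.Agent.Helper28.CutFive2a
import Vale.Agent.Helper28.CutFive2b

namespace Vale.Agent.Helper28.Cut

/-- the planar part of the extension: the two split parameters -/
theorem ext_ab (d01 d02 d03 d04 d12 d13 d14 d23 d24 d34 : ℝ) (h : ExtHyp d01 d02 d03 d04 d12 d13 d14 d23 d24 d34) :
    ∃ a b : ℝ, (0 ≤ a) ∧
      (-(1 / 2) * d01 - (1 / 2) * d02 + (1 / 2) * d03 - (1 / 2) * d04 + (1 / 2) * d12 - (1 / 2) * d23 + (1 / 2) * d24 ≤ a) ∧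
      (-(1 / 2) * d01 + (1 / 2) * d03 + (1 / 2) * d12 - (1 / 2) * d13 - (1 / 2) * d14 - (1 / 2) * d23 + (1 / 2) * d34 ≤ a) ∧
      (a ≤ -(1 / 2) * d01 + (1 / 2) * d03 + (1 / 2) * d12 - (1 / 2) * d23) ∧
      (a ≤ (1 / 2) * d02 - (1 / 2) * d04 + (1 / 2) * d24) ∧
      (a ≤ (1 / 2) * d13 - (1 / 2) * d14 + (1 / 2) * d34) ∧
      (0 ≤ b) ∧
      (-(1 / 2) * d01 - (1 / 2) * d02 + (1 / 2) * d03 - (1 / 2) * d04 + (1 / 2) * d12 - (1 / 2) * d13 + (1 / 2) * d14 ≤ b) ∧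
      (-(1 / 2) * d02 + (1 / 2) * d03 + (1 / 2) * d12 - (1 / 2) * d13 - (1 / 2) * d23 - (1 / 2) * d24 + (1 / 2) * d34 ≤ b) ∧
      (b ≤ -(1 / 2) * d02 + (1 / 2) * d03 + (1 / 2) * d12 - (1 / 2) * d13) ∧
      (b ≤ (1 / 2) * d01 - (1 / 2) * d04 + (1 / 2) * d14) ∧
      (b ≤ (1 / 2) * d23 - (1 / 2) * d24 + (1 / 2) * d34) ∧
      (-(1 / 2) * d01 - (1 / 2) * d02 + (1 / 2) * d03 - (1 / 2) * d04 + d12 - (1 / 2) * d13 - (1 / 2) * d23 + (1 / 2) * d34 ≤ a + b) ∧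
      ((1 / 2) * d03 - (1 / 2) * d04 + d12 - (1 / 2) * d13 - (1 / 2) * d14 - (1 / 2) * d23 - (1 / 2) * d24 + (1 / 2) * d34 ≤ a + b) ∧
      (a + b ≤ (1 / 2) * d03 - (1 / 2) * d04 + (1 / 2) * d34) ∧
      (a + b ≤ (1 / 2) * d03 - (1 / 2) * d04 - (1 / 2) * d13 + (1 / 2) * d14 - (1 / 2) * d23 + (1 / 2) * d24 + (1 / 2) * d34) ∧
      (-(1 / 2) * d01 + (1 / 2) * d03 - (1 / 2) * d14 - (1 / 2) * d23 + (1 / 2) * d24 ≤ a - b) ∧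
      ((1 / 2) * d03 - (1 / 2) * d04 + (1 / 2) * d13 - (1 / 2) * d14 - (1 / 2) * d23 + (1 / 2) * d24 - (1 / 2) * d34 ≤ a - b) ∧
      (a - b ≤ (1 / 2) * d02 - (1 / 2) * d03 + (1 / 2) * d13 - (1 / 2) * d14 + (1 / 2) * d24) ∧
      (a - b ≤ -(1 / 2) * d03 + (1 / 2) * d04 + (1 / 2) * d13 - (1 / 2) * d14 - (1 / 2) * d23 + (1 / 2) * d24 + (1 / 2) * d34) := by
  obtain ⟨La, hLa, hLa0, hLa1, hLa2⟩ := exists_max3 (0) (-(1 / 2) * d01 - (1 / 2) * d02 + (1 / 2) * d03 - (1 / 2) * d04 + (1 / 2) * d12 - (1 / 2) * d23 + (1 / 2) * d24) (-(1 / 2) * d01 + (1 / 2) * d03 + (1 / 2) * d12 - (1 / 2) * d13 - (1 / 2) * d14 - (1 / 2) * d23 + (1 / 2) * d34)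
  obtain ⟨Ua, hUa, hUa0, hUa1, hUa2⟩ := exists_min3 (-(1 / 2) * d01 + (1 / 2) * d03 + (1 / 2) * d12 - (1 / 2) * d23) ((1 / 2) * d02 - (1 / 2) * d04 + (1 / 2) * d24) ((1 / 2) * d13 - (1 / 2) * d14 + (1 / 2) * d34)
  obtain ⟨Lb, hLb, hLb0, hLb1, hLb2⟩ := exists_max3 (0) (-(1 / 2) * d01 - (1 / 2) * d02 + (1 / 2) * d03 - (1 / 2) * d04 + (1 / 2) * d12 - (1 / 2) * d13 + (1 / 2) * d14) (-(1 / 2) * d02 + (1 / 2) * d03 + (1 / 2) * d12 - (1 / 2) * d13 - (1 / 2) * d23 - (1 / 2) * d24 + (1 / 2) * d34)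
  obtain ⟨Ub, hUb, hUb0, hUb1, hUb2⟩ := exists_min3 (-(1 / 2) * d02 + (1 / 2) * d03 + (1 / 2) * d12 - (1 / 2) * d13) ((1 / 2) * d01 - (1 / 2) * d04 + (1 / 2) * d14) ((1 / 2) * d23 - (1 / 2) * d24 + (1 / 2) * d34)
  obtain ⟨Ls, hLs, hLs0, hLs1⟩ := exists_max2 (-(1 / 2) * d01 - (1 / 2) * d02 + (1 / 2) * d03 - (1 / 2) * d04 + d12 - (1 / 2) * d13 - (1 / 2) * d23 + (1 / 2) * d34) ((1 / 2) * d03 - (1 / 2) * d04 + d12 - (1 / 2) * d13 - (1 / 2) * d14 - (1 / 2) * d23 - (1 / 2) * d24 + (1 / 2) * d34)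
  obtain ⟨Us, hUs, hUs0, hUs1⟩ := exists_min2 ((1 / 2) * d03 - (1 / 2) * d04 + (1 / 2) * d34) ((1 / 2) * d03 - (1 / 2) * d04 - (1 / 2) * d13 + (1 / 2) * d14 - (1 / 2) * d23 + (1 / 2) * d24 + (1 / 2) * d34)
  obtain ⟨Ld, hLd, hLd0, hLd1⟩ := exists_max2 (-(1 / 2) * d01 + (1 / 2) * d03 - (1 / 2) * d14 - (1 / 2) * d23 + (1 / 2) * d24) ((1 / 2) * d03 - (1 / 2) * d04 + (1 / 2) * d13 - (1 / 2) * d14 - (1 / 2) * d23 + (1 / 2) * d24 - (1 / 2) * d34)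
  obtain ⟨Ud, hUd, hUd0, hUd1⟩ := exists_min2 ((1 / 2) * d02 - (1 / 2) * d03 + (1 / 2) * d13 - (1 / 2) * d14 + (1 / 2) * d24) (-(1 / 2) * d03 + (1 / 2) * d04 + (1 / 2) * d13 - (1 / 2) * d14 - (1 / 2) * d23 + (1 / 2) * d24 + (1 / 2) * d34)
  have kc1 := ext_c1 d01 d02 d03 d04 d12 d13 d14 d23 d24 d34 h La Ua hLa hUa
  have kc2 := ext_c2 d01 d02 d03 d04 d12 d13 d14 d23 d24 d34 h Lb Ub hLb hUb
  have kc3 := ext_c3 d01 d02 d03 d04 d12 d13 d14 d23 d24 d34 h Ls Us hLs hUs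
  have kc4 := ext_c4 d01 d02 d03 d04 d12 d13 d14 d23 d24 d34 h Ld Ud hLd hUd
  have kc5 := ext_c5 d01 d02 d03 d04 d12 d13 d14 d23 d24 d34 h La Lb Us hLa hLb hUs
  have kc6 := ext_c6 d01 d02 d03 d04 d12 d13 d14 d23 d24 d34 h Ls Ua Ub hLs hUa hUb
  have kc7 := ext_c7 d01 d02 d03 d04 d12 d13 d14 d23 d24 d34 h La Ud Ub hLa hUd hUb
  have kc8 := ext_c8 d01 d02 d03 d04 d12 d13 d14 d23 d24 d34 h Ld Lb Ua hLd hLb hUa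
  have kc9 := ext_c9 d01 d02 d03 d04 d12 d13 d14 d23 d24 d34 h Ls Ld Ua hLs hLd hUa
  have kc10 := ext_c10 d01 d02 d03 d04 d12 d13 d14 d23 d24 d34 h La Us Ud hLa hUs hUd
  have kc11 := ext_c11 d01 d02 d03 d04 d12 d13 d14 d23 d24 d34 h Ls Ub Ud hLs hUb hUd
  have kc12 := ext_c12 d01 d02 d03 d04 d12 d13 d14 d23 d24 d34 h Lb Ld Us hLb hLd hUs
  obtain ⟨a, b, ha1, ha2, hb1, hb2, hp1, hp2, hm1, hm2⟩ :=
    octagon La Ua Lb Ub Ls Us Ld Ud kc1 kc2 kc3 kc4 kc5 kc6 kc7 kc8 kc9 kc10 kc11 kc12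
  exact ⟨a, b, le_trans hLa0 ha1,
    le_trans hLa1 ha1,
    le_trans hLa2 ha1,
    le_trans ha2 hUa0,
    le_trans ha2 hUa1,
    le_trans ha2 hUa2,
    le_trans hLb0 hb1,
    le_trans hLb1 hb1,
    le_trans hLb2 hb1,
    le_trans hb2 hUb0,
    le_trans hb2 hUb1,
    le_trans hb2 hUb2,
    le_trans hLs0 hp1,
    le_trans hLs1 hp1,
    le_trans hp2 hUs0,
    le_trans hp2 hUs1,
    le_trans hLd0 hm1,
    le_trans hLd1 hm1,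
    le_trans hm2 hUd0,
    le_trans hm2 hUd1⟩

/-- existence of the three free parameters of the extension -/
theorem ext_param (d01 d02 d03 d04 d12 d13 d14 d23 d24 d34 : ℝ) (h : ExtHyp d01 d02 d03 d04 d12 d13 d14 d23 d24 d34) :
    ∃ a b s : ℝ, (0 ≤ a) ∧
      (a ≤ -(1 / 2) * d01 + (1 / 2) * d03 + (1 / 2) * d12 - (1 / 2) * d23) ∧
      (0 ≤ b) ∧
      (b ≤ -(1 / 2) * d02 + (1 / 2) * d03 + (1 / 2) * d12 - (1 / 2) * d13) ∧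
      (0 ≤ s) ∧
      (0 ≤ -(1 / 2) * a - (1 / 2) * b + (1 / 4) * d03 - (1 / 4) * d04 - (1 / 4) * d13 + (1 / 4) * d14 - (1 / 4) * d23 + (1 / 4) * d24 + (1 / 4) * d34 - (1 / 2) * s) ∧
      (-(1 / 2) * a - (1 / 2) * b + (1 / 4) * d03 - (1 / 4) * d04 - (1 / 4) * d13 + (1 / 4) * d14 - (1 / 4) * d23 + (1 / 4) * d24 + (1 / 4) * d34 - (1 / 2) * s ≤ (1 / 2) * d01 + (1 / 2) * d02 - (1 / 2) * d12) ∧
      (0 ≤ -(1 / 2) * a + (1 / 2) * b - (1 / 4) * d03 + (1 / 4) * d04 + (1 / 4) * d13 - (1 / 4) * d14 - (1 / 4) * d23 + (1 / 4) * d24 + (1 / 4) * d34 - (1 / 2) * s) ∧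
      (-(1 / 2) * a + (1 / 2) * b - (1 / 4) * d03 + (1 / 4) * d04 + (1 / 4) * d13 - (1 / 4) * d14 - (1 / 4) * d23 + (1 / 4) * d24 + (1 / 4) * d34 - (1 / 2) * s ≤ (1 / 2) * d01 - (1 / 2) * d03 + (1 / 2) * d13) ∧
      (0 ≤ (1 / 2) * a - (1 / 2) * b - (1 / 4) * d03 + (1 / 4) * d04 - (1 / 4) * d13 + (1 / 4) * d14 + (1 / 4) * d23 - (1 / 4) * d24 + (1 / 4) * d34 - (1 / 2) * s) ∧
      ((1 / 2) * a - (1 / 2) * b - (1 / 4) * d03 + (1 / 4) * d04 - (1 / 4) * d13 + (1 / 4) * d14 + (1 / 4) * d23 - (1 / 4) * d24 + (1 / 4) * d34 - (1 / 2) * s ≤ (1 / 2) * d02 - (1 / 2) * d03 + (1 / 2) * d23) ∧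
      (0 ≤ (1 / 2) * a + (1 / 2) * b - (1 / 4) * d03 + (1 / 4) * d04 - (1 / 2) * d12 + (1 / 4) * d13 + (1 / 4) * d14 + (1 / 4) * d23 + (1 / 4) * d24 - (1 / 4) * d34 - (1 / 2) * s) ∧
      ((1 / 2) * a + (1 / 2) * b - (1 / 4) * d03 + (1 / 4) * d04 - (1 / 2) * d12 + (1 / 4) * d13 + (1 / 4) * d14 + (1 / 4) * d23 + (1 / 4) * d24 - (1 / 4) * d34 - (1 / 2) * s ≤ -(1 / 2) * d12 + (1 / 2) * d13 + (1 / 2) * d23) := by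
  obtain ⟨a, b, fLa0, fLa1, fLa2, fUa0, fUa1, fUa2, fLb0, fLb1, fLb2, fUb0, fUb1, fUb2, fLs0, fLs1, fUs0, fUs1, fLd0, fLd1, fUd0, fUd1⟩ := ext_ab d01 d02 d03 d04 d12 d13 d14 d23 d24 d34 h
  obtain ⟨s, hs, hn0, hn1, hn2, hn3⟩ := exists_min4 (-a - b + (1 / 2) * d03 - (1 / 2) * d04 - (1 / 2) * d13 + (1 / 2) * d14 - (1 / 2) * d23 + (1 / 2) * d24 + (1 / 2) * d34) (-a + b - (1 / 2) * d03 + (1 / 2) * d04 + (1 / 2) * d13 - (1 / 2) * d14 - (1 / 2) * d23 + (1 / 2) * d24 + (1 / 2) * d34) (a - b - (1 / 2) * d03 + (1 / 2) * d04 - (1 / 2) * d13 + (1 / 2) * d14 + (1 / 2) * d23 - (1 / 2) * d24 + (1 / 2) * d34) (a + b - (1 / 2) * d03 + (1 / 2) * d04 - d12 + (1 / 2) * d13 + (1 / 2) * d14 + (1 / 2) * d23 + (1 / 2) * d24 - (1 / 2) * d34)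
  obtain ⟨t0_12, t0_14, t0_24, t0_34, t1_03, t1_04, t1_24, t1_34, t2_03, t2_04, t2_14, t2_34, t3_04, t3_12, t3_14, t3_24, t4_01, t4_02, t4_03, t4_12, t4_13, t4_23, p03, p12, hs1, hs2, hc0, hc1, hc2, hc3⟩ := h
  refine ⟨a, b, s, ?_, ?_, ?_, ?_, ?_, ?_, ?_, ?_, ?_, ?_, ?_, ?_, ?_⟩
  · linarith only [fLa0]
  · linarith only [fUa0]
  · linarith only [fLb0]
  · linarith only [fUb0]
  · rcases hs with rfl | rfl | rfl | rfl <;> linarith only [fLs1, fUs1, fLd1, fUd1]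
  · linarith only [hn0]
  · rcases hs with rfl | rfl | rfl | rfl <;> linarith only [t0_12, fLa1, fLb1, fLs0]
  · linarith only [hn1]
  · rcases hs with rfl | rfl | rfl | rfl <;> linarith only [t1_03, fLa2, fUb1, fLd0]
  · linarith only [hn2]
  · rcases hs with rfl | rfl | rfl | rfl <;> linarith only [t2_03, fUa1, fLb2, fUd0]
  · linarith only [hn3]
  · rcases hs with rfl | rfl | rfl | rfl <;> linarith only [t3_12, fUa2, fUb2, fUs0]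

end Vale.Agent.Helper28.Cut
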