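import Mathlib
import Vale.Agent.Helper28.CutFive2

namespace Vale.Agent.Helper28.Cut

/-- the flat form of a decomposition of a five-point semimetric into cut semimetrics: weights
`l i` of the singleton cuts and `l ij` of the pair cuts -/
def FlatDecomp (d01 d02 d03 d04 d12 d13 d14 d23 d24 d34 : ℝ) : Prop :=
  ∃ l0 l1 l2 l3 l4 l01 l02 l03 l04 l12 l13 l14 l23 l24 l34 : ℝ,
    0 ≤ l0 ∧ 0 ≤ l1 ∧ 0 ≤ l2 ∧ 0 ≤ l3 ∧ 0 ≤ l4 ∧ 0 ≤ l01 ∧ 0 ≤ l02 ∧ 0 ≤ l03 ∧ 0 ≤ l04 ∧ 0 ≤ l12 ∧ 0 ≤ l13 ∧ 0 ≤ l14 ∧ 0 ≤ l23 ∧ 0 ≤ l24 ∧ 0 ≤ l34 ∧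
    (d01 = l0 + l1 + (l02 + l12) + (l03 + l13) + (l04 + l14)) ∧
    (d02 = l0 + l2 + (l01 + l12) + (l03 + l23) + (l04 + l24)) ∧
    (d03 = l0 + l3 + (l01 + l13) + (l02 + l23) + (l04 + l34)) ∧
    (d04 = l0 + l4 + (l01 + l14) + (l02 + l24) + (l03 + l34)) ∧
    (d12 = l1 + l2 + (l01 + l02) + (l13 + l23) + (l14 + l24)) ∧
    (d13 = l1 + l3 + (l01 + l03) + (l12 + l23) + (l14 + l34)) ∧
    (d14 = l1 + l4 + (l01 + l04) + (l12 + l24) + (l13 + l34)) ∧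
    (d23 = l2 + l3 + (l02 + l03) + (l12 + l13) + (l24 + l34)) ∧
    (d24 = l2 + l4 + (l02 + l04) + (l12 + l14) + (l23 + l34)) ∧
    (d34 = l3 + l4 + (l03 + l04) + (l13 + l14) + (l23 + l24))

theorem ext_core (d01 d02 d03 d04 d12 d13 d14 d23 d24 d34 : ℝ) (h : ExtHyp d01 d02 d03 d04 d12 d13 d14 d23 d24 d34) :
    FlatDecomp d01 d02 d03 d04 d12 d13 d14 d23 d24 d34 := by
  obtain ⟨a, b, s, ha0, ha1, hb0, hb1, hs0, hp00, hp01, hp10, hp11, hp20, hp21, hp30, hp31⟩ := ext_param d01 d02 d03 d04 d12 d13 d14 d23 d24 d34 h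
  refine ⟨(1 / 2) * a + (1 / 2) * b + (1 / 2) * d01 + (1 / 2) * d02 - (1 / 4) * d03 + (1 / 4) * d04 - (1 / 2) * d12 + (1 / 4) * d13 - (1 / 4) * d14 + (1 / 4) * d23 - (1 / 4) * d24 - (1 / 4) * d34 + (1 / 2) * s, (1 / 2) * a - (1 / 2) * b + (1 / 2) * d01 - (1 / 4) * d03 - (1 / 4) * d04 + (1 / 4) * d13 + (1 / 4) * d14 + (1 / 4) * d23 - (1 / 4) * d24 - (1 / 4) * d34 + (1 / 2) * s, -(1 / 2) * a + (1 / 2) * b + (1 / 2) * d02 - (1 / 4) * d03 - (1 / 4) * d04 + (1 / 4) * d13 - (1 / 4) * d14 + (1 / 4) * d23 + (1 / 4) * d24 - (1 / 4) * d34 + (1 / 2) * s, -(1 / 2) * a - (1 / 2) * b + (1 / 4) * d03 - (1 / 4) * d04 + (1 / 4) * d13 - (1 / 4) * d14 + (1 / 4) * d23 - (1 / 4) * d24 + (1 / 4) * d34 + (1 / 2) * s, s, -a - (1 / 2) * d01 + (1 / 2) * d03 + (1 / 2) * d12 - (1 / 2) * d23, -b - (1 / 2) * d02 + (1 / 2) * d03 + (1 / 2) * d12 - (1 /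 2) * d13, 0, -(1 / 2) * a - (1 / 2) * b + (1 / 4) * d03 - (1 / 4) * d04 - (1 / 4) * d13 + (1 / 4) * d14 - (1 / 4) * d23 + (1 / 4) * d24 + (1 / 4) * d34 - (1 / 2) * s, 0, b, -(1 / 2) * a + (1 / 2) * b - (1 / 4) * d03 + (1 / 4) * d04 + (1 / 4) * d13 - (1 / 4) * d14 - (1 / 4) * d23 + (1 / 4) * d24 + (1 / 4) * d34 - (1 / 2) * s, a, (1 / 2) * a - (1 / 2) * b - (1 / 4) * d03 + (1 / 4) * d04 - (1 / 4) * d13 + (1 / 4) * d14 + (1 / 4) * d23 - (1 / 4) * d24 + (1 / 4) * d34 - (1 / 2) * s, (1 / 2) * a + (1 / 2) * b - (1 / 4) * d03 + (1 / 4) * d04 - (1 / 2) * d12 + (1 / 4) * d13 + (1 / 4) * d14 + (1 / 4) * d23 + (1 / 4) * d24 - (1 / 4) * d34 - (1 / 2) * s, ?_, ?_, ?_, ?_, ?_, ?_, ?_, ?_, ?_, ?_, ?_, ?_, ?_, ?_, ?_, ?_, ?_, ?_, ?_, ?_, ?_, ?_, ?_, ?_, ?_⟩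
  · linarith only [hp01]
  · linarith only [hp11]
  · linarith only [hp21]
  · linarith only [hp31]
  · linarith only [hs0]
  · linarith only [ha1]
  · linarith only [hb1]
  · exact le_refl _
  · linarith only [hp00]
  · exact le_refl _
  · linarith only [hb0]
  · linarith only [hp10]
  · linarith only [ha0]
  · linarith only [hp20]
  · linarith only [hp30]
  · ring
  · ring
  · ring
  · ring
  · ring
  · ring
  · ring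
  · ring
  · ring
  · ring

end Vale.Agent.Helper28.Cut
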