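import Mathlib
import Vale.Agent.Helper28.CutFive0

namespace Vale.Agent.Helper28.Cut

/-- all triangle inequalities and all pentagonal inequalities of a five-point semimetric,
in flat form -/
def Hyp5Flat (d01 d02 d03 d04 d12 d13 d14 d23 d24 d34 : ℝ) : Prop :=
  (d12 ≤ d01 + d02) ∧
  (d13 ≤ d01 + d03) ∧
  (d14 ≤ d01 + d04) ∧
  (d23 ≤ d02 + d03) ∧
  (d24 ≤ d02 + d04) ∧
  (d34 ≤ d03 + d04) ∧
  (d02 ≤ d01 + d12) ∧
  (d03 ≤ d01 + d13) ∧
  (d04 ≤ d01 + d14) ∧
  (d23 ≤ d12 + d13) ∧
  (d24 ≤ d12 + d14) ∧
  (d34 ≤ d13 + d14) ∧
  (d01 ≤ d02 + d12) ∧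
  (d03 ≤ d02 + d23) ∧
  (d04 ≤ d02 + d24) ∧
  (d13 ≤ d12 + d23) ∧
  (d14 ≤ d12 + d24) ∧
  (d34 ≤ d23 + d24) ∧
  (d01 ≤ d03 + d13) ∧
  (d02 ≤ d03 + d23) ∧
  (d04 ≤ d03 + d34) ∧
  (d12 ≤ d13 + d23) ∧
  (d14 ≤ d13 + d34) ∧
  (d24 ≤ d23 + d34) ∧
  (d01 ≤ d04 + d14) ∧
  (d02 ≤ d04 + d24) ∧
  (d03 ≤ d04 + d34) ∧
  (d12 ≤ d14 + d24) ∧
  (d13 ≤ d14 + d34) ∧
  (d23 ≤ d24 + d34) ∧
  (d23 + d24 + d34 + d01 ≤ d02 + d03 + d04 + d12 + d13 + d14) ∧
  (d13 + d14 + d34 + d02 ≤ d01 + d03 + d04 + d12 + d23 + d24) ∧
  (d12 + d14 + d24 + d03 ≤ d01 + d02 + d04 + d13 + d23 + d34) ∧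
  (d12 + d13 + d23 + d04 ≤ d01 + d02 + d03 + d14 + d24 + d34) ∧
  (d03 + d04 + d34 + d12 ≤ d01 + d13 + d14 + d02 + d23 + d24) ∧
  (d02 + d04 + d24 + d13 ≤ d01 + d12 + d14 + d03 + d23 + d34) ∧
  (d02 + d03 + d23 + d14 ≤ d01 + d12 + d13 + d04 + d24 + d34) ∧
  (d01 + d04 + d14 + d23 ≤ d02 + d12 + d24 + d03 + d13 + d34) ∧
  (d01 + d03 + d13 + d24 ≤ d02 + d12 + d23 + d04 + d14 + d34) ∧
  (d01 + d02 + d12 + d34 ≤ d03 + d13 + d23 + d04 + d14 + d24)

theorem max3_cases (x y z : ℝ) : (y ≤ x ∧ z ≤ x) ∨ (x ≤ y ∧ z ≤ y) ∨ (x ≤ z ∧ y ≤ z) := by
  rcases le_total x y with h | h <;> rcases le_total y z with h' | h' <;> rcases le_total x z with h'' | h''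
  all_goals first
    | exact Or.inl ⟨by linarith, by linarith⟩
    | exact Or.inr (Or.inl ⟨by linarith, by linarith⟩)
    | exact Or.inr (Or.inr ⟨by linarith, by linarith⟩)

/-- the core case analysis: a five-point hypermetric, labelled so that the matching `03, 12` of
the first four points is the largest, satisfies the hypotheses of the extension step after a
suitable relabelling -/
theorem hyp5_ext (d01 d02 d03 d04 d12 d13 d14 d23 d24 d34 : ℝ) (h : Hyp5Flat d01 d02 d03 d04 d12 d13 d14 d23 d24 d34)
    (hs1 : d01 + d23 ≤ d03 + d12) (hs2 : d02 + d13 ≤ d03 + d12) :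
    (ExtHyp d01 d02 d03 d04 d12 d13 d14 d23 d24 d34) ∨
    (ExtHyp d03 d04 d02 d01 d34 d23 d13 d24 d14 d12) ∨
    (ExtHyp d02 d04 d03 d01 d24 d23 d12 d34 d14 d13) ∨
    (ExtHyp d02 d03 d04 d01 d23 d24 d12 d34 d13 d14) ∨
    (ExtHyp d13 d14 d12 d01 d34 d23 d03 d24 d04 d02) ∨
    (ExtHyp d12 d14 d13 d01 d24 d23 d02 d34 d04 d03) ∨
    (ExtHyp d12 d13 d14 d01 d23 d24 d02 d34 d03 d04) ∨
    (ExtHyp d02 d04 d01 d03 d24 d12 d23 d14 d34 d13) ∨
    (ExtHyp d01 d04 d02 d03 d14 d12 d13 d24 d34 d23) ∨
    (ExtHyp d01 d02 d04 d03 d12 d14 d13 d24 d23 d34) ∨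
    (ExtHyp d03 d04 d02 d01 d34 d23 d13 d24 d14 d12) ∨
    (ExtHyp d02 d04 d03 d01 d24 d23 d12 d34 d14 d13) ∨
    (ExtHyp d02 d03 d04 d01 d23 d24 d12 d34 d13 d14) := by
  obtain ⟨t0_12, t0_13, t0_14, t0_23, t0_24, t0_34, t1_02, t1_03, t1_04, t1_23, t1_24, t1_34, t2_01, t2_03, t2_04, t2_13, t2_14, t2_34, t3_01, t3_02, t3_04, t3_12, t3_14, t3_24, t4_01, t4_02, t4_03, t4_12, t4_13, t4_23, p01, p02, p03, p04, p12, p13, p14, p23, p24, p34⟩ := h
  by_cases hc0 : 0 ≤ d03 - d04 - d13 + d14 - d23 + d24 + d34
  swap
  · have hf : d03 - d04 - d13 + d14 - d23 + d24 + d34 ≤ 0 := by linarith only [hc0]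
    rcases max3_cases (d02 + d34) (d03 + d24) (d04 + d23) with ⟨hm1, hm2⟩ | ⟨hm1, hm2⟩ | ⟨hm1, hm2⟩
    · right; left
      refine ⟨?_, ?_, ?_, ?_, ?_, ?_, ?_, ?_, ?_, ?_, ?_, ?_, ?_, ?_, ?_, ?_, ?_, ?_, ?_, ?_, ?_, ?_, ?_, ?_, ?_, ?_, ?_, ?_, ?_, ?_⟩
      · linarith only [t0_34]
      · linarith only [t0_13]
      · linarith only [t0_14]
      · linarith only [t0_12]
      · linarith only [t3_02]
      · linarith only [t3_01]
      · linarith only [t3_14]
      · linarith only [t3_12]
      · linarith only [t4_02]
      · linarith only [t4_01]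
      · linarith only [t4_13]
      · linarith only [t4_12]
      · linarith only [t2_01]
      · linarith only [t2_34]
      · linarith only [t2_13]
      · linarith only [t2_14]
      · linarith only [t1_03]
      · linarith only [t1_04]
      · linarith only [t1_02]
      · linarith only [t1_34]
      · linarith only [t1_23]
      · linarith only [t1_24]
      · linarith only [p02]
      · linarith only [p34]
      · linarith only [hm1]
      · linarith only [hm2]
      · linarith only [t1_34, hs1, hm1]
      · linarith only [t1_04, hs2, hm1]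
      · linarith only [t1_02, p14, hf, hm2]
      · linarith only [t1_04, t4_12, hf, hm2]
    · right; right; left
      refine ⟨?_, ?_, ?_, ?_, ?_, ?_, ?_, ?_, ?_, ?_, ?_, ?_, ?_, ?_, ?_, ?_, ?_, ?_, ?_, ?_, ?_, ?_, ?_, ?_, ?_, ?_, ?_, ?_, ?_, ?_⟩
      · linarith only [t0_24]
      · linarith only [t0_12]
      · linarith only [t0_14]
      · linarith only [t0_13]
      · linarith only [t2_03]
      · linarith only [t2_01]
      · linarith only [t2_14]
      · linarith only [t2_13]
      · linarith only [t4_03]
      · linarith only [t4_01]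
      · linarith only [t4_12]
      · linarith only [t4_13]
      · linarith only [t3_01]
      · linarith only [t3_24]
      · linarith only [t3_12]
      · linarith only [t3_14]
      · linarith only [t1_02]
      · linarith only [t1_04]
      · linarith only [t1_03]
      · linarith only [t1_24]
      · linarith only [t1_23]
      · linarith only [t1_34]
      · linarith only [p03]
      · linarith only [p24]
      · linarith only [hm1]
      · linarith only [hm2]
      · linarith only [t1_34, hs1]
      · linarith only [t1_04, t4_12, hf, hm2]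
      · linarith only [t1_02, p14, hf, hm2]
      · linarith only [t1_04, hs2]
    · right; right; right; left
      refine ⟨?_, ?_, ?_, ?_, ?_, ?_, ?_, ?_, ?_, ?_, ?_, ?_, ?_, ?_, ?_, ?_, ?_, ?_, ?_, ?_, ?_, ?_, ?_, ?_, ?_, ?_, ?_, ?_, ?_, ?_⟩
      · linarith only [t0_23]
      · linarith only [t0_12]
      · linarith only [t0_13]
      · linarith only [t0_14]
      · linarith only [t2_04]
      · linarith only [t2_01]
      · linarith only [t2_13]
      · linarith only [t2_14]
      · linarith only [t3_04]
      · linarith only [t3_01]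
      · linarith only [t3_12]
      · linarith only [t3_14]
      · linarith only [t4_01]
      · linarith only [t4_23]
      · linarith only [t4_12]
      · linarith only [t4_13]
      · linarith only [t1_02]
      · linarith only [t1_03]
      · linarith only [t1_04]
      · linarith only [t1_23]
      · linarith only [t1_24]
      · linarith only [t1_34]
      · linarith only [p04]
      · linarith only [p23]
      · linarith only [t4_12, hs2, hf]
      · linarith only [t4_13, hf]
      · linarith only [t1_24, t1_34, t4_01, hs1, hf]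
      · linarith only [t1_04, t4_12, hf]
      · linarith only [t1_04, t4_13, hs2, hf]
      · linarith only [t1_02, t4_23, hf]
  by_cases hc1 : 0 ≤ -d02 + d04 + d12 - d14 - d23 + d24 + d34
  swap
  · have hf : -d02 + d04 + d12 - d14 - d23 + d24 + d34 ≤ 0 := by linarith only [hc1]
    rcases max3_cases (d12 + d34) (d13 + d24) (d14 + d23) with ⟨hm1, hm2⟩ | ⟨hm1, hm2⟩ | ⟨hm1, hm2⟩
    · right; right; right; right; left
      refine ⟨?_, ?_, ?_, ?_, ?_, ?_, ?_, ?_, ?_, ?_, ?_, ?_, ?_, ?_, ?_, ?_, ?_, ?_, ?_, ?_, ?_, ?_, ?_, ?_, ?_, ?_, ?_, ?_, ?_, ?_⟩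
      · linarith only [t1_34]
      · linarith only [t1_03]
      · linarith only [t1_04]
      · linarith only [t1_02]
      · linarith only [t3_12]
      · linarith only [t3_01]
      · linarith only [t3_04]
      · linarith only [t3_02]
      · linarith only [t4_12]
      · linarith only [t4_01]
      · linarith only [t4_03]
      · linarith only [t4_02]
      · linarith only [t2_01]
      · linarith only [t2_34]
      · linarith only [t2_03]
      · linarith only [t2_04]
      · linarith only [t0_13]
      · linarith only [t0_14]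
      · linarith only [t0_12]
      · linarith only [t0_34]
      · linarith only [t0_23]
      · linarith only [t0_24]
      · linarith only [p12]
      · linarith only [p34]
      · linarith only [hm1]
      · linarith only [hm2]
      · linarith only [t0_24, hs1]
      · linarith only [t0_14, t4_03, hf, hm2]
      · linarith only [t0_13, p04, hf, hm2]
      · linarith only [t0_14, hs2]
    · right; right; right; right; right; left
      refine ⟨?_, ?_, ?_, ?_, ?_, ?_, ?_, ?_, ?_, ?_, ?_, ?_, ?_, ?_, ?_, ?_, ?_, ?_, ?_, ?_, ?_, ?_, ?_, ?_, ?_, ?_, ?_, ?_, ?_, ?_⟩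
      · linarith only [t1_24]
      · linarith only [t1_02]
      · linarith only [t1_04]
      · linarith only [t1_03]
      · linarith only [t2_13]
      · linarith only [t2_01]
      · linarith only [t2_04]
      · linarith only [t2_03]
      · linarith only [t4_13]
      · linarith only [t4_01]
      · linarith only [t4_02]
      · linarith only [t4_03]
      · linarith only [t3_01]
      · linarith only [t3_24]
      · linarith only [t3_02]
      · linarith only [t3_04]
      · linarith only [t0_12]
      · linarith only [t0_14]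
      · linarith only [t0_13]
      · linarith only [t0_24]
      · linarith only [t0_23]
      · linarith only [t0_34]
      · linarith only [p13]
      · linarith only [p24]
      · linarith only [hm1]
      · linarith only [hm2]
      · linarith only [t0_24, hs1, hm1]
      · linarith only [t0_14, hs2, hm1]
      · linarith only [t0_13, p04, hf, hm2]
      · linarith only [t0_14, t4_03, hf, hm2]
    · right; right; right; right; right; right; left
      refine ⟨?_, ?_, ?_, ?_, ?_, ?_, ?_, ?_, ?_, ?_, ?_, ?_, ?_, ?_, ?_, ?_, ?_, ?_, ?_, ?_, ?_, ?_, ?_, ?_, ?_, ?_, ?_, ?_, ?_, ?_⟩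
      · linarith only [t1_23]
      · linarith only [t1_02]
      · linarith only [t1_03]
      · linarith only [t1_04]
      · linarith only [t2_14]
      · linarith only [t2_01]
      · linarith only [t2_03]
      · linarith only [t2_04]
      · linarith only [t3_14]
      · linarith only [t3_01]
      · linarith only [t3_02]
      · linarith only [t3_04]
      · linarith only [t4_01]
      · linarith only [t4_23]
      · linarith only [t4_02]
      · linarith only [t4_03]
      · linarith only [t0_12]
      · linarith only [t0_13]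
      · linarith only [t0_14]
      · linarith only [t0_23]
      · linarith only [t0_24]
      · linarith only [t0_34]
      · linarith only [p14]
      · linarith only [p23]
      · linarith only [t4_02, hf]
      · linarith only [t4_03, hs2, hf]
      · linarith only [t0_24, t0_34, t4_01, hs1, hf]
      · linarith only [t0_14, t4_02, hs2, hf]
      · linarith only [t0_14, t4_03, hf]
      · linarith only [t0_13, t4_23, hf]
  by_cases hc2 : 0 ≤ -d01 + d04 + d12 - d13 + d14 - d24 + d34
  swap
  · have hf : -d01 + d04 + d12 - d13 + d14 - d24 + d34 ≤ 0 := by linarith only [hc2]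
    rcases max3_cases (d01 + d24) (d02 + d14) (d04 + d12) with ⟨hm1, hm2⟩ | ⟨hm1, hm2⟩ | ⟨hm1, hm2⟩
    · right; right; right; right; right; right; right; left
      refine ⟨?_, ?_, ?_, ?_, ?_, ?_, ?_, ?_, ?_, ?_, ?_, ?_, ?_, ?_, ?_, ?_, ?_, ?_, ?_, ?_, ?_, ?_, ?_, ?_, ?_, ?_, ?_, ?_, ?_, ?_⟩
      · linarith only [t0_24]
      · linarith only [t0_23]
      · linarith only [t0_34]
      · linarith only [t0_13]
      · linarith only [t2_01]
      · linarith only [t2_03]
      · linarith only [t2_34]
      · linarith only [t2_13]
      · linarith only [t4_01]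
      · linarith only [t4_03]
      · linarith only [t4_23]
      · linarith only [t4_13]
      · linarith only [t1_03]
      · linarith only [t1_24]
      · linarith only [t1_23]
      · linarith only [t1_34]
      · linarith only [t3_02]
      · linarith only [t3_04]
      · linarith only [t3_01]
      · linarith only [t3_24]
      · linarith only [t3_12]
      · linarith only [t3_14]
      · linarith only [p01]
      · linarith only [p24]
      · linarith only [t4_03, hs2, hf]
      · linarith only [t4_13, hf]
      · linarith only [t3_24, t4_03, hf]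
      · linarith only [t3_04, t3_14, t4_23, hs1, hf]
      · linarith only [t3_02, t4_01, hf]
      · linarith only [t3_24, t4_13, hs2, hf]
    · right; right; right; right; right; right; right; right; left
      refine ⟨?_, ?_, ?_, ?_, ?_, ?_, ?_, ?_, ?_, ?_, ?_, ?_, ?_, ?_, ?_, ?_, ?_, ?_, ?_, ?_, ?_, ?_, ?_, ?_, ?_, ?_, ?_, ?_, ?_, ?_⟩
      · linarith only [t0_14]
      · linarith only [t0_13]
      · linarith only [t0_34]
      · linarith only [t0_23]
      · linarith only [t1_02]
      · linarith only [t1_03]
      · linarith only [t1_34]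
      · linarith only [t1_23]
      · linarith only [t4_02]
      · linarith only [t4_03]
      · linarith only [t4_13]
      · linarith only [t4_23]
      · linarith only [t2_03]
      · linarith only [t2_14]
      · linarith only [t2_13]
      · linarith only [t2_34]
      · linarith only [t3_01]
      · linarith only [t3_04]
      · linarith only [t3_02]
      · linarith only [t3_14]
      · linarith only [t3_12]
      · linarith only [t3_24]
      · linarith only [p02]
      · linarith only [p14]
      · linarith only [hm1]
      · linarith only [t4_13, hf, hm1]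
      · linarith only [t3_24, t4_03, hf, hm1]
      · linarith only [t3_24, t4_13, hs2, hf, hm1]
      · linarith only [t3_02, t4_01, hf, hm1]
      · linarith only [t3_04, t3_14, t4_23, hs1, hf, hm1]
    · right; right; right; right; right; right; right; right; right; left
      refine ⟨?_, ?_, ?_, ?_, ?_, ?_, ?_, ?_, ?_, ?_, ?_, ?_, ?_, ?_, ?_, ?_, ?_, ?_, ?_, ?_, ?_, ?_, ?_, ?_, ?_, ?_, ?_, ?_, ?_, ?_⟩
      · linarith only [t0_12]
      · linarith only [t0_13]
      · linarith only [t0_23]
      · linarith only [t0_34]
      · linarith only [t1_04]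
      · linarith only [t1_03]
      · linarith only [t1_23]
      · linarith only [t1_34]
      · linarith only [t2_04]
      · linarith only [t2_03]
      · linarith only [t2_13]
      · linarith only [t2_34]
      · linarith only [t4_03]
      · linarith only [t4_12]
      · linarith only [t4_13]
      · linarith only [t4_23]
      · linarith only [t3_01]
      · linarith only [t3_02]
      · linarith only [t3_04]
      · linarith only [t3_12]
      · linarith only [t3_14]
      · linarith only [t3_24]
      · linarith only [p04]
      · linarith only [p12]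
      · linarith only [hm1]
      · linarith only [t4_03, hs2, hf, hm1]
      · linarith only [t3_24, t4_03, hf, hm1]
      · linarith only [t3_24, hs2]
      · linarith only [t3_14, hs1]
      · linarith only [t3_02, t4_01, hf, hm1]
  by_cases hc3 : 0 ≤ -d01 - d02 + d03 + d04 + d14 + d24 - d34
  swap
  · have hf : -d01 - d02 + d03 + d04 + d14 + d24 - d34 ≤ 0 := by linarith only [hc3]
    rcases max3_cases (d02 + d34) (d03 + d24) (d04 + d23) with ⟨hm1, hm2⟩ | ⟨hm1, hm2⟩ | ⟨hm1, hm2⟩
    · right; right; right; right; right; right; right; right; right; right; left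
      refine ⟨?_, ?_, ?_, ?_, ?_, ?_, ?_, ?_, ?_, ?_, ?_, ?_, ?_, ?_, ?_, ?_, ?_, ?_, ?_, ?_, ?_, ?_, ?_, ?_, ?_, ?_, ?_, ?_, ?_, ?_⟩
      · linarith only [t0_34]
      · linarith only [t0_13]
      · linarith only [t0_14]
      · linarith only [t0_12]
      · linarith only [t3_02]
      · linarith only [t3_01]
      · linarith only [t3_14]
      · linarith only [t3_12]
      · linarith only [t4_02]
      · linarith only [t4_01]
      · linarith only [t4_13]
      · linarith only [t4_12]
      · linarith only [t2_01]
      · linarith only [t2_34]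
      · linarith only [t2_13]
      · linarith only [t2_14]
      · linarith only [t1_03]
      · linarith only [t1_04]
      · linarith only [t1_02]
      · linarith only [t1_34]
      · linarith only [t1_23]
      · linarith only [t1_24]
      · linarith only [p02]
      · linarith only [p34]
      · linarith only [t4_01, hf]
      · linarith only [t4_12, hs1, hf]
      · linarith only [t1_34, t4_01, hs1, hf]
      · linarith only [t1_04, t1_24, t4_13, hs2, hf]
      · linarith only [t1_23, t4_02, hf]
      · linarith only [t1_34, t4_12, hf]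
    · right; right; right; right; right; right; right; right; right; right; right; left
      refine ⟨?_, ?_, ?_, ?_, ?_, ?_, ?_, ?_, ?_, ?_, ?_, ?_, ?_, ?_, ?_, ?_, ?_, ?_, ?_, ?_, ?_, ?_, ?_, ?_, ?_, ?_, ?_, ?_, ?_, ?_⟩
      · linarith only [t0_24]
      · linarith only [t0_12]
      · linarith only [t0_14]
      · linarith only [t0_13]
      · linarith only [t2_03]
      · linarith only [t2_01]
      · linarith only [t2_14]
      · linarith only [t2_13]
      · linarith only [t4_03]
      · linarith only [t4_01]
      · linarith only [t4_12]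
      · linarith only [t4_13]
      · linarith only [t3_01]
      · linarith only [t3_24]
      · linarith only [t3_12]
      · linarith only [t3_14]
      · linarith only [t1_02]
      · linarith only [t1_04]
      · linarith only [t1_03]
      · linarith only [t1_24]
      · linarith only [t1_23]
      · linarith only [t1_34]
      · linarith only [p03]
      · linarith only [p24]
      · linarith only [hm1]
      · linarith only [t4_12, hs1, hf, hm1]
      · linarith only [t1_34, hs1]
      · linarith only [t1_34, t4_12, hf, hm1]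
      · linarith only [t1_23, p14, hf, hm1]
      · linarith only [t1_04, hs2]
    · right; right; right; right; right; right; right; right; right; right; right; right
      refine ⟨?_, ?_, ?_, ?_, ?_, ?_, ?_, ?_, ?_, ?_, ?_, ?_, ?_, ?_, ?_, ?_, ?_, ?_, ?_, ?_, ?_, ?_, ?_, ?_, ?_, ?_, ?_, ?_, ?_, ?_⟩
      · linarith only [t0_23]
      · linarith only [t0_12]
      · linarith only [t0_13]
      · linarith only [t0_14]
      · linarith only [t2_04]
      · linarith only [t2_01]
      · linarith only [t2_13]
      · linarith only [t2_14]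
      · linarith only [t3_04]
      · linarith only [t3_01]
      · linarith only [t3_12]
      · linarith only [t3_14]
      · linarith only [t4_01]
      · linarith only [t4_23]
      · linarith only [t4_12]
      · linarith only [t4_13]
      · linarith only [t1_02]
      · linarith only [t1_03]
      · linarith only [t1_04]
      · linarith only [t1_23]
      · linarith only [t1_24]
      · linarith only [t1_34]
      · linarith only [p04]
      · linarith only [p23]
      · linarith only [hm1]
      · linarith only [t4_01, hf, hm1]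
      · linarith only [t1_34, t4_01, hs1, hf, hm1]
      · linarith only [t1_34, t4_12, hf, hm1]
      · linarith only [t1_04, t4_13, hs1, hf, hm1]
      · linarith only [t1_23, t4_02, hf, hm1]
  left
  refine ⟨?_, ?_, ?_, ?_, ?_, ?_, ?_, ?_, ?_, ?_, ?_, ?_, ?_, ?_, ?_, ?_, ?_, ?_, ?_, ?_, ?_, ?_, ?_, ?_, ?_, ?_, ?_, ?_, ?_, ?_⟩
  · linarith only [t0_12]
  · linarith only [t0_14]
  · linarith only [t0_24]
  · linarith only [t0_34]
  · linarith only [t1_03]
  · linarith only [t1_04]
  · linarith only [t1_24]
  · linarith only [t1_34]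
  · linarith only [t2_03]
  · linarith only [t2_04]
  · linarith only [t2_14]
  · linarith only [t2_34]
  · linarith only [t3_04]
  · linarith only [t3_12]
  · linarith only [t3_14]
  · linarith only [t3_24]
  · linarith only [t4_01]
  · linarith only [t4_02]
  · linarith only [t4_03]
  · linarith only [t4_12]
  · linarith only [t4_13]
  · linarith only [t4_23]
  · linarith only [p03]
  · linarith only [p12]
  · linarith only [hs1]
  · linarith only [hs2]
  · linarith only [hc0]
  · linarith only [hc1]
  · linarith only [hc2]
  · linarith only [hc3]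

end Vale.Agent.Helper28.Cut
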