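import Mathlib

namespace Vale.Agent.Helper28.Cut

/-- averaging over fifteen weighted terms -/
theorem avg15core (l0 l1 l2 l3 l4 l01 l02 l03 l04 l12 l13 l14 l23 l24 l34 e0 e1 e2 e3 e4 e01 e02 e03 e04 e12 e13 e14 e23 e24 e34 : ℝ)
    (h0 : 0 ≤ l0) (h1 : 0 ≤ l1) (h2 : 0 ≤ l2) (h3 : 0 ≤ l3) (h4 : 0 ≤ l4) (h01 : 0 ≤ l01) (h02 : 0 ≤ l02) (h03 : 0 ≤ l03) (h04 : 0 ≤ l04) (h12 : 0 ≤ l12) (h13 : 0 ≤ l13) (h14 : 0 ≤ l14) (h23 : 0 ≤ l23) (h24 : 0 ≤ l24) (h34 : 0 ≤ l34)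
    (hs : l0 * e0 + l1 * e1 + l2 * e2 + l3 * e3 + l4 * e4 + l01 * e01 + l02 * e02 + l03 * e03 + l04 * e04 + l12 * e12 + l13 * e13 + l14 * e14 + l23 * e23 + l24 * e24 + l34 * e34 ≤ 0)
    (hpos : 0 < 4 * l0 + 4 * l1 + 4 * l2 + 4 * l3 + 4 * l4 + 6 * l01 + 6 * l02 + 6 * l03 + 6 * l04 + 6 * l12 + 6 * l13 + 6 * l14 + 6 * l23 + 6 * l24 + 6 * l34) :
    e0 ≤ 0 ∨ e1 ≤ 0 ∨ e2 ≤ 0 ∨ e3 ≤ 0 ∨ e4 ≤ 0 ∨ e01 ≤ 0 ∨ e02 ≤ 0 ∨ e03 ≤ 0 ∨ e04 ≤ 0 ∨ e12 ≤ 0 ∨ e13 ≤ 0 ∨ e14 ≤ 0 ∨ e23 ≤ 0 ∨ e24 ≤ 0 ∨ e34 ≤ 0 := by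
  by_contra h
  simp only [not_or, not_le] at h
  obtain ⟨p0, p1, p2, p3, p4, p01, p02, p03, p04, p12, p13, p14, p23, p24, p34⟩ := h
  have q0 := mul_nonneg h0 p0.le
  have q1 := mul_nonneg h1 p1.le
  have q2 := mul_nonneg h2 p2.le
  have q3 := mul_nonneg h3 p3.le
  have q4 := mul_nonneg h4 p4.le
  have q01 := mul_nonneg h01 p01.le
  have q02 := mul_nonneg h02 p02.le
  have q03 := mul_nonneg h03 p03.le
  have q04 := mul_nonneg h04 p04.le
  have q12 := mul_nonneg h12 p12.le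
  have q13 := mul_nonneg h13 p13.le
  have q14 := mul_nonneg h14 p14.le
  have q23 := mul_nonneg h23 p23.le
  have q24 := mul_nonneg h24 p24.le
  have q34 := mul_nonneg h34 p34.le
  have z : ∀ l e : ℝ, 0 < e → l * e ≤ 0 → 0 ≤ l → l = 0 := by
    intro l e he hle hl
    have : l * e = 0 := le_antisymm hle (mul_nonneg hl he.le)
    rcases mul_eq_zero.mp this with h | h
    · exact h
    · linarith
  have z0 := z l0 e0 p0 (by linarith only [hs, q1, q2, q3, q4, q01, q02, q03, q04, q12, q13, q14, q23, q24, q34]) h0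
  have z1 := z l1 e1 p1 (by linarith only [hs, q0, q2, q3, q4, q01, q02, q03, q04, q12, q13, q14, q23, q24, q34]) h1
  have z2 := z l2 e2 p2 (by linarith only [hs, q0, q1, q3, q4, q01, q02, q03, q04, q12, q13, q14, q23, q24, q34]) h2
  have z3 := z l3 e3 p3 (by linarith only [hs, q0, q1, q2, q4, q01, q02, q03, q04, q12, q13, q14, q23, q24, q34]) h3
  have z4 := z l4 e4 p4 (by linarith only [hs, q0, q1, q2, q3, q01, q02, q03, q04, q12, q13, q14, q23, q24, q34]) h4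
  have z01 := z l01 e01 p01 (by linarith only [hs, q0, q1, q2, q3, q4, q02, q03, q04, q12, q13, q14, q23, q24, q34]) h01
  have z02 := z l02 e02 p02 (by linarith only [hs, q0, q1, q2, q3, q4, q01, q03, q04, q12, q13, q14, q23, q24, q34]) h02
  have z03 := z l03 e03 p03 (by linarith only [hs, q0, q1, q2, q3, q4, q01, q02, q04, q12, q13, q14, q23, q24, q34]) h03
  have z04 := z l04 e04 p04 (by linarith only [hs, q0, q1, q2, q3, q4, q01, q02, q03, q12, q13, q14, q23, q24, q34]) h04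
  have z12 := z l12 e12 p12 (by linarith only [hs, q0, q1, q2, q3, q4, q01, q02, q03, q04, q13, q14, q23, q24, q34]) h12
  have z13 := z l13 e13 p13 (by linarith only [hs, q0, q1, q2, q3, q4, q01, q02, q03, q04, q12, q14, q23, q24, q34]) h13
  have z14 := z l14 e14 p14 (by linarith only [hs, q0, q1, q2, q3, q4, q01, q02, q03, q04, q12, q13, q23, q24, q34]) h14
  have z23 := z l23 e23 p23 (by linarith only [hs, q0, q1, q2, q3, q4, q01, q02, q03, q04, q12, q13, q14, q24, q34]) h23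
  have z24 := z l24 e24 p24 (by linarith only [hs, q0, q1, q2, q3, q4, q01, q02, q03, q04, q12, q13, q14, q23, q34]) h24
  have z34 := z l34 e34 p34 (by linarith only [hs, q0, q1, q2, q3, q4, q01, q02, q03, q04, q12, q13, q14, q23, q24]) h34
  linarith only [hpos, z0, z1, z2, z3, z4, z01, z02, z03, z04, z12, z13, z14, z23, z24, z34]

/-- the averaging step for five points: nonnegative weights on the fifteen cuts whose cut
semimetrics sum to at most `d` and have total mass at least `9 / 10` give a cut of sparsity at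
most `10 / 9` times the objective `g` -/
theorem avg15 (c01 c02 c03 c04 c12 c13 c14 c23 c24 c34 d01 d02 d03 d04 d12 d13 d14 d23 d24 d34 l0 l1 l2 l3 l4 l01 l02 l03 l04 l12 l13 l14 l23 l24 l34 g : ℝ)
    (hc01 : 0 ≤ c01) (hc02 : 0 ≤ c02) (hc03 : 0 ≤ c03) (hc04 : 0 ≤ c04) (hc12 : 0 ≤ c12) (hc13 : 0 ≤ c13) (hc14 : 0 ≤ c14) (hc23 : 0 ≤ c23) (hc24 : 0 ≤ c24) (hc34 : 0 ≤ c34)
    (h0 : 0 ≤ l0) (h1 : 0 ≤ l1) (h2 : 0 ≤ l2) (h3 : 0 ≤ l3) (h4 : 0 ≤ l4) (h01 : 0 ≤ l01) (h02 : 0 ≤ l02) (h03 : 0 ≤ l03) (h04 : 0 ≤ l04) (h12 : 0 ≤ l12) (h13 : 0 ≤ l13) (h14 : 0 ≤ l14) (h23 : 0 ≤ l23) (h24 : 0 ≤ l24) (h34 : 0 ≤ l34)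
    (e01 : l0 + l1 + l02 + l03 + l04 + l12 + l13 + l14 ≤ d01)
    (e02 : l0 + l2 + l01 + l03 + l04 + l12 + l23 + l24 ≤ d02)
    (e03 : l0 + l3 + l01 + l02 + l04 + l13 + l23 + l34 ≤ d03)
    (e04 : l0 + l4 + l01 + l02 + l03 + l14 + l24 + l34 ≤ d04)
    (e12 : l1 + l2 + l01 + l02 + l13 + l14 + l23 + l24 ≤ d12)
    (e13 : l1 + l3 + l01 + l03 + l12 + l14 + l23 + l34 ≤ d13)
    (e14 : l1 + l4 + l01 + l04 + l12 + l13 + l24 + l34 ≤ d14)
    (e23 : l2 + l3 + l02 + l03 + l12 + l13 + l24 + l34 ≤ d23)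
    (e24 : l2 + l4 + l02 + l04 + l12 + l14 + l23 + l34 ≤ d24)
    (e34 : l3 + l4 + l03 + l04 + l13 + l14 + l23 + l24 ≤ d34)
    (hmass : 9 / 10 ≤ 4 * l0 + 4 * l1 + 4 * l2 + 4 * l3 + 4 * l4 + 6 * l01 + 6 * l02 + 6 * l03 + 6 * l04 + 6 * l12 + 6 * l13 + 6 * l14 + 6 * l23 + 6 * l24 + 6 * l34)
    (hg : g = c01 * d01 + c02 * d02 + c03 * d03 + c04 * d04 + c12 * d12 + c13 * d13 + c14 * d14 + c23 * d23 + c24 * d24 + c34 * d34) :
    c01 + c02 + c03 + c04 ≤ 10 / 9 * (4 * g) ∨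
    c01 + c12 + c13 + c14 ≤ 10 / 9 * (4 * g) ∨
    c02 + c12 + c23 + c24 ≤ 10 / 9 * (4 * g) ∨
    c03 + c13 + c23 + c34 ≤ 10 / 9 * (4 * g) ∨
    c04 + c14 + c24 + c34 ≤ 10 / 9 * (4 * g) ∨
    c02 + c03 + c04 + c12 + c13 + c14 ≤ 10 / 9 * (6 * g) ∨
    c01 + c03 + c04 + c12 + c23 + c24 ≤ 10 / 9 * (6 * g) ∨
    c01 + c02 + c04 + c13 + c23 + c34 ≤ 10 / 9 * (6 * g) ∨
    c01 + c02 + c03 + c14 + c24 + c34 ≤ 10 / 9 * (6 * g) ∨
    c01 + c13 + c14 + c02 + c23 + c24 ≤ 10 / 9 * (6 * g) ∨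
    c01 + c12 + c14 + c03 + c23 + c34 ≤ 10 / 9 * (6 * g) ∨
    c01 + c12 + c13 + c04 + c24 + c34 ≤ 10 / 9 * (6 * g) ∨
    c02 + c12 + c24 + c03 + c13 + c34 ≤ 10 / 9 * (6 * g) ∨
    c02 + c12 + c23 + c04 + c14 + c34 ≤ 10 / 9 * (6 * g) ∨
    c03 + c13 + c23 + c04 + c14 + c24 ≤ 10 / 9 * (6 * g) := by
  have n01 : 0 ≤ d01 := by linarith only [e01, h0, h1, h02, h03, h04, h12, h13, h14]
  have n02 : 0 ≤ d02 := by linarith only [e02, h0, h2, h01, h03, h04, h12, h23, h24]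
  have n03 : 0 ≤ d03 := by linarith only [e03, h0, h3, h01, h02, h04, h13, h23, h34]
  have n04 : 0 ≤ d04 := by linarith only [e04, h0, h4, h01, h02, h03, h14, h24, h34]
  have n12 : 0 ≤ d12 := by linarith only [e12, h1, h2, h01, h02, h13, h14, h23, h24]
  have n13 : 0 ≤ d13 := by linarith only [e13, h1, h3, h01, h03, h12, h14, h23, h34]
  have n14 : 0 ≤ d14 := by linarith only [e14, h1, h4, h01, h04, h12, h13, h24, h34]
  have n23 : 0 ≤ d23 := by linarith only [e23, h2, h3, h02, h03, h12, h13, h24, h34]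
  have n24 : 0 ≤ d24 := by linarith only [e24, h2, h4, h02, h04, h12, h14, h23, h34]
  have n34 : 0 ≤ d34 := by linarith only [e34, h3, h4, h03, h04, h13, h14, h23, h24]
  have m01 := mul_nonneg hc01 n01
  have m02 := mul_nonneg hc02 n02
  have m03 := mul_nonneg hc03 n03
  have m04 := mul_nonneg hc04 n04
  have m12 := mul_nonneg hc12 n12
  have m13 := mul_nonneg hc13 n13
  have m14 := mul_nonneg hc14 n14
  have m23 := mul_nonneg hc23 n23
  have m24 := mul_nonneg hc24 n24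
  have m34 := mul_nonneg hc34 n34
  have hg0 : 0 ≤ g := by rw [hg]; linarith only [m01, m02, m03, m04, m12, m13, m14, m23, m24, m34]
  have r01 := mul_nonneg hc01 (sub_nonneg.mpr e01)
  have r02 := mul_nonneg hc02 (sub_nonneg.mpr e02)
  have r03 := mul_nonneg hc03 (sub_nonneg.mpr e03)
  have r04 := mul_nonneg hc04 (sub_nonneg.mpr e04)
  have r12 := mul_nonneg hc12 (sub_nonneg.mpr e12)
  have r13 := mul_nonneg hc13 (sub_nonneg.mpr e13)
  have r14 := mul_nonneg hc14 (sub_nonneg.mpr e14)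
  have r23 := mul_nonneg hc23 (sub_nonneg.mpr e23)
  have r24 := mul_nonneg hc24 (sub_nonneg.mpr e24)
  have r34 := mul_nonneg hc34 (sub_nonneg.mpr e34)
  have rm := mul_nonneg hg0 (sub_nonneg.mpr hmass)
  have key : l0 * (c01 + c02 + c03 + c04 - 10 / 9 * (4 * g)) + l1 * (c01 + c12 + c13 + c14 - 10 / 9 * (4 * g)) + l2 * (c02 + c12 + c23 + c24 - 10 / 9 * (4 * g)) + l3 * (c03 + c13 + c23 + c34 - 10 / 9 * (4 * g)) + l4 * (c04 + c14 + c24 + c34 - 10 / 9 * (4 * g)) + l01 * (c02 + c03 + c04 + c12 + c13 + c14 - 10 / 9 * (6 * g)) + l02 * (c01 + c03 + c04 + c12 + c23 + c24 - 10 / 9 * (6 * g)) + l03 * (c01 + c02 + c04 + c13 + c23 + c34 - 10 / 9 * (6 * g)) + l04 * (c01 + c02 + c03 + c14 + c24 + c34 - 10 / 9 * (6 * g)) + l12 * (c01 + c13 + c14 + c02 + c23 + c24 - 10 / 9 * (6 * g)) + l13 * (c01 + c12 + c14 + c03 + c23 + c34 - 10 / 9 * (6 * g)) + l14 * (c01 + c12 + c13 + c04 + c24 + c34 - 10 / 9 * (6 * g)) + l23 *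 (c02 + c12 + c24 + c03 + c13 + c34 - 10 / 9 * (6 * g)) + l24 * (c02 + c12 + c23 + c04 + c14 + c34 - 10 / 9 * (6 * g)) + l34 * (c03 + c13 + c23 + c04 + c14 + c24 - 10 / 9 * (6 * g))
      = -(c01 * (d01 - (l0 + l1 + l02 + l03 + l04 + l12 + l13 + l14)) + c02 * (d02 - (l0 + l2 + l01 + l03 + l04 + l12 + l23 + l24)) + c03 * (d03 - (l0 + l3 + l01 + l02 + l04 + l13 + l23 + l34)) + c04 * (d04 - (l0 + l4 + l01 + l02 + l03 + l14 + l24 + l34)) + c12 * (d12 - (l1 + l2 + l01 + l02 + l13 + l14 + l23 + l24)) + c13 * (d13 - (l1 + l3 + l01 + l03 + l12 + l14 + l23 + l34)) + c14 * (d14 - (l1 + l4 + l01 + l04 + l12 + l13 + l24 + l34)) + c23 * (d23 - (l2 + l3 + l02 + l03 + l12 + l13 + l24 + l34)) + c24 * (d24 - (l2 + l4 + l02 + l04 + l12 + l14 + l23 + l34)) + c34 * (d34 - (l3 + l4 + l03 + l04 + l13 + l14 + l23 + l24)))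
        - 10 / 9 * (g * (4 * l0 + 4 * l1 + 4 * l2 + 4 * l3 + 4 * l4 + 6 * l01 + 6 * l02 + 6 * l03 + 6 * l04 + 6 * l12 + 6 * l13 + 6 * l14 + 6 * l23 + 6 * l24 + 6 * l34 - 9 / 10)) := by
    rw [hg]; ring
  have := avg15core l0 l1 l2 l3 l4 l01 l02 l03 l04 l12 l13 l14 l23 l24 l34
    (c01 + c02 + c03 + c04 - 10 / 9 * (4 * g)) (c01 + c12 + c13 + c14 - 10 / 9 * (4 * g)) (c02 + c12 + c23 + c24 - 10 / 9 * (4 * g)) (c03 + c13 + c23 + c34 - 10 / 9 * (4 * g)) (c04 + c14 + c24 + c34 - 10 / 9 * (4 * g)) (c02 + c03 + c04 + c12 + c13 + c14 - 10 / 9 * (6 * g)) (c01 + c03 + c04 + c12 + c23 + c24 - 10 / 9 * (6 * g)) (c01 + c02 + c04 + c13 + c23 + c34 - 10 / 9 * (6 * g)) (c01 + c02 + c03 + c14 + c24 + c34 - 10 / 9 * (6 * g)) (c01 + c13 + c14 + c02 + c23 + c24 - 10 / 9 * (6 * g)) (c01 + c12 + c14 + c03 + c23 + c34 - 10 / 9 * (6 * g)) (c01 + c12 + c13 + c04 + c24 + c34 - 10 / 9 * (6 * g)) (c02 + c12 + c24 + c03 + c13 + c34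 - 10 / 9 * (6 * g)) (c02 + c12 + c23 + c04 + c14 + c34 - 10 / 9 * (6 * g)) (c03 + c13 + c23 + c04 + c14 + c24 - 10 / 9 * (6 * g))
    h0 h1 h2 h3 h4 h01 h02 h03 h04 h12 h13 h14 h23 h24 h34
    (by rw [key]; linarith only [rm, r01, r02, r03, r04, r12, r13, r14, r23, r24, r34]) (by linarith only [hmass])
  rcases this with h | h | h | h | h | h | h | h | h | h | h | h | h | h | h
  · left; linarith only [h]
  · right; left; linarith only [h]
  · right; right; left; linarith only [h]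
  · right; right; right; left; linarith only [h]
  · right; right; right; right; left; linarith only [h]
  · right; right; right; right; right; left; linarith only [h]
  · right; right; right; right; right; right; left; linarith only [h]
  · right; right; right; right; right; right; right; left; linarith only [h]
  · right; right; right; right; right; right; right; right; left; linarith only [h]
  · right; right; right; right; right; right; right; right; right; left; linarith only [h]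
  · right; right; right; right; right; right; right; right; right; right; left; linarith only [h]
  · right; right; right; right; right; right; right; right; right; right; right; left; linarith only [h]
  · right; right; right; right; right; right; right; right; right; right; right; right; left; linarith only [h]
  · right; right; right; right; right; right; right; right; right; right; right; right; right; left; linarith only [h]
  · right; right; right; right; right; right; right; right; right; right; right; right; right; right; linarith only [h]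

end Vale.Agent.Helper28.Cut
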