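import Mathlib
import Vale.Agent.Helper28.CutDefs

namespace Vale.Agent.Helper28.Cut

open Finset

/-- averaging over six weighted terms -/
theorem avg6 (l0 l1 l2 l3 l4 l5 e0 e1 e2 e3 e4 e5 : ℝ)
    (h0 : 0 ≤ l0) (h1 : 0 ≤ l1) (h2 : 0 ≤ l2) (h3 : 0 ≤ l3) (h4 : 0 ≤ l4) (h5 : 0 ≤ l5)
    (hs : l0 * e0 + l1 * e1 + l2 * e2 + l3 * e3 + l4 * e4 + l5 * e5 ≤ 0)
    (hpos : 0 < 3 * l0 + 3 * l1 + 3 * l2 + 3 * l3 + 4 * l4 + 4 * l5) :
    e0 ≤ 0 ∨ e1 ≤ 0 ∨ e2 ≤ 0 ∨ e3 ≤ 0 ∨ e4 ≤ 0 ∨ e5 ≤ 0 := by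
  by_contra h
  simp only [not_or, not_le] at h
  obtain ⟨p0, p1, p2, p3, p4, p5⟩ := h
  have q0 := mul_nonneg h0 p0.le
  have q1 := mul_nonneg h1 p1.le
  have q2 := mul_nonneg h2 p2.le
  have q3 := mul_nonneg h3 p3.le
  have q4 := mul_nonneg h4 p4.le
  have q5 := mul_nonneg h5 p5.le
  have z : ∀ l e : ℝ, 0 < e → l * e ≤ 0 → 0 ≤ l → l = 0 := by
    intro l e he hle hl
    have : l * e = 0 := le_antisymm hle (mul_nonneg hl he.le)
    rcases mul_eq_zero.mp this with h | h
    · exact h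
    · linarith
  have z0 := z l0 e0 p0 (by linarith) h0
  have z1 := z l1 e1 p1 (by linarith) h1
  have z2 := z l2 e2 p2 (by linarith) h2
  have z3 := z l3 e3 p3 (by linarith) h3
  have z4 := z l4 e4 p4 (by linarith) h4
  have z5 := z l5 e5 p5 (by linarith) h5
  linarith

/-- The four-point case when the matching `{03, 12}` has the largest distance sum: one of the
four singleton cuts or of the cuts `01|23`, `02|13` is at least as sparse as the relaxation. -/
theorem four_core (c01 c02 c03 c12 c13 c23 d01 d02 d03 d12 d13 d23 g : ℝ)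
    (h1 : d01 + d23 ≤ d03 + d12) (h2 : d02 + d13 ≤ d03 + d12)
    (t0 : d12 ≤ d01 + d02) (t1 : d03 ≤ d01 + d13) (t2 : d03 ≤ d02 + d23)
    (t3 : d12 ≤ d13 + d23)
    (hs : d01 + d02 + d03 + d12 + d13 + d23 = 1)
    (hg : g = c01 * d01 + c02 * d02 + c03 * d03 + c12 * d12 + c13 * d13 + c23 * d23) :
    c01 + c02 + c03 ≤ 3 * g ∨ c01 + c12 + c13 ≤ 3 * g ∨ c02 + c12 + c23 ≤ 3 * g ∨
      c03 + c13 + c23 ≤ 3 * g ∨ c02 + c03 + c12 + c13 ≤ 4 * g ∨
      c01 + c03 + c12 + c23 ≤ 4 * g := by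
  have key := avg6 ((d01 + d02 - d12) / 2) ((d01 + d13 - d03) / 2) ((d02 + d23 - d03) / 2)
    ((d13 + d23 - d12) / 2) ((d03 + d12 - d01 - d23) / 2) ((d03 + d12 - d02 - d13) / 2)
    (c01 + c02 + c03 - 3 * g) (c01 + c12 + c13 - 3 * g) (c02 + c12 + c23 - 3 * g)
    (c03 + c13 + c23 - 3 * g) (c02 + c03 + c12 + c13 - 4 * g) (c01 + c03 + c12 + c23 - 4 * g)
    (by linarith) (by linarith) (by linarith) (by linarith) (by linarith) (by linarith)
    (by
      have e : (d01 + d02 - d12) / 2 * (c01 + c02 + c03 - 3 * g)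
          + (d01 + d13 - d03) / 2 * (c01 + c12 + c13 - 3 * g)
          + (d02 + d23 - d03) / 2 * (c02 + c12 + c23 - 3 * g)
          + (d13 + d23 - d12) / 2 * (c03 + c13 + c23 - 3 * g)
          + (d03 + d12 - d01 - d23) / 2 * (c02 + c03 + c12 + c13 - 4 * g)
          + (d03 + d12 - d02 - d13) / 2 * (c01 + c03 + c12 + c23 - 4 * g)
          = (c01 * d01 + c02 * d02 + c03 * d03 + c12 * d12 + c13 * d13 + c23 * d23)
            - g * (d01 + d02 + d03 + d12 + d13 + d23) := by ring
      rw [e, hs, ← hg]; simp)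
    (by linarith)
  rcases key with h | h | h | h | h | h
  · left; linarith
  · right; left; linarith
  · right; right; left; linarith
  · right; right; right; left; linarith
  · right; right; right; right; left; linarith
  · right; right; right; right; right; linarith

/-- The four-point case in general: one of the seven cuts is at least as sparse as the
relaxation value `g`. -/
theorem four_any (c01 c02 c03 c12 c13 c23 d01 d02 d03 d12 d13 d23 g : ℝ)
    (t012 : d12 ≤ d01 + d02) (t021 : d01 ≤ d02 + d12) (t102 : d02 ≤ d01 + d12)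
    (t013 : d13 ≤ d01 + d03) (t031 : d01 ≤ d03 + d13) (t103 : d03 ≤ d01 + d13)
    (t023 : d23 ≤ d02 + d03) (t032 : d02 ≤ d03 + d23) (t203 : d03 ≤ d02 + d23)
    (t123 : d23 ≤ d12 + d13) (t132 : d12 ≤ d13 + d23) (t213 : d13 ≤ d12 + d23)
    (hs : d01 + d02 + d03 + d12 + d13 + d23 = 1)
    (hg : g = c01 * d01 + c02 * d02 + c03 * d03 + c12 * d12 + c13 * d13 + c23 * d23) :
    c01 + c02 + c03 ≤ 3 * g ∨ c01 + c12 + c13 ≤ 3 * g ∨ c02 + c12 + c23 ≤ 3 * g ∨
      c03 + c13 + c23 ≤ 3 * g ∨ c02 + c03 + c12 + c13 ≤ 4 * g ∨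
      c01 + c03 + c12 + c23 ≤ 4 * g ∨ c01 + c02 + c13 + c23 ≤ 4 * g := by
  by_cases hA : d01 + d23 ≤ d03 + d12 ∧ d02 + d13 ≤ d03 + d12
  · rcases four_core c01 c02 c03 c12 c13 c23 d01 d02 d03 d12 d13 d23 g hA.1 hA.2
      t012 t103 t203 t132 hs hg with h | h | h | h | h | h
    · left; linarith
    · right; left; linarith
    · right; right; left; linarith
    · right; right; right; left; linarith
    · right; right; right; right; left; linarith
    · right; right; right; right; right; left; linarith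
  · by_cases hB : d03 + d12 ≤ d01 + d23 ∧ d02 + d13 ≤ d01 + d23
    · -- relabel 0,2,3,1
      rcases four_core c02 c03 c01 c23 c12 c13 d02 d03 d01 d23 d12 d13 g
        (by linarith [hB.2]) (by linarith [hB.1]) (by linarith) (by linarith) (by linarith)
        (by linarith) (by linarith) (by linarith) with h | h | h | h | h | h
      · left; linarith
      · right; right; left; linarith
      · right; right; right; left; linarith
      · right; left; linarith
      · right; right; right; right; right; left; linarith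
      · right; right; right; right; right; right; linarith
    · -- the matching 02, 13 is the largest: relabel 0,1,3,2
      have hC : d01 + d23 ≤ d02 + d13 ∧ d03 + d12 ≤ d02 + d13 := by
        constructor
        · by_contra hx
          rcases le_total (d03 + d12) (d01 + d23) with h | h
          · exact hB ⟨h, by linarith⟩
          · exact hA ⟨h, by linarith⟩
        · by_contra hx
          rcases le_total (d01 + d23) (d03 + d12) with h | h
          · exact hA ⟨h, by linarith⟩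
          · exact hB ⟨h, by linarith⟩
      rcases four_core c01 c03 c02 c13 c12 c23 d01 d03 d02 d13 d12 d23 g
        (by linarith [hC.1]) (by linarith [hC.2]) (by linarith) (by linarith) (by linarith)
        (by linarith) (by linarith) (by linarith) with h | h | h | h | h | h
      · left; linarith
      · right; left; linarith
      · right; right; right; left; linarith
      · right; right; left; linarith
      · right; right; right; right; left; linarith
      · right; right; right; right; right; right; linarith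

/-- three points -/
theorem three_any (c01 c02 c12 d01 d02 d12 g : ℝ)
    (t0 : d12 ≤ d01 + d02) (t1 : d02 ≤ d01 + d12) (t2 : d01 ≤ d02 + d12)
    (hs : d01 + d02 + d12 = 1)
    (hg : g = c01 * d01 + c02 * d02 + c12 * d12) :
    c01 + c02 ≤ 2 * g ∨ c01 + c12 ≤ 2 * g ∨ c02 + c12 ≤ 2 * g := by
  by_contra h
  simp only [not_or, not_le] at h
  obtain ⟨p0, p1, p2⟩ := h
  have q0 := mul_nonneg (by linarith : (0:ℝ) ≤ (d01 + d02 - d12) / 2) (by linarith : (0:ℝ) ≤ c01 + c02 - 2 * g)
  have q1 := mul_nonneg (by linarith : (0:ℝ) ≤ (d01 + d12 - d02) / 2) (by linarith : (0:ℝ) ≤ c01 + c12 - 2 * g)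
  have q2 := mul_nonneg (by linarith : (0:ℝ) ≤ (d02 + d12 - d01) / 2) (by linarith : (0:ℝ) ≤ c02 + c12 - 2 * g)
  have e : (d01 + d02 - d12) / 2 * (c01 + c02 - 2 * g)
      + (d01 + d12 - d02) / 2 * (c01 + c12 - 2 * g)
      + (d02 + d12 - d01) / 2 * (c02 + c12 - 2 * g)
      = (c01 * d01 + c02 * d02 + c12 * d12) - g * (d01 + d02 + d12) := by ring
  rw [hs, ← hg] at e
  have z : ∀ l e : ℝ, 0 < e → l * e ≤ 0 → 0 ≤ l → l = 0 := by
    intro l e he hle hl
    have : l * e = 0 := le_antisymm hle (mul_nonneg hl he.le)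
    rcases mul_eq_zero.mp this with h | h
    · exact h
    · linarith
  have z0 := z _ _ (by linarith : (0:ℝ) < c01 + c02 - 2 * g) (by linarith) (by linarith : (0:ℝ) ≤ (d01 + d02 - d12) / 2)
  have z1 := z _ _ (by linarith : (0:ℝ) < c01 + c12 - 2 * g) (by linarith) (by linarith : (0:ℝ) ≤ (d01 + d12 - d02) / 2)
  have z2 := z _ _ (by linarith : (0:ℝ) < c02 + c12 - 2 * g) (by linarith) (by linarith : (0:ℝ) ≤ (d02 + d12 - d01) / 2)
  linarith

end Vale.Agent.Helper28.Cut

namespace Vale.Agent.Helper28.Cut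

open Finset

theorem IsGLFeasible.symm {n : ℕ} {d : Fin n → Fin n → ℝ} (hd : IsGLFeasible d) (i j : Fin n) :
    d i j = d j i := by
  obtain ⟨⟨x, hx⟩, -, -⟩ := hd
  rw [hx i j, hx j i]
  refine Finset.sum_congr rfl fun k _ => ?_
  ring

theorem IsGLFeasible.self {n : ℕ} {d : Fin n → Fin n → ℝ} (hd : IsGLFeasible d) (i : Fin n) :
    d i i = 0 := by
  obtain ⟨⟨x, hx⟩, -, -⟩ := hd
  rw [hx i i]
  simp

theorem IsGLFeasible.nonneg {n : ℕ} {d : Fin n → Fin n → ℝ} (hd : IsGLFeasible d) (i j : Fin n) :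
    0 ≤ d i j := by
  obtain ⟨⟨x, hx⟩, -, -⟩ := hd
  rw [hx i j]
  exact Finset.sum_nonneg fun k _ => sq_nonneg _

theorem IsGLFeasible.tri {n : ℕ} {d : Fin n → Fin n → ℝ} (hd : IsGLFeasible d) (i j k : Fin n) :
    d i k ≤ d i j + d j k := hd.2.1 i j k

theorem small_four (c d : Fin 4 → Fin 4 → ℝ) (hc : IsCapacity c) (hd : IsGLFeasible d) :
    ∃ S : Finset (Fin 4), S.Nonempty ∧ S ≠ Finset.univ ∧
      cutCap c S ≤ (S.card : ℝ) * ((4 : ℝ) - S.card) * glObj c d := by
  have hsym := hd.symm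
  have htri := hd.tri
  have hcs := hc.1
  have hs : d 0 1 + d 0 2 + d 0 3 + d 1 2 + d 1 3 + d 2 3 = 1 := by
    have := hd.2.2
    simp [pairSum, Fin.sum_univ_four] at this
    linarith
  have hg : glObj c d = c 0 1 * d 0 1 + c 0 2 * d 0 2 + c 0 3 * d 0 3 + c 1 2 * d 1 2
      + c 1 3 * d 1 3 + c 2 3 * d 2 3 := by
    simp [glObj, pairSum, Fin.sum_univ_four]
    ring
  have key := four_any (c 0 1) (c 0 2) (c 0 3) (c 1 2) (c 1 3) (c 2 3)
    (d 0 1) (d 0 2) (d 0 3) (d 1 2) (d 1 3) (d 2 3) (glObj c d)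
    (by have := htri 1 0 2; rw [hsym 1 0] at this; exact this)
    (by have := htri 0 2 1; rw [hsym 2 1] at this; exact this)
    (by have := htri 0 1 2; exact this)
    (by have := htri 1 0 3; rw [hsym 1 0] at this; exact this)
    (by have := htri 0 3 1; rw [hsym 3 1] at this; exact this)
    (by have := htri 0 1 3; exact this)
    (by have := htri 2 0 3; rw [hsym 2 0] at this; exact this)
    (by have := htri 0 3 2; rw [hsym 3 2] at this; exact this)
    (by have := htri 0 2 3; exact this)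
    (by have := htri 2 1 3; rw [hsym 2 1] at this; exact this)
    (by have := htri 1 3 2; rw [hsym 3 2] at this; exact this)
    (by have := htri 1 2 3; exact this)
    hs hg
  have c0 : cutCap c {0} = c 0 1 + c 0 2 + c 0 3 := by
    rw [cutCap, show ({0} : Finset (Fin 4))ᶜ = {1, 2, 3} by decide]
    simp [Finset.sum_insert]
    ring
  have c1 : cutCap c {1} = c 0 1 + c 1 2 + c 1 3 := by
    rw [cutCap, show ({1} : Finset (Fin 4))ᶜ = {0, 2, 3} by decide]
    simp [Finset.sum_insert, hcs 1 0]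
    ring
  have c2 : cutCap c {2} = c 0 2 + c 1 2 + c 2 3 := by
    rw [cutCap, show ({2} : Finset (Fin 4))ᶜ = {0, 1, 3} by decide]
    simp [Finset.sum_insert, hcs 2 0, hcs 2 1]
    ring
  have c3 : cutCap c {3} = c 0 3 + c 1 3 + c 2 3 := by
    rw [cutCap, show ({3} : Finset (Fin 4))ᶜ = {0, 1, 2} by decide]
    simp [Finset.sum_insert, hcs 3 0, hcs 3 1, hcs 3 2]
    ring
  have c01 : cutCap c {0, 1} = c 0 2 + c 0 3 + c 1 2 + c 1 3 := by
    rw [cutCap, show ({0, 1} : Finset (Fin 4))ᶜ = {2, 3} by decide]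
    simp [Finset.sum_insert]
    ring
  have c02 : cutCap c {0, 2} = c 0 1 + c 0 3 + c 1 2 + c 2 3 := by
    rw [cutCap, show ({0, 2} : Finset (Fin 4))ᶜ = {1, 3} by decide]
    simp [Finset.sum_insert, hcs 2 1]
    ring
  have c03 : cutCap c {0, 3} = c 0 1 + c 0 2 + c 1 3 + c 2 3 := by
    rw [cutCap, show ({0, 3} : Finset (Fin 4))ᶜ = {1, 2} by decide]
    simp [Finset.sum_insert, hcs 3 1, hcs 3 2]
    ring
  rcases key with h | h | h | h | h | h | h
  · refine ⟨{0}, ⟨0, by simp⟩, by decide, ?_⟩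
    rw [c0]; simp; linarith
  · refine ⟨{1}, ⟨1, by simp⟩, by decide, ?_⟩
    rw [c1]; simp; linarith
  · refine ⟨{2}, ⟨2, by simp⟩, by decide, ?_⟩
    rw [c2]; simp; linarith
  · refine ⟨{3}, ⟨3, by simp⟩, by decide, ?_⟩
    rw [c3]; simp; linarith
  · refine ⟨{0, 1}, ⟨0, by simp⟩, by decide, ?_⟩
    rw [c01, show (({0, 1} : Finset (Fin 4)).card : ℝ) = 2 by simp]; linarith
  · refine ⟨{0, 2}, ⟨0, by simp⟩, by decide, ?_⟩
    rw [c02, show (({0, 2} : Finset (Fin 4)).card : ℝ) = 2 by simp]; linarith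
  · refine ⟨{0, 3}, ⟨0, by simp⟩, by decide, ?_⟩
    rw [c03, show (({0, 3} : Finset (Fin 4)).card : ℝ) = 2 by simp]; linarith

end Vale.Agent.Helper28.Cut

namespace Vale.Agent.Helper28.Cut

open Finset

theorem small_three (c d : Fin 3 → Fin 3 → ℝ) (hc : IsCapacity c) (hd : IsGLFeasible d) :
    ∃ S : Finset (Fin 3), S.Nonempty ∧ S ≠ Finset.univ ∧
      cutCap c S ≤ (S.card : ℝ) * ((3 : ℝ) - S.card) * glObj c d := by
  have hsym := hd.symm
  have htri := hd.tri
  have hcs := hc.1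
  have hs : d 0 1 + d 0 2 + d 1 2 = 1 := by
    have := hd.2.2
    simp [pairSum, Fin.sum_univ_three] at this
    linarith
  have hg : glObj c d = c 0 1 * d 0 1 + c 0 2 * d 0 2 + c 1 2 * d 1 2 := by
    simp [glObj, pairSum, Fin.sum_univ_three]
  have key := three_any (c 0 1) (c 0 2) (c 1 2) (d 0 1) (d 0 2) (d 1 2) (glObj c d)
    (by have := htri 1 0 2; rw [hsym 1 0] at this; exact this)
    (by have := htri 0 1 2; exact this)
    (by have := htri 0 2 1; rw [hsym 2 1] at this; exact this)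
    hs hg
  have c0 : cutCap c {0} = c 0 1 + c 0 2 := by
    rw [cutCap, show ({0} : Finset (Fin 3))ᶜ = {1, 2} by decide]
    simp [Finset.sum_insert]
  have c1 : cutCap c {1} = c 0 1 + c 1 2 := by
    rw [cutCap, show ({1} : Finset (Fin 3))ᶜ = {0, 2} by decide]
    simp [Finset.sum_insert, hcs 1 0]
  have c2 : cutCap c {2} = c 0 2 + c 1 2 := by
    rw [cutCap, show ({2} : Finset (Fin 3))ᶜ = {0, 1} by decide]
    simp [Finset.sum_insert, hcs 2 0, hcs 2 1]
  rcases key with h | h | h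
  · refine ⟨{0}, ⟨0, by simp⟩, by decide, ?_⟩
    rw [c0]; simp; linarith
  · refine ⟨{1}, ⟨1, by simp⟩, by decide, ?_⟩
    rw [c1]; simp; linarith
  · refine ⟨{2}, ⟨2, by simp⟩, by decide, ?_⟩
    rw [c2]; simp; linarith

theorem small_two (c d : Fin 2 → Fin 2 → ℝ) (hd : IsGLFeasible d) :
    ∃ S : Finset (Fin 2), S.Nonempty ∧ S ≠ Finset.univ ∧
      cutCap c S ≤ (S.card : ℝ) * ((2 : ℝ) - S.card) * glObj c d := by
  have hs : d 0 1 = 1 := by
    have := hd.2.2
    simp [pairSum, Fin.sum_univ_two] at this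
    linarith
  have hg : glObj c d = c 0 1 * d 0 1 := by
    simp [glObj, pairSum, Fin.sum_univ_two]
  have c0 : cutCap c {0} = c 0 1 := by
    rw [cutCap, show ({0} : Finset (Fin 2))ᶜ = {1} by decide]
    simp
  refine ⟨{0}, ⟨0, by simp⟩, by decide, ?_⟩
  rw [c0, hg, hs]; simp; norm_num

/-- For `2 ≤ n ≤ 4` the Goemans-Linial relaxation of uniform sparsest cut is exact. -/
theorem small_exact (n : ℕ) (h2 : 2 ≤ n) (h4 : n ≤ 4) (c d : Fin n → Fin n → ℝ)
    (hc : IsCapacity c) (hd : IsGLFeasible d) :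
    ∃ S : Finset (Fin n), S.Nonempty ∧ S ≠ Finset.univ ∧
      cutCap c S ≤ (S.card : ℝ) * ((n : ℝ) - S.card) * glObj c d := by
  interval_cases n
  · simpa using small_two c d hd
  · simpa using small_three c d hc hd
  · simpa using small_four c d hc hd

end Vale.Agent.Helper28.Cut
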