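import Mathlib
import Vale.Agent.Helper28.CutDefs
import Vale.Agent.Helper28.CutSmall
import Vale.Agent.Helper28.CutFive3
import Vale.Agent.Helper28.CutFive4
import Vale.Agent.Helper28.CutFive5

namespace Vale.Agent.Helper28.Cut

open Finset

/-- relabelling the five points by `f` -/
def relabel (f : Fin 5 → Fin 5) (d : Fin 5 → Fin 5 → ℝ) : Fin 5 → Fin 5 → ℝ :=
  fun i j => d (f i) (f j)

/-- there is a cut of sparsity at most `10 / 9` times the objective -/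
def Good (c d : Fin 5 → Fin 5 → ℝ) : Prop :=
  ∃ S : Finset (Fin 5), S.Nonempty ∧ S ≠ Finset.univ ∧
    cutCap c S ≤ 10 / 9 * ((S.card : ℝ) * ((5 : ℝ) - S.card) * glObj c d)

theorem pairSum_five (F : Fin 5 → Fin 5 → ℝ) :
    pairSum F = F 0 1 + F 0 2 + F 0 3 + F 0 4 + F 1 2 + F 1 3 + F 1 4 + F 2 3 + F 2 4 + F 3 4 := by
  simp [pairSum, Fin.sum_univ_five]
  ring

theorem pairSum_sym (F : Fin 5 → Fin 5 → ℝ) (hF : ∀ i j, F i j = F j i) :
    2 * pairSum F = (∑ i, ∑ j, F i j) - ∑ i, F i i := by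
  rw [pairSum_five]
  simp only [Fin.sum_univ_five]
  rw [hF 1 0, hF 2 0, hF 3 0, hF 4 0, hF 2 1, hF 3 1, hF 4 1, hF 3 2, hF 4 2, hF 4 3]
  ring

theorem pairSum_relabel (f : Fin 5 → Fin 5) (hf : Function.Bijective f) (F : Fin 5 → Fin 5 → ℝ)
    (hF : ∀ i j, F i j = F j i) : pairSum (relabel f F) = pairSum F := by
  have h1 := pairSum_sym (relabel f F) (fun i j => hF (f i) (f j))
  have h2 := pairSum_sym F hF
  have e1 : (∑ i, ∑ j, relabel f F i j) = ∑ i, ∑ j, F i j := by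
    have : ∀ i, (∑ j, relabel f F i j) = ∑ j, F (f i) j :=
      fun i => hf.sum_comp (fun j => F (f i) j)
    simp only [this]
    exact hf.sum_comp (fun i => ∑ j, F i j)
  have e2 : (∑ i, relabel f F i i) = ∑ i, F i i := hf.sum_comp (fun i => F i i)
  rw [e1, e2] at h1
  linarith

theorem cutCap_relabel (f : Fin 5 → Fin 5) (hf : Function.Bijective f) (c : Fin 5 → Fin 5 → ℝ)
    (S : Finset (Fin 5)) : cutCap (relabel f c) S = cutCap c (S.image f) := by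
  have hc : (S.image f)ᶜ = Sᶜ.image f := by
    ext j
    obtain ⟨a, rfl⟩ := hf.2 j
    simp [hf.1.mem_finset_image]
  unfold cutCap
  rw [hc, Finset.sum_image (fun x _ y _ h => hf.1 h)]
  refine Finset.sum_congr rfl fun i _ => ?_
  rw [Finset.sum_image (fun x _ y _ h => hf.1 h)]
  rfl

theorem good_relabel (f : Fin 5 → Fin 5) (hf : Function.Bijective f) (c d : Fin 5 → Fin 5 → ℝ)
    (hc : ∀ i j, c i j = c j i) (hd : ∀ i j, d i j = d j i)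
    (h : Good (relabel f c) (relabel f d)) : Good c d := by
  obtain ⟨S, hne, hun, hS⟩ := h
  have hcard : (S.image f).card = S.card := Finset.card_image_of_injective S hf.1
  refine ⟨S.image f, hne.image f, ?_, ?_⟩
  · intro hu
    apply hun
    rw [hu] at hcard
    exact (Finset.card_eq_iff_eq_univ S).mp (by rw [← hcard]; rfl)
  · rw [hcard, ← cutCap_relabel f hf c S]
    have hg : glObj (relabel f c) (relabel f d) = glObj c d := by
      unfold glObj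
      exact pairSum_relabel f hf (fun i j => c i j * d i j) (fun i j => by rw [hc i j, hd i j])
    rw [← hg]
    exact hS

/-- the properties of a normalised semimetric on five points that are used -/
def Met5 (d : Fin 5 → Fin 5 → ℝ) : Prop :=
  (∀ i j, d i j = d j i) ∧ (∀ i j k, d i k ≤ d i j + d j k) ∧ pairSum d = 1

theorem Met5.relabel {d : Fin 5 → Fin 5 → ℝ} (hm : Met5 d) (f : Fin 5 → Fin 5)
    (hf : Function.Bijective f) : Met5 (relabel f d) :=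
  ⟨fun i j => hm.1 (f i) (f j), fun i j k => hm.2.1 (f i) (f j) (f k), by
    rw [pairSum_relabel f hf d hm.1]; exact hm.2.2⟩

/-- the defect of the pentagonal inequality with the points `0, 1` on one side -/
def Q5 (d : Fin 5 → Fin 5 → ℝ) : ℝ :=
  d 2 3 + d 2 4 + d 3 4 + d 0 1 - (d 0 2 + d 0 3 + d 0 4 + d 1 2 + d 1 3 + d 1 4)

/-- all pentagonal inequalities hold -/
def Hyp5 (d : Fin 5 → Fin 5 → ℝ) : Prop :=
  ∀ f : Fin 5 → Fin 5, Function.Bijective f → Q5 (relabel f d) ≤ 0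

theorem Hyp5.relabel {d : Fin 5 → Fin 5 → ℝ} (hh : Hyp5 d) (f : Fin 5 → Fin 5)
    (hf : Function.Bijective f) : Hyp5 (relabel f d) :=
  fun g hg => hh (f ∘ g) (hf.comp hg)

/-- the negative type inequality with weights `2, 2, 2, -3, -3` -/
def Neg5 (d : Fin 5 → Fin 5 → ℝ) : Prop :=
  ∀ a a' b1 b2 b3 : Fin 5, 4 * (d b1 b2 + d b1 b3 + d b2 b3) + 9 * d a a'
    ≤ 6 * (d a b1 + d a b2 + d a b3 + d a' b1 + d a' b2 + d a' b3)

theorem IsCapacity.relabel {c : Fin 5 → Fin 5 → ℝ} (hc : IsCapacity c) (f : Fin 5 → Fin 5) :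
    IsCapacity (relabel f c) :=
  ⟨fun i j => hc.1 (f i) (f j), fun i j => hc.2.1 (f i) (f j), fun i => hc.2.2 (f i)⟩

theorem IsGLFeasible.met5 {d : Fin 5 → Fin 5 → ℝ} (hd : IsGLFeasible d) : Met5 d :=
  ⟨hd.symm, fun i j k => hd.2.1 i j k, hd.2.2⟩

theorem IsGLFeasible.neg5 {d : Fin 5 → Fin 5 → ℝ} (hd : IsGLFeasible d) : Neg5 d := by
  obtain ⟨⟨x, hx⟩, -, -⟩ := hd
  intro a a' b1 b2 b3
  have h := Finset.sum_nonneg (fun k (_ : k ∈ Finset.univ) =>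
    sq_nonneg (2 * (x b1 k + x b2 k + x b3 k) - 3 * (x a k + x a' k)))
  have e : 6 * (d a b1 + d a b2 + d a b3 + d a' b1 + d a' b2 + d a' b3)
      - 4 * (d b1 b2 + d b1 b3 + d b2 b3) - 9 * d a a'
      = ∑ k, (2 * (x b1 k + x b2 k + x b3 k) - 3 * (x a k + x a' k)) ^ 2 := by
    simp only [hx, Finset.mul_sum, ← Finset.sum_add_distrib, ← Finset.sum_sub_distrib]
    exact Finset.sum_congr rfl fun k _ => by ring
  linarith

/-- nonnegative weights on the fifteen cuts, dominated by `d` and of mass at least `9 / 10`,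
give a good cut -/
theorem flat_good (c d : Fin 5 → Fin 5 → ℝ) (hc : IsCapacity c)
    (l0 l1 l2 l3 l4 l01 l02 l03 l04 l12 l13 l14 l23 l24 l34 : ℝ)
    (h0 : 0 ≤ l0) (h1 : 0 ≤ l1) (h2 : 0 ≤ l2) (h3 : 0 ≤ l3) (h4 : 0 ≤ l4) (h01 : 0 ≤ l01) (h02 : 0 ≤ l02) (h03 : 0 ≤ l03) (h04 : 0 ≤ l04) (h12 : 0 ≤ l12) (h13 : 0 ≤ l13) (h14 : 0 ≤ l14) (h23 : 0 ≤ l23) (h24 : 0 ≤ l24) (h34 : 0 ≤ l34)
    (e01 : l0 + l1 + l02 + l03 + l04 + l12 + l13 + l14 ≤ d 0 1)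
    (e02 : l0 + l2 + l01 + l03 + l04 + l12 + l23 + l24 ≤ d 0 2)
    (e03 : l0 + l3 + l01 + l02 + l04 + l13 + l23 + l34 ≤ d 0 3)
    (e04 : l0 + l4 + l01 + l02 + l03 + l14 + l24 + l34 ≤ d 0 4)
    (e12 : l1 + l2 + l01 + l02 + l13 + l14 + l23 + l24 ≤ d 1 2)
    (e13 : l1 + l3 + l01 + l03 + l12 + l14 + l23 + l34 ≤ d 1 3)
    (e14 : l1 + l4 + l01 + l04 + l12 + l13 + l24 + l34 ≤ d 1 4)
    (e23 : l2 + l3 + l02 + l03 + l12 + l13 + l24 + l34 ≤ d 2 3)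
    (e24 : l2 + l4 + l02 + l04 + l12 + l14 + l23 + l34 ≤ d 2 4)
    (e34 : l3 + l4 + l03 + l04 + l13 + l14 + l23 + l24 ≤ d 3 4)
    (hmass : 9 / 10 ≤ 4 * l0 + 4 * l1 + 4 * l2 + 4 * l3 + 4 * l4 + 6 * l01 + 6 * l02 + 6 * l03 + 6 * l04 + 6 * l12 + 6 * l13 + 6 * l14 + 6 * l23 + 6 * l24 + 6 * l34) : Good c d := by
  have hcs := hc.1
  have hg : glObj c d = c 0 1 * d 0 1 + c 0 2 * d 0 2 + c 0 3 * d 0 3 + c 0 4 * d 0 4 + c 1 2 * d 1 2 + c 1 3 * d 1 3 + c 1 4 * d 1 4 + c 2 3 * d 2 3 + c 2 4 * d 2 4 + c 3 4 * d 3 4 := by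
    rw [glObj, pairSum_five]
  have key := avg15 (c 0 1) (c 0 2) (c 0 3) (c 0 4) (c 1 2) (c 1 3) (c 1 4) (c 2 3) (c 2 4) (c 3 4)
    (d 0 1) (d 0 2) (d 0 3) (d 0 4) (d 1 2) (d 1 3) (d 1 4) (d 2 3) (d 2 4) (d 3 4)
    l0 l1 l2 l3 l4 l01 l02 l03 l04 l12 l13 l14 l23 l24 l34 (glObj c d)
    (hc.2.1 0 1) (hc.2.1 0 2) (hc.2.1 0 3) (hc.2.1 0 4) (hc.2.1 1 2) (hc.2.1 1 3) (hc.2.1 1 4) (hc.2.1 2 3) (hc.2.1 2 4) (hc.2.1 3 4)
    h0 h1 h2 h3 h4 h01 h02 h03 h04 h12 h13 h14 h23 h24 h34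
    e01 e02 e03 e04 e12 e13 e14 e23 e24 e34 hmass hg
  have k0 : cutCap c {0} = c 0 1 + c 0 2 + c 0 3 + c 0 4 := by
    rw [cutCap, show ({0} : Finset (Fin 5))ᶜ = {1, 2, 3, 4} by decide]
    simp [Finset.sum_insert]
    ring
  have k1 : cutCap c {1} = c 0 1 + c 1 2 + c 1 3 + c 1 4 := by
    rw [cutCap, show ({1} : Finset (Fin 5))ᶜ = {0, 2, 3, 4} by decide]
    simp [Finset.sum_insert, hcs 1 0]
    ring
  have k2 : cutCap c {2} = c 0 2 + c 1 2 + c 2 3 + c 2 4 := by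
    rw [cutCap, show ({2} : Finset (Fin 5))ᶜ = {0, 1, 3, 4} by decide]
    simp [Finset.sum_insert, hcs 2 0, hcs 2 1]
    ring
  have k3 : cutCap c {3} = c 0 3 + c 1 3 + c 2 3 + c 3 4 := by
    rw [cutCap, show ({3} : Finset (Fin 5))ᶜ = {0, 1, 2, 4} by decide]
    simp [Finset.sum_insert, hcs 3 0, hcs 3 1, hcs 3 2]
    ring
  have k4 : cutCap c {4} = c 0 4 + c 1 4 + c 2 4 + c 3 4 := by
    rw [cutCap, show ({4} : Finset (Fin 5))ᶜ = {0, 1, 2, 3} by decide]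
    simp [Finset.sum_insert, hcs 4 0, hcs 4 1, hcs 4 2, hcs 4 3]
    ring
  have k01 : cutCap c {0, 1} = c 0 2 + c 0 3 + c 0 4 + c 1 2 + c 1 3 + c 1 4 := by
    rw [cutCap, show ({0, 1} : Finset (Fin 5))ᶜ = {2, 3, 4} by decide]
    simp [Finset.sum_insert]
    ring
  have k02 : cutCap c {0, 2} = c 0 1 + c 0 3 + c 0 4 + c 1 2 + c 2 3 + c 2 4 := by
    rw [cutCap, show ({0, 2} : Finset (Fin 5))ᶜ = {1, 3, 4} by decide]
    simp [Finset.sum_insert, hcs 2 1]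
    ring
  have k03 : cutCap c {0, 3} = c 0 1 + c 0 2 + c 0 4 + c 1 3 + c 2 3 + c 3 4 := by
    rw [cutCap, show ({0, 3} : Finset (Fin 5))ᶜ = {1, 2, 4} by decide]
    simp [Finset.sum_insert, hcs 3 1, hcs 3 2]
    ring
  have k04 : cutCap c {0, 4} = c 0 1 + c 0 2 + c 0 3 + c 1 4 + c 2 4 + c 3 4 := by
    rw [cutCap, show ({0, 4} : Finset (Fin 5))ᶜ = {1, 2, 3} by decide]
    simp [Finset.sum_insert, hcs 4 1, hcs 4 2, hcs 4 3]
    ring
  have k12 : cutCap c {1, 2} = c 0 1 + c 1 3 + c 1 4 + c 0 2 + c 2 3 + c 2 4 := by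
    rw [cutCap, show ({1, 2} : Finset (Fin 5))ᶜ = {0, 3, 4} by decide]
    simp [Finset.sum_insert, hcs 1 0, hcs 2 0]
    ring
  have k13 : cutCap c {1, 3} = c 0 1 + c 1 2 + c 1 4 + c 0 3 + c 2 3 + c 3 4 := by
    rw [cutCap, show ({1, 3} : Finset (Fin 5))ᶜ = {0, 2, 4} by decide]
    simp [Finset.sum_insert, hcs 1 0, hcs 3 0, hcs 3 2]
    ring
  have k14 : cutCap c {1, 4} = c 0 1 + c 1 2 + c 1 3 + c 0 4 + c 2 4 + c 3 4 := by
    rw [cutCap, show ({1, 4} : Finset (Fin 5))ᶜ = {0, 2, 3} by decide]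
    simp [Finset.sum_insert, hcs 1 0, hcs 4 0, hcs 4 2, hcs 4 3]
    ring
  have k23 : cutCap c {2, 3} = c 0 2 + c 1 2 + c 2 4 + c 0 3 + c 1 3 + c 3 4 := by
    rw [cutCap, show ({2, 3} : Finset (Fin 5))ᶜ = {0, 1, 4} by decide]
    simp [Finset.sum_insert, hcs 2 0, hcs 2 1, hcs 3 0, hcs 3 1]
    ring
  have k24 : cutCap c {2, 4} = c 0 2 + c 1 2 + c 2 3 + c 0 4 + c 1 4 + c 3 4 := by
    rw [cutCap, show ({2, 4} : Finset (Fin 5))ᶜ = {0, 1, 3} by decide]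
    simp [Finset.sum_insert, hcs 2 0, hcs 2 1, hcs 4 0, hcs 4 1, hcs 4 3]
    ring
  have k34 : cutCap c {3, 4} = c 0 3 + c 1 3 + c 2 3 + c 0 4 + c 1 4 + c 2 4 := by
    rw [cutCap, show ({3, 4} : Finset (Fin 5))ᶜ = {0, 1, 2} by decide]
    simp [Finset.sum_insert, hcs 3 0, hcs 3 1, hcs 3 2, hcs 4 0, hcs 4 1, hcs 4 2]
    ring
  rcases key with h | h | h | h | h | h | h | h | h | h | h | h | h | h | h
  · refine ⟨{0}, ⟨0, by simp⟩, by decide, ?_⟩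
    rw [k0, show (({0} : Finset (Fin 5)).card : ℝ) = 1 by simp]; linarith only [h]
  · refine ⟨{1}, ⟨1, by simp⟩, by decide, ?_⟩
    rw [k1, show (({1} : Finset (Fin 5)).card : ℝ) = 1 by simp]; linarith only [h]
  · refine ⟨{2}, ⟨2, by simp⟩, by decide, ?_⟩
    rw [k2, show (({2} : Finset (Fin 5)).card : ℝ) = 1 by simp]; linarith only [h]
  · refine ⟨{3}, ⟨3, by simp⟩, by decide, ?_⟩
    rw [k3, show (({3} : Finset (Fin 5)).card : ℝ) = 1 by simp]; linarith only [h]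
  · refine ⟨{4}, ⟨4, by simp⟩, by decide, ?_⟩
    rw [k4, show (({4} : Finset (Fin 5)).card : ℝ) = 1 by simp]; linarith only [h]
  · refine ⟨{0, 1}, ⟨0, by simp⟩, by decide, ?_⟩
    rw [k01, show (({0, 1} : Finset (Fin 5)).card : ℝ) = 2 by simp]; linarith only [h]
  · refine ⟨{0, 2}, ⟨0, by simp⟩, by decide, ?_⟩
    rw [k02, show (({0, 2} : Finset (Fin 5)).card : ℝ) = 2 by simp]; linarith only [h]
  · refine ⟨{0, 3}, ⟨0, by simp⟩, by decide, ?_⟩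
    rw [k03, show (({0, 3} : Finset (Fin 5)).card : ℝ) = 2 by simp]; linarith only [h]
  · refine ⟨{0, 4}, ⟨0, by simp⟩, by decide, ?_⟩
    rw [k04, show (({0, 4} : Finset (Fin 5)).card : ℝ) = 2 by simp]; linarith only [h]
  · refine ⟨{1, 2}, ⟨1, by simp⟩, by decide, ?_⟩
    rw [k12, show (({1, 2} : Finset (Fin 5)).card : ℝ) = 2 by simp]; linarith only [h]
  · refine ⟨{1, 3}, ⟨1, by simp⟩, by decide, ?_⟩
    rw [k13, show (({1, 3} : Finset (Fin 5)).card : ℝ) = 2 by simp]; linarith only [h]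
  · refine ⟨{1, 4}, ⟨1, by simp⟩, by decide, ?_⟩
    rw [k14, show (({1, 4} : Finset (Fin 5)).card : ℝ) = 2 by simp]; linarith only [h]
  · refine ⟨{2, 3}, ⟨2, by simp⟩, by decide, ?_⟩
    rw [k23, show (({2, 3} : Finset (Fin 5)).card : ℝ) = 2 by simp]; linarith only [h]
  · refine ⟨{2, 4}, ⟨2, by simp⟩, by decide, ?_⟩
    rw [k24, show (({2, 4} : Finset (Fin 5)).card : ℝ) = 2 by simp]; linarith only [h]
  · refine ⟨{3, 4}, ⟨3, by simp⟩, by decide, ?_⟩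
    rw [k34, show (({3, 4} : Finset (Fin 5)).card : ℝ) = 2 by simp]; linarith only [h]

theorem caseB_flat (c d : Fin 5 → Fin 5 → ℝ) (hc : IsCapacity c) (hm : Met5 d)
    (h : ExtHyp (d 0 1) (d 0 2) (d 0 3) (d 0 4) (d 1 2) (d 1 3) (d 1 4) (d 2 3) (d 2 4) (d 3 4)) : Good c d := by
  obtain ⟨l0, l1, l2, l3, l4, l01, l02, l03, l04, l12, l13, l14, l23, l24, l34, h0, h1, h2, h3, h4, h01, h02, h03, h04, h12, h13, h14, h23, h24, h34, e01, e02, e03, e04, e12, e13, e14, e23, e24, e34⟩ :=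
    ext_core _ _ _ _ _ _ _ _ _ _ h
  have hs := hm.2.2
  rw [pairSum_five] at hs
  exact flat_good c d hc l0 l1 l2 l3 l4 l01 l02 l03 l04 l12 l13 l14 l23 l24 l34
    h0 h1 h2 h3 h4 h01 h02 h03 h04 h12 h13 h14 h23 h24 h34
    (by linarith only [e01]) (by linarith only [e02]) (by linarith only [e03]) (by linarith only [e04]) (by linarith only [e12]) (by linarith only [e13]) (by linarith only [e14]) (by linarith only [e23]) (by linarith only [e24]) (by linarith only [e34])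
    (by linarith only [hs, e01, e02, e03, e04, e12, e13, e14, e23, e24, e34])

theorem caseB_perm (c d : Fin 5 → Fin 5 → ℝ) (hc : IsCapacity c) (hm : Met5 d)
    (g : Fin 5 → Fin 5) (hg : Function.Bijective g) (x01 x02 x03 x04 x12 x13 x14 x23 x24 x34 : ℝ)
    (h01 : x01 = d (g 0) (g 1)) (h02 : x02 = d (g 0) (g 2)) (h03 : x03 = d (g 0) (g 3)) (h04 : x04 = d (g 0) (g 4)) (h12 : x12 = d (g 1) (g 2)) (h13 : x13 = d (g 1) (g 3)) (h14 : x14 = d (g 1) (g 4)) (h23 : x23 = d (g 2) (g 3)) (h24 : x24 = d (g 2) (g 4)) (h34 : x34 = d (g 3) (g 4))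
    (h : ExtHyp x01 x02 x03 x04 x12 x13 x14 x23 x24 x34) : Good c d := by
  subst h01 h02 h03 h04 h12 h13 h14 h23 h24 h34
  exact good_relabel g hg c d hc.1 hm.1
    (caseB_flat (relabel g c) (relabel g d) (hc.relabel g) (hm.relabel g hg) h)

theorem hyp5_flat (d : Fin 5 → Fin 5 → ℝ) (hm : Met5 d) (hh : Hyp5 d) :
    Hyp5Flat (d 0 1) (d 0 2) (d 0 3) (d 0 4) (d 1 2) (d 1 3) (d 1 4) (d 2 3) (d 2 4) (d 3 4) := by
  obtain ⟨hsym, htri, -⟩ := hm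
  refine ⟨?_, ?_, ?_, ?_, ?_, ?_, ?_, ?_, ?_, ?_, ?_, ?_, ?_, ?_, ?_, ?_, ?_, ?_, ?_, ?_, ?_, ?_, ?_, ?_, ?_, ?_, ?_, ?_, ?_, ?_, ?_, ?_, ?_, ?_, ?_, ?_, ?_, ?_, ?_, ?_⟩
  · linarith only [htri 1 0 2, hsym 1 0]
  · linarith only [htri 1 0 3, hsym 1 0]
  · linarith only [htri 1 0 4, hsym 1 0]
  · linarith only [htri 2 0 3, hsym 2 0]
  · linarith only [htri 2 0 4, hsym 2 0]
  · linarith only [htri 3 0 4, hsym 3 0]
  · linarith only [htri 0 1 2]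
  · linarith only [htri 0 1 3]
  · linarith only [htri 0 1 4]
  · linarith only [htri 2 1 3, hsym 2 1]
  · linarith only [htri 2 1 4, hsym 2 1]
  · linarith only [htri 3 1 4, hsym 3 1]
  · linarith only [htri 0 2 1, hsym 2 1]
  · linarith only [htri 0 2 3]
  · linarith only [htri 0 2 4]
  · linarith only [htri 1 2 3]
  · linarith only [htri 1 2 4]
  · linarith only [htri 3 2 4, hsym 3 2]
  · linarith only [htri 0 3 1, hsym 3 1]
  · linarith only [htri 0 3 2, hsym 3 2]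
  · linarith only [htri 0 3 4]
  · linarith only [htri 1 3 2, hsym 3 2]
  · linarith only [htri 1 3 4]
  · linarith only [htri 2 3 4]
  · linarith only [htri 0 4 1, hsym 4 1]
  · linarith only [htri 0 4 2, hsym 4 2]
  · linarith only [htri 0 4 3, hsym 4 3]
  · linarith only [htri 1 4 2, hsym 4 2]
  · linarith only [htri 1 4 3, hsym 4 3]
  · linarith only [htri 2 4 3, hsym 4 3]
  · have h := hh ![0, 1, 2, 3, 4] (by decide)
    have h' : d 2 3 + d 2 4 + d 3 4 + d 0 1 - (d 0 2 + d 0 3 + d 0 4 + d 1 2 + d 1 3 + d 1 4) ≤ 0 := h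
    linarith only [h']
  · have h := hh ![0, 2, 1, 3, 4] (by decide)
    have h' : d 1 3 + d 1 4 + d 3 4 + d 0 2 - (d 0 1 + d 0 3 + d 0 4 + d 2 1 + d 2 3 + d 2 4) ≤ 0 := h
    linarith only [h', hsym 2 1]
  · have h := hh ![0, 3, 1, 2, 4] (by decide)
    have h' : d 1 2 + d 1 4 + d 2 4 + d 0 3 - (d 0 1 + d 0 2 + d 0 4 + d 3 1 + d 3 2 + d 3 4) ≤ 0 := h
    linarith only [h', hsym 3 1, hsym 3 2]
  · have h := hh ![0, 4, 1, 2, 3] (by decide)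
    have h' : d 1 2 + d 1 3 + d 2 3 + d 0 4 - (d 0 1 + d 0 2 + d 0 3 + d 4 1 + d 4 2 + d 4 3) ≤ 0 := h
    linarith only [h', hsym 4 1, hsym 4 2, hsym 4 3]
  · have h := hh ![1, 2, 0, 3, 4] (by decide)
    have h' : d 0 3 + d 0 4 + d 3 4 + d 1 2 - (d 1 0 + d 1 3 + d 1 4 + d 2 0 + d 2 3 + d 2 4) ≤ 0 := h
    linarith only [h', hsym 1 0, hsym 2 0]
  · have h := hh ![1, 3, 0, 2, 4] (by decide)
    have h' : d 0 2 + d 0 4 + d 2 4 + d 1 3 - (d 1 0 + d 1 2 + d 1 4 + d 3 0 + d 3 2 + d 3 4) ≤ 0 := h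
    linarith only [h', hsym 1 0, hsym 3 0, hsym 3 2]
  · have h := hh ![1, 4, 0, 2, 3] (by decide)
    have h' : d 0 2 + d 0 3 + d 2 3 + d 1 4 - (d 1 0 + d 1 2 + d 1 3 + d 4 0 + d 4 2 + d 4 3) ≤ 0 := h
    linarith only [h', hsym 1 0, hsym 4 0, hsym 4 2, hsym 4 3]
  · have h := hh ![2, 3, 0, 1, 4] (by decide)
    have h' : d 0 1 + d 0 4 + d 1 4 + d 2 3 - (d 2 0 + d 2 1 + d 2 4 + d 3 0 + d 3 1 + d 3 4) ≤ 0 := h
    linarith only [h', hsym 2 0, hsym 2 1, hsym 3 0, hsym 3 1]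
  · have h := hh ![2, 4, 0, 1, 3] (by decide)
    have h' : d 0 1 + d 0 3 + d 1 3 + d 2 4 - (d 2 0 + d 2 1 + d 2 3 + d 4 0 + d 4 1 + d 4 3) ≤ 0 := h
    linarith only [h', hsym 2 0, hsym 2 1, hsym 4 0, hsym 4 1, hsym 4 3]
  · have h := hh ![3, 4, 0, 1, 2] (by decide)
    have h' : d 0 1 + d 0 2 + d 1 2 + d 3 4 - (d 3 0 + d 3 1 + d 3 2 + d 4 0 + d 4 1 + d 4 2) ≤ 0 := h
    linarith only [h', hsym 3 0, hsym 3 1, hsym 3 2, hsym 4 0, hsym 4 1, hsym 4 2]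

theorem caseB_norm (c d : Fin 5 → Fin 5 → ℝ) (hc : IsCapacity c) (hm : Met5 d) (hh : Hyp5 d)
    (hs1 : d 0 1 + d 2 3 ≤ d 0 3 + d 1 2) (hs2 : d 0 2 + d 1 3 ≤ d 0 3 + d 1 2) : Good c d := by
  have hsym := hm.1
  rcases hyp5_ext _ _ _ _ _ _ _ _ _ _ (hyp5_flat d hm hh) hs1 hs2 with h | h | h | h | h | h | h | h | h | h | h | h | h
  · exact caseB_perm c d hc hm ![0, 1, 2, 3, 4] (by decide) _ _ _ _ _ _ _ _ _ _
      rfl rfl rfl rfl rfl rfl rfl rfl rfl rfl h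
  · exact caseB_perm c d hc hm ![0, 3, 4, 2, 1] (by decide) _ _ _ _ _ _ _ _ _ _
      rfl rfl rfl rfl rfl (hsym 2 3) (hsym 1 3) (hsym 2 4) (hsym 1 4) (hsym 1 2) h
  · exact caseB_perm c d hc hm ![0, 2, 4, 3, 1] (by decide) _ _ _ _ _ _ _ _ _ _
      rfl rfl rfl rfl rfl rfl (hsym 1 2) (hsym 3 4) (hsym 1 4) (hsym 1 3) h
  · exact caseB_perm c d hc hm ![0, 2, 3, 4, 1] (by decide) _ _ _ _ _ _ _ _ _ _
      rfl rfl rfl rfl rfl rfl (hsym 1 2) rfl (hsym 1 3) (hsym 1 4) h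
  · exact caseB_perm c d hc hm ![1, 3, 4, 2, 0] (by decide) _ _ _ _ _ _ _ _ _ _
      rfl rfl rfl (hsym 0 1) rfl (hsym 2 3) (hsym 0 3) (hsym 2 4) (hsym 0 4) (hsym 0 2) h
  · exact caseB_perm c d hc hm ![1, 2, 4, 3, 0] (by decide) _ _ _ _ _ _ _ _ _ _
      rfl rfl rfl (hsym 0 1) rfl rfl (hsym 0 2) (hsym 3 4) (hsym 0 4) (hsym 0 3) h
  · exact caseB_perm c d hc hm ![1, 2, 3, 4, 0] (by decide) _ _ _ _ _ _ _ _ _ _
      rfl rfl rfl (hsym 0 1) rfl rfl (hsym 0 2) rfl (hsym 0 3) (hsym 0 4) h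
  · exact caseB_perm c d hc hm ![0, 2, 4, 1, 3] (by decide) _ _ _ _ _ _ _ _ _ _
      rfl rfl rfl rfl rfl (hsym 1 2) rfl (hsym 1 4) (hsym 3 4) rfl h
  · exact caseB_perm c d hc hm ![0, 1, 4, 2, 3] (by decide) _ _ _ _ _ _ _ _ _ _
      rfl rfl rfl rfl rfl rfl rfl (hsym 2 4) (hsym 3 4) rfl h
  · exact caseB_perm c d hc hm ![0, 1, 2, 4, 3] (by decide) _ _ _ _ _ _ _ _ _ _
      rfl rfl rfl rfl rfl rfl rfl rfl rfl (hsym 3 4) h
  · exact caseB_perm c d hc hm ![0, 3, 4, 2, 1] (by decide) _ _ _ _ _ _ _ _ _ _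
      rfl rfl rfl rfl rfl (hsym 2 3) (hsym 1 3) (hsym 2 4) (hsym 1 4) (hsym 1 2) h
  · exact caseB_perm c d hc hm ![0, 2, 4, 3, 1] (by decide) _ _ _ _ _ _ _ _ _ _
      rfl rfl rfl rfl rfl rfl (hsym 1 2) (hsym 3 4) (hsym 1 4) (hsym 1 3) h
  · exact caseB_perm c d hc hm ![0, 2, 3, 4, 1] (by decide) _ _ _ _ _ _ _ _ _ _
      rfl rfl rfl rfl rfl rfl (hsym 1 2) rfl (hsym 1 3) (hsym 1 4) h

theorem caseB_good (c d : Fin 5 → Fin 5 → ℝ) (hc : IsCapacity c) (hm : Met5 d) (hh : Hyp5 d) :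
    Good c d := by
  have hsym := hm.1
  rcases max3_cases (d 0 3 + d 1 2) (d 0 1 + d 2 3) (d 0 2 + d 1 3) with
    ⟨h1, h2⟩ | ⟨h1, h2⟩ | ⟨h1, h2⟩
  · exact caseB_norm c d hc hm hh h1 h2
  · have hb : Function.Bijective (![0, 2, 3, 1, 4] : Fin 5 → Fin 5) := by decide
    refine good_relabel ![0, 2, 3, 1, 4] hb c d hc.1 hm.1 ?_
    refine caseB_norm _ _ (hc.relabel _) (hm.relabel _ hb) (hh.relabel _ hb) ?_ ?_
    · show d 0 2 + d 3 1 ≤ d 0 1 + d 2 3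
      linarith only [h1, h2, hsym 3 1]
    · show d 0 3 + d 2 1 ≤ d 0 1 + d 2 3
      linarith only [h1, h2, hsym 2 1]
  · have hb : Function.Bijective (![0, 1, 3, 2, 4] : Fin 5 → Fin 5) := by decide
    refine good_relabel ![0, 1, 3, 2, 4] hb c d hc.1 hm.1 ?_
    refine caseB_norm _ _ (hc.relabel _) (hm.relabel _ hb) (hh.relabel _ hb) ?_ ?_
    · show d 0 1 + d 3 2 ≤ d 0 2 + d 1 3
      linarith only [h1, h2, hsym 3 2]
    · show d 0 3 + d 1 2 ≤ d 0 2 + d 1 3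
      linarith only [h1, h2, hsym 3 2]

theorem caseA_good (c d : Fin 5 → Fin 5 → ℝ) (hc : IsCapacity c) (hm : Met5 d) (hn : Neg5 d)
    (hQ : 0 < Q5 d) : Good c d := by
  obtain ⟨hsym, htri, hs⟩ := hm
  rw [pairSum_five] at hs
  unfold Q5 at hQ
  have hneg := hn 0 1 2 3 4
  have ta2 : d 0 1 ≤ d 0 2 + d 1 2 := by linarith only [htri 0 2 1, hsym 2 1]
  have ta3 : d 0 1 ≤ d 0 3 + d 1 3 := by linarith only [htri 0 3 1, hsym 3 1]
  have ta4 : d 0 1 ≤ d 0 4 + d 1 4 := by linarith only [htri 0 4 1, hsym 4 1]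
  have tb023 : d 2 3 ≤ d 0 2 + d 0 3 := by linarith only [htri 2 0 3, hsym 2 0]
  have tb024 : d 2 4 ≤ d 0 2 + d 0 4 := by linarith only [htri 2 0 4, hsym 2 0]
  have tb034 : d 3 4 ≤ d 0 3 + d 0 4 := by linarith only [htri 3 0 4, hsym 3 0]
  have tb123 : d 2 3 ≤ d 1 2 + d 1 3 := by linarith only [htri 2 1 3, hsym 2 1]
  have tb124 : d 2 4 ≤ d 1 2 + d 1 4 := by linarith only [htri 2 1 4, hsym 2 1]
  have tb134 : d 3 4 ≤ d 1 3 + d 1 4 := by linarith only [htri 3 1 4, hsym 3 1]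
  exact flat_good c d hc
    0
    0
    ((d 2 3 + d 2 4 + d 3 4 + d 0 1 - (d 0 2 + d 0 3 + d 0 4 + d 1 2 + d 1 3 + d 1 4)) / 2 + (d 0 2 + d 1 2 - d 0 1) / 2)
    ((d 2 3 + d 2 4 + d 3 4 + d 0 1 - (d 0 2 + d 0 3 + d 0 4 + d 1 2 + d 1 3 + d 1 4)) / 2 + (d 0 3 + d 1 3 - d 0 1) / 2)
    ((d 2 3 + d 2 4 + d 3 4 + d 0 1 - (d 0 2 + d 0 3 + d 0 4 + d 1 2 + d 1 3 + d 1 4)) / 2 + (d 0 4 + d 1 4 - d 0 1) / 2)
    0
    ((d 0 3 + d 0 4 - d 3 4) / 2)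
    ((d 0 2 + d 0 4 - d 2 4) / 2)
    ((d 0 2 + d 0 3 - d 2 3) / 2)
    ((d 1 3 + d 1 4 - d 3 4) / 2)
    ((d 1 2 + d 1 4 - d 2 4) / 2)
    ((d 1 2 + d 1 3 - d 2 3) / 2)
    0
    0
    0
    (le_refl _)
    (le_refl _)
    (by linarith only [hQ, hs, hneg, ta2, ta3, ta4, tb023, tb024, tb034, tb123, tb124, tb134])
    (by linarith only [hQ, hs, hneg, ta2, ta3, ta4, tb023, tb024, tb034, tb123, tb124, tb134])
    (by linarith only [hQ, hs, hneg, ta2, ta3, ta4, tb023, tb024, tb034, tb123, tb124, tb134])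
    (le_refl _)
    (by linarith only [hQ, hs, hneg, ta2, ta3, ta4, tb023, tb024, tb034, tb123, tb124, tb134])
    (by linarith only [hQ, hs, hneg, ta2, ta3, ta4, tb023, tb024, tb034, tb123, tb124, tb134])
    (by linarith only [hQ, hs, hneg, ta2, ta3, ta4, tb023, tb024, tb034, tb123, tb124, tb134])
    (by linarith only [hQ, hs, hneg, ta2, ta3, ta4, tb023, tb024, tb034, tb123, tb124, tb134])
    (by linarith only [hQ, hs, hneg, ta2, ta3, ta4, tb023, tb024, tb034, tb123, tb124, tb134])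
    (by linarith only [hQ, hs, hneg, ta2, ta3, ta4, tb023, tb024, tb034, tb123, tb124, tb134])
    (le_refl _)
    (le_refl _)
    (le_refl _)
    (by linarith only [hQ, hs, hneg, ta2, ta3, ta4, tb023, tb024, tb034, tb123, tb124, tb134])
    (by linarith only [hQ, hs, hneg, ta2, ta3, ta4, tb023, tb024, tb034, tb123, tb124, tb134])
    (by linarith only [hQ, hs, hneg, ta2, ta3, ta4, tb023, tb024, tb034, tb123, tb124, tb134])
    (by linarith only [hQ, hs, hneg, ta2, ta3, ta4, tb023, tb024, tb034, tb123, tb124, tb134])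
    (by linarith only [hQ, hs, hneg, ta2, ta3, ta4, tb023, tb024, tb034, tb123, tb124, tb134])
    (by linarith only [hQ, hs, hneg, ta2, ta3, ta4, tb023, tb024, tb034, tb123, tb124, tb134])
    (by linarith only [hQ, hs, hneg, ta2, ta3, ta4, tb023, tb024, tb034, tb123, tb124, tb134])
    (by linarith only [hQ, hs, hneg, ta2, ta3, ta4, tb023, tb024, tb034, tb123, tb124, tb134])
    (by linarith only [hQ, hs, hneg, ta2, ta3, ta4, tb023, tb024, tb034, tb123, tb124, tb134])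
    (by linarith only [hQ, hs, hneg, ta2, ta3, ta4, tb023, tb024, tb034, tb123, tb124, tb134])
    (by linarith only [hQ, hs, hneg, ta2, ta3, ta4, tb023, tb024, tb034, tb123, tb124, tb134])

/-- the upper bound `10 / 9` for the integrality gap on five points -/
theorem five_upper (c d : Fin 5 → Fin 5 → ℝ) (hc : IsCapacity c) (hd : IsGLFeasible d) :
    Good c d := by
  by_cases hA : ∃ f : Fin 5 → Fin 5, Function.Bijective f ∧ 0 < Q5 (relabel f d)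
  · obtain ⟨f, hf, hQ⟩ := hA
    exact good_relabel f hf c d hc.1 hd.symm
      (caseA_good _ _ (hc.relabel f) (hd.met5.relabel f hf)
        (fun a a' b1 b2 b3 => hd.neg5 (f a) (f a') (f b1) (f b2) (f b3)) hQ)
  · have hh : Hyp5 d := fun f hf => not_lt.mp (fun hQ => hA ⟨f, hf, hQ⟩)
    exact caseB_good c d hc hd.met5 hh

end Vale.Agent.Helper28.Cut
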