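import Mathlib
import Vale.Agent.Helper28.CutDefs
import Vale.Agent.Helper28.CutSmall

namespace Vale.Agent.Helper28.Cut

open Finset

/-- signs of the pentagonal inequality: vertices 0, 1 get -1, vertices 2, 3, 4 get +1,
all further vertices get 0 -/
def beta (v : ℕ) : ℤ := if v < 2 then -1 else if v < 5 then 1 else 0

/-- the capacities: `1 - beta i * beta j` off the diagonal; this is `2` on the edges of the
complete bipartite graph between `{0,1}` and `{2,3,4}`, `0` inside these two sets and `1` on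
every pair meeting a further vertex -/
def capK (n : ℕ) (i j : Fin n) : ℝ :=
  if i = j then 0 else 1 - ((beta i : ℤ) : ℝ) * ((beta j : ℤ) : ℝ)

theorem beta_cases (v : ℕ) : beta v = -1 ∨ beta v = 0 ∨ beta v = 1 := by
  unfold beta
  split_ifs <;> simp

theorem beta_mul_le (a b : ℕ) : ((beta a : ℤ) : ℝ) * ((beta b : ℤ) : ℝ) ≤ 1 := by
  rcases beta_cases a with h | h | h <;> rcases beta_cases b with h' | h' | h' <;>
    rw [h, h'] <;> norm_num

theorem capK_isCapacity (n : ℕ) : IsCapacity (capK n) := by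
  refine ⟨?_, ?_, ?_⟩
  · intro i j
    unfold capK
    by_cases h : i = j
    · subst h; rfl
    · rw [if_neg h, if_neg (fun h' => h h'.symm)]; ring
  · intro i j
    unfold capK
    split_ifs
    · exact le_refl _
    · have := beta_mul_le i j; linarith
  · intro i
    simp [capK]

theorem sum_beta (n : ℕ) (hn : 5 ≤ n) : ∑ i : Fin n, beta i = 1 := by
  rw [Fin.sum_univ_eq_sum_range (fun v => beta v) n]
  obtain ⟨m, rfl⟩ : ∃ m, n = 5 + m := ⟨n - 5, by omega⟩
  rw [Finset.sum_range_add]
  have h2 : ∑ x ∈ range m, beta (5 + x) = 0 := by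
    refine Finset.sum_eq_zero fun x _ => ?_
    have h5 : ¬ (5 + x < 2) := by omega
    have h6 : ¬ (5 + x < 5) := by omega
    simp [beta, h5, h6]
  rw [h2]
  decide

theorem int_mul_one_sub_nonpos (z : ℤ) : z * (1 - z) ≤ 0 := by
  rcases le_or_gt z 0 with h | h
  · nlinarith
  · nlinarith

/-- every cut has capacity at least the number of separated pairs (hypermetric inequality) -/
theorem cut_lower (n : ℕ) (hn : 5 ≤ n) (S : Finset (Fin n)) :
    (S.card : ℝ) * ((n : ℝ) - S.card) ≤ cutCap (capK n) S := by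
  have h1 : cutCap (capK n) S
      = ∑ i ∈ S, ∑ j ∈ Sᶜ, (1 - ((beta i : ℤ) : ℝ) * ((beta j : ℤ) : ℝ)) := by
    unfold cutCap
    refine Finset.sum_congr rfl fun i hi => Finset.sum_congr rfl fun j hj => ?_
    have hne : i ≠ j := by
      rintro rfl
      exact (Finset.mem_compl.mp hj) hi
    simp [capK, hne]
  have h2 : ∑ i ∈ S, ∑ j ∈ Sᶜ, (1 - ((beta i : ℤ) : ℝ) * ((beta j : ℤ) : ℝ))
      = (S.card : ℝ) * (Sᶜ.card : ℝ)
        - ((∑ i ∈ S, beta i : ℤ) : ℝ) * ((∑ j ∈ Sᶜ, beta j : ℤ) : ℝ) := by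
    push_cast
    rw [Finset.sum_mul_sum]
    simp only [Finset.sum_sub_distrib, Finset.sum_const, nsmul_eq_mul, mul_one]
  have h3 : (Sᶜ.card : ℝ) = (n : ℝ) - S.card := by
    rw [Finset.card_compl, Fintype.card_fin, Nat.cast_sub]
    simpa using Finset.card_le_univ S
  have h4 : (∑ j ∈ Sᶜ, beta j : ℤ) = 1 - ∑ i ∈ S, beta i := by
    have := Finset.sum_add_sum_compl S (fun i : Fin n => beta i)
    rw [sum_beta n hn] at this
    linarith
  rw [h1, h2, h3, h4]
  have h5 := int_mul_one_sub_nonpos (∑ i ∈ S, beta i)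
  have h6 : ((∑ i ∈ S, beta i : ℤ) : ℝ) * (((1 - ∑ i ∈ S, beta i : ℤ)) : ℝ) ≤ 0 := by
    exact_mod_cast h5
  linarith

end Vale.Agent.Helper28.Cut

namespace Vale.Agent.Helper28.Cut

open Finset

/-- position index of a vertex: vertices `0..4` are five distinct points, every further vertex
sits on the point of vertex `2` -/
def eff (v : ℕ) : ℕ := if v < 5 then v else 2

/-- squared distances of the five points: `4` between points `0, 1`; `6` between two of the
points `2, 3, 4`; `3` between a point of `{0,1}` and a point of `{2,3,4}` -/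
def D5 (x y : ℕ) : ℝ :=
  if x = y then 0 else if x < 2 ∧ y < 2 then 4 else if 2 ≤ x ∧ 2 ≤ y then 6 else 3

/-- coordinates of the five points in four dimensions:
`(1,0,1,1)`, `(1,0,1,-1)`, `(0,0,0,0)`, `(1,1,2,0)`, `(2,-1,1,0)` -/
def P5 (e k : ℕ) : ℝ :=
  if k = 0 then (if e = 0 then 1 else if e = 1 then 1 else if e = 3 then 1 else if e = 4 then 2
    else 0)
  else if k = 1 then (if e = 3 then 1 else if e = 4 then -1 else 0)
  else if k = 2 then (if e = 0 then 1 else if e = 1 then 1 else if e = 3 then 2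
    else if e = 4 then 1 else 0)
  else if k = 3 then (if e = 0 then 1 else if e = 1 then -1 else 0)
  else 0

theorem eff_lt (v : ℕ) : eff v < 5 := by
  unfold eff
  split_ifs <;> omega

theorem P5_sq (x y : ℕ) (hx : x < 5) (hy : y < 5) (m : ℕ) :
    ∑ k ∈ range (4 + m), (P5 x k - P5 y k) ^ 2 = D5 x y := by
  rw [Finset.sum_range_add]
  have h2 : ∑ k ∈ range m, (P5 x (4 + k) - P5 y (4 + k)) ^ 2 = 0 := by
    refine Finset.sum_eq_zero fun k _ => ?_
    have e0 : ¬ (4 + k = 0) := by omega
    have e1 : ¬ (4 + k = 1) := by omega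
    have e2 : ¬ (4 + k = 2) := by omega
    have e3 : ¬ (4 + k = 3) := by omega
    simp [P5, e1, e2, e3]
  rw [h2]
  interval_cases x <;> interval_cases y <;> simp [Finset.sum_range_succ, P5, D5] <;> norm_num

theorem D5_tri (x y z : ℕ) : D5 x z ≤ D5 x y + D5 y z := by
  unfold D5
  split_ifs <;> first | linarith | (exfalso; omega)

theorem D5_symm (x y : ℕ) : D5 x y = D5 y x := by
  unfold D5
  split_ifs <;> first | rfl | (exfalso; omega)

theorem D5_nonneg (x y : ℕ) : 0 ≤ D5 x y := by
  unfold D5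
  split_ifs <;> norm_num

/-- a pair sum over `Fin n` as a double sum over `range n` -/
theorem pairSum_range (n : ℕ) (f : ℕ → ℕ → ℝ) :
    pairSum (fun i j : Fin n => f i j)
      = ∑ a ∈ range n, ∑ b ∈ range n, if a < b then f a b else 0 := by
  unfold pairSum
  rw [← Fin.sum_univ_eq_sum_range (fun a => ∑ b ∈ range n, if a < b then f a b else 0) n]
  refine Finset.sum_congr rfl fun i _ => ?_
  rw [← Fin.sum_univ_eq_sum_range (fun b => if (i : ℕ) < b then f i b else 0) n]
  refine Finset.sum_congr rfl fun j _ => ?_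
  simp

/-- splitting a pair sum over `range (5 + m)` into blocks -/
theorem range_split (m : ℕ) (f : ℕ → ℕ → ℝ) :
    ∑ a ∈ range (5 + m), ∑ b ∈ range (5 + m), (if a < b then f a b else 0)
      = ∑ a ∈ range 5, ∑ b ∈ range 5, (if a < b then f a b else 0)
        + ∑ a ∈ range 5, ∑ y ∈ range m, f a (5 + y)
        + ∑ x ∈ range m, ∑ y ∈ range m, (if x < y then f (5 + x) (5 + y) else 0) := by
  rw [Finset.sum_range_add]
  have hA : ∀ a ∈ range 5, ∑ b ∈ range (5 + m), (if a < b then f a b else 0)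
      = ∑ b ∈ range 5, (if a < b then f a b else 0) + ∑ y ∈ range m, f a (5 + y) := by
    intro a ha
    rw [Finset.sum_range_add]
    congr 1
    refine Finset.sum_congr rfl fun y _ => ?_
    have : a < 5 + y := by have := Finset.mem_range.mp ha; omega
    simp [this]
  have hB : ∀ x ∈ range m, ∑ b ∈ range (5 + m), (if 5 + x < b then f (5 + x) b else 0)
      = ∑ y ∈ range m, (if x < y then f (5 + x) (5 + y) else 0) := by
    intro x _
    rw [Finset.sum_range_add]
    have h0 : ∑ b ∈ range 5, (if 5 + x < b then f (5 + x) b else 0) = 0 := by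
      refine Finset.sum_eq_zero fun b hb => ?_
      have : ¬ (5 + x < b) := by have := Finset.mem_range.mp hb; omega
      simp [this]
    rw [h0, zero_add]
    refine Finset.sum_congr rfl fun y _ => ?_
    simp
  rw [Finset.sum_congr rfl hA, Finset.sum_congr rfl hB, Finset.sum_add_distrib]

theorem total_D (m : ℕ) :
    ∑ a ∈ range (5 + m), ∑ b ∈ range (5 + m), (if a < b then D5 (eff a) (eff b) else 0)
      = 18 * (m : ℝ) + 40 := by
  rw [range_split m (fun a b => D5 (eff a) (eff b))]
  have e5 : ∀ y, eff (5 + y) = 2 := by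
    intro y
    have : ¬ (5 + y < 5) := by omega
    simp [eff, this]
  simp only [e5]
  have h3 : ∑ x ∈ range m, ∑ y ∈ range m, (if x < y then D5 2 2 else 0) = 0 := by
    simp [D5]
  rw [h3]
  simp [Finset.sum_range_succ, eff, D5]
  ring

theorem total_Q (m : ℕ) :
    ∑ a ∈ range (5 + m), ∑ b ∈ range (5 + m),
        (if a < b then ((beta a : ℤ) : ℝ) * ((beta b : ℤ) : ℝ) * D5 (eff a) (eff b) else 0)
      = 4 := by
  rw [range_split m (fun a b => ((beta a : ℤ) : ℝ) * ((beta b : ℤ) : ℝ) * D5 (eff a) (eff b))]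
  have b5 : ∀ y, beta (5 + y) = 0 := by
    intro y
    have h5 : ¬ (5 + y < 2) := by omega
    have h6 : ¬ (5 + y < 5) := by omega
    simp [beta, h5, h6]
  simp only [b5]
  simp [Finset.sum_range_succ, eff, D5, beta]
  norm_num

end Vale.Agent.Helper28.Cut

namespace Vale.Agent.Helper28.Cut

open Finset

/-- the vectors realising the metric, scaled so that the pair sum is one -/
noncomputable def xK (n : ℕ) (i k : Fin n) : ℝ := P5 (eff i) k / Real.sqrt (18 * n - 50)

/-- the normalised negative-type semimetric -/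
noncomputable def dK (n : ℕ) (i j : Fin n) : ℝ := D5 (eff i) (eff j) / (18 * n - 50)

theorem pairSum_congr_lt {n : ℕ} (f g : Fin n → Fin n → ℝ) (h : ∀ i j, i < j → f i j = g i j) :
    pairSum f = pairSum g := by
  unfold pairSum
  refine Finset.sum_congr rfl fun i _ => Finset.sum_congr rfl fun j _ => ?_
  by_cases hij : i < j
  · simp [hij, h i j hij]
  · simp [hij]

theorem pairSum_div {n : ℕ} (f : Fin n → Fin n → ℝ) (T : ℝ) :
    pairSum (fun i j => f i j / T) = pairSum f / T := by
  unfold pairSum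
  rw [Finset.sum_div]
  refine Finset.sum_congr rfl fun i _ => ?_
  rw [Finset.sum_div]
  refine Finset.sum_congr rfl fun j _ => ?_
  split_ifs <;> simp

theorem pairSum_sub {n : ℕ} (f g : Fin n → Fin n → ℝ) :
    pairSum (fun i j => f i j - g i j) = pairSum f - pairSum g := by
  unfold pairSum
  rw [← Finset.sum_sub_distrib]
  refine Finset.sum_congr rfl fun i _ => ?_
  rw [← Finset.sum_sub_distrib]
  refine Finset.sum_congr rfl fun j _ => ?_
  split_ifs <;> simp

theorem pairSum_D (n : ℕ) (hn : 5 ≤ n) :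
    pairSum (fun i j : Fin n => D5 (eff i) (eff j)) = 18 * (n : ℝ) - 50 := by
  rw [pairSum_range n (fun a b => D5 (eff a) (eff b))]
  obtain ⟨m, rfl⟩ : ∃ m, n = 5 + m := ⟨n - 5, by omega⟩
  rw [total_D]
  push_cast
  ring

theorem pairSum_Q (n : ℕ) (hn : 5 ≤ n) :
    pairSum (fun i j : Fin n => ((beta i : ℤ) : ℝ) * ((beta j : ℤ) : ℝ) * D5 (eff i) (eff j))
      = 4 := by
  rw [pairSum_range n (fun a b => ((beta a : ℤ) : ℝ) * ((beta b : ℤ) : ℝ) * D5 (eff a) (eff b))]
  obtain ⟨m, rfl⟩ : ∃ m, n = 5 + m := ⟨n - 5, by omega⟩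
  rw [total_Q]

theorem dK_feasible (n : ℕ) (hn : 5 ≤ n) : IsGLFeasible (dK n) := by
  have hT : (0 : ℝ) < 18 * (n : ℝ) - 50 := by
    have : (5 : ℝ) ≤ n := by exact_mod_cast hn
    linarith
  refine ⟨⟨xK n, ?_⟩, ?_, ?_⟩
  · intro i j
    have h1 : ∀ k : Fin n, (xK n i k - xK n j k) ^ 2
        = (P5 (eff i) k - P5 (eff j) k) ^ 2 / (18 * (n : ℝ) - 50) := by
      intro k
      unfold xK
      rw [← sub_div, div_pow, Real.sq_sqrt hT.le]
    rw [Finset.sum_congr rfl fun k _ => h1 k, ← Finset.sum_div]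
    rw [Fin.sum_univ_eq_sum_range (fun k => (P5 (eff i) k - P5 (eff j) k) ^ 2) n]
    have h2 : ∀ (N x y : ℕ), 4 ≤ N → x < 5 → y < 5 →
        ∑ k ∈ range N, (P5 x k - P5 y k) ^ 2 = D5 x y := by
      intro N x y hN hx hy
      obtain ⟨m, rfl⟩ : ∃ m, N = 4 + m := ⟨N - 4, by omega⟩
      exact P5_sq x y hx hy m
    rw [h2 n _ _ (by omega) (eff_lt _) (eff_lt _)]
    rfl
  · intro i j k
    unfold dK
    rw [← add_div]
    exact div_le_div_of_nonneg_right (D5_tri _ _ _) hT.le
  · have : dK n = fun i j : Fin n => D5 (eff i) (eff j) / (18 * (n : ℝ) - 50) := rfl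
    rw [this, pairSum_div, pairSum_D n hn, div_self hT.ne']

theorem glObj_dK (n : ℕ) (hn : 5 ≤ n) :
    glObj (capK n) (dK n) = (18 * (n : ℝ) - 54) / (18 * (n : ℝ) - 50) := by
  unfold glObj
  have h1 : pairSum (fun i j : Fin n => capK n i j * dK n i j)
      = pairSum (fun i j : Fin n => (D5 (eff i) (eff j)
          - ((beta i : ℤ) : ℝ) * ((beta j : ℤ) : ℝ) * D5 (eff i) (eff j))
          / (18 * (n : ℝ) - 50)) := by
    refine pairSum_congr_lt _ _ fun i j hij => ?_
    have hne : i ≠ j := ne_of_lt hij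
    simp only [capK, if_neg hne, dK]
    ring
  rw [h1, pairSum_div, pairSum_sub, pairSum_D n hn, pairSum_Q n hn]
  congr 1
  ring

end Vale.Agent.Helper28.Cut

namespace Vale.Agent.Helper28.Cut

open Finset

/-- the relaxation value of the capacities `capK n` is positive: every feasible `d` has
objective at least `1 / n ^ 2` -/
theorem gl_pos (n : ℕ) (hn : 5 ≤ n) (d : Fin n → Fin n → ℝ) (hd : IsGLFeasible d) :
    1 / (n : ℝ) ^ 2 ≤ glObj (capK n) d := by
  have hc := capK_isCapacity n
  have hdn := hd.nonneg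
  have hds := hd.symm
  have term_nonneg : ∀ i j : Fin n, 0 ≤ (if i < j then capK n i j * d i j else 0) := by
    intro i j
    split_ifs
    · exact mul_nonneg (hc.2.1 i j) (hdn i j)
    · exact le_refl _
  have hGdef : glObj (capK n) d
      = ∑ i : Fin n, ∑ j : Fin n, (if i < j then capK n i j * d i j else 0) := rfl
  have term_le : ∀ i j : Fin n, i < j → capK n i j * d i j ≤ glObj (capK n) d := by
    intro i j hij
    have h1 : (if i < j then capK n i j * d i j else 0)
        ≤ ∑ j' : Fin n, (if i < j' then capK n i j' * d i j' else 0) :=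
      Finset.single_le_sum (f := fun j' : Fin n => if i < j' then capK n i j' * d i j' else 0)
        (fun j' _ => term_nonneg i j') (Finset.mem_univ j)
    have h2 : ∑ j' : Fin n, (if i < j' then capK n i j' * d i j' else 0) ≤ glObj (capK n) d := by
      rw [hGdef]
      exact Finset.single_le_sum
        (f := fun i' : Fin n => ∑ j' : Fin n, (if i' < j' then capK n i' j' * d i' j' else 0))
        (fun i' _ => Finset.sum_nonneg fun j' _ => term_nonneg i' j') (Finset.mem_univ i)
    rw [if_pos hij] at h1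
    linarith
  have term_le' : ∀ i j : Fin n, i ≠ j → capK n i j * d i j ≤ glObj (capK n) d := by
    intro i j hij
    rcases lt_or_gt_of_ne hij with h | h
    · exact term_le i j h
    · rw [hc.1 i j, hds i j]; exact term_le j i h
  have hG0 : 0 ≤ glObj (capK n) d := by
    rw [hGdef]
    exact Finset.sum_nonneg fun i _ => Finset.sum_nonneg fun j _ => term_nonneg i j
  have via : ∀ i j k : Fin n, beta i * beta k = -1 → beta k * beta j = -1 →
      d i j ≤ glObj (capK n) d := by
    intro i j k hik hkj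
    have hik' : ((beta i : ℤ) : ℝ) * ((beta k : ℤ) : ℝ) = -1 := by exact_mod_cast hik
    have hkj' : ((beta k : ℤ) : ℝ) * ((beta j : ℤ) : ℝ) = -1 := by exact_mod_cast hkj
    have nik : i ≠ k := by
      rintro rfl
      nlinarith [mul_self_nonneg (beta i)]
    have nkj : k ≠ j := by
      rintro rfl
      nlinarith [mul_self_nonneg (beta k)]
    have c1 : capK n i k = 2 := by
      simp only [capK, if_neg nik, hik']; norm_num
    have c2 : capK n k j = 2 := by
      simp only [capK, if_neg nkj, hkj']; norm_num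
    have t1 := term_le' i k nik
    have t2 := term_le' k j nkj
    rw [c1] at t1
    rw [c2] at t2
    have := hd.tri i k j
    linarith
  have key : ∀ i j : Fin n, i ≠ j → d i j ≤ glObj (capK n) d := by
    intro i j hij
    have hcij : capK n i j = 1 - ((beta i : ℤ) : ℝ) * ((beta j : ℤ) : ℝ) := by
      simp [capK, hij]
    have ht := term_le' i j hij
    have hd0 := hdn i j
    have b0 : beta ((⟨0, by omega⟩ : Fin n) : ℕ) = -1 := by
      show beta 0 = -1
      decide
    have b2 : beta ((⟨2, by omega⟩ : Fin n) : ℕ) = 1 := by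
      show beta 2 = 1
      decide
    rcases beta_cases i with hi | hi | hi <;> rcases beta_cases j with hj | hj | hj
    · exact via i j ⟨2, by omega⟩ (by rw [hi, b2]; norm_num) (by rw [hj, b2]; norm_num)
    · rw [hcij, hi, hj] at ht; norm_num at ht; linarith
    · rw [hcij, hi, hj] at ht; norm_num at ht; linarith
    · rw [hcij, hi, hj] at ht; norm_num at ht; linarith
    · rw [hcij, hi, hj] at ht; norm_num at ht; linarith
    · rw [hcij, hi, hj] at ht; norm_num at ht; linarith
    · rw [hcij, hi, hj] at ht; norm_num at ht; linarith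
    · rw [hcij, hi, hj] at ht; norm_num at ht; linarith
    · exact via i j ⟨0, by omega⟩ (by rw [hi, b0]; norm_num) (by rw [hj, b0]; norm_num)
  have h1 : pairSum d ≤ ∑ _i : Fin n, ∑ _j : Fin n, glObj (capK n) d := by
    unfold pairSum
    refine Finset.sum_le_sum fun i _ => Finset.sum_le_sum fun j _ => ?_
    split_ifs with h
    · exact key i j (ne_of_lt h)
    · exact hG0
  rw [hd.2.2] at h1
  simp only [Finset.sum_const, Finset.card_univ, Fintype.card_fin, nsmul_eq_mul] at h1
  have hn0 : (0 : ℝ) < n := by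
    have : (5 : ℝ) ≤ n := by exact_mod_cast hn
    linarith
  rw [div_le_iff₀ (by positivity)]
  nlinarith

/-- The integrality gap instance on `n ≥ 5` vertices. -/
theorem gap_from_five (n : ℕ) (hn : 5 ≤ n) :
    ∃ c : Fin n → Fin n → ℝ, IsCapacity c ∧
      (∃ ε : ℝ, 0 < ε ∧ ∀ d : Fin n → Fin n → ℝ, IsGLFeasible d → ε ≤ glObj c d) ∧
      ∃ d : Fin n → Fin n → ℝ, IsGLFeasible d ∧
        ∀ S : Finset (Fin n), S.Nonempty → S ≠ Finset.univ →
          (18 * (n : ℝ) - 50) / (18 * (n : ℝ) - 54)
            * ((S.card : ℝ) * ((n : ℝ) - S.card) * glObj c d) ≤ cutCap c S := by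
  have hn5 : (5 : ℝ) ≤ n := by exact_mod_cast hn
  refine ⟨capK n, capK_isCapacity n, ⟨1 / (n : ℝ) ^ 2, by positivity, gl_pos n hn⟩,
    dK n, dK_feasible n hn, ?_⟩
  intro S _ _
  rw [glObj_dK n hn]
  have h1 : (0 : ℝ) < 18 * (n : ℝ) - 54 := by linarith
  have h2 : (0 : ℝ) < 18 * (n : ℝ) - 50 := by linarith
  have h3 : (18 * (n : ℝ) - 50) / (18 * (n : ℝ) - 54)
      * ((S.card : ℝ) * ((n : ℝ) - S.card) * ((18 * (n : ℝ) - 54) / (18 * (n : ℝ) - 50)))
      = (S.card : ℝ) * ((n : ℝ) - S.card) := by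
    field_simp
  rw [h3]
  exact cut_lower n hn S

end Vale.Agent.Helper28.Cut
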