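import Mathlib
import Vale.Agent.Helper28.CutDefs
import Vale.Agent.Helper28.CutGap
import Vale.Agent.Helper28.CutFive6

/-!
Direct form of `g(5) = 10 / 9`: with `Φ(c)` the least cut ratio and `GL(c)` the infimum of the
Goemans-Linial objective over feasible points, the set of ratios `Φ(c) / GL(c)` over capacities
`c` on five vertices with `GL(c) > 0` has greatest element `10 / 9`.
-/

namespace Vale.Agent.Helper28.Cut

open Finset

/-- The least cut ratio `Φ(c)` on five vertices, as an infimum over nonempty proper subsets. -/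
noncomputable def phi5 (c : Fin 5 → Fin 5 → ℝ) : ℝ :=
  sInf {r | ∃ S : Finset (Fin 5), S.Nonempty ∧ S ≠ Finset.univ ∧
    r = cutCap c S / ((S.card : ℝ) * ((5 : ℝ) - S.card))}

/-- The value `GL(c)` of the Goemans-Linial relaxation on five vertices, as an infimum. -/
noncomputable def gl5 (c : Fin 5 → Fin 5 → ℝ) : ℝ :=
  sInf {r | ∃ d : Fin 5 → Fin 5 → ℝ, IsGLFeasible d ∧ r = glObj c d}

theorem den5_pos (S : Finset (Fin 5)) (hne : S.Nonempty) (hun : S ≠ Finset.univ) :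
    (0 : ℝ) < (S.card : ℝ) * ((5 : ℝ) - S.card) := by
  have h1 : 1 ≤ S.card := Finset.card_pos.mpr hne
  have h2 : S.card < 5 := by
    have := (Finset.card_lt_iff_ne_univ S).mpr hun
    simpa using this
  have h1' : (1 : ℝ) ≤ (S.card : ℝ) := by exact_mod_cast h1
  have h2' : (S.card : ℝ) + 1 ≤ 5 := by exact_mod_cast h2
  have h3 : (0 : ℝ) < (5 : ℝ) - S.card := by linarith
  have h4 : (0 : ℝ) < (S.card : ℝ) := by linarith
  exact mul_pos h4 h3

theorem cutCap_nonneg5 {c : Fin 5 → Fin 5 → ℝ} (hc : IsCapacity c) (S : Finset (Fin 5)) :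
    0 ≤ cutCap c S :=
  Finset.sum_nonneg fun i _ => Finset.sum_nonneg fun j _ => hc.2.1 i j

theorem glObj_nonneg5 {c d : Fin 5 → Fin 5 → ℝ} (hc : IsCapacity c) (hd : IsGLFeasible d) :
    0 ≤ glObj c d := by
  obtain ⟨x, hx⟩ := hd.1
  unfold glObj pairSum
  refine Finset.sum_nonneg fun i _ => Finset.sum_nonneg fun j _ => ?_
  split_ifs
  · refine mul_nonneg (hc.2.1 i j) ?_
    rw [hx i j]
    exact Finset.sum_nonneg fun k _ => sq_nonneg _
  · exact le_refl 0

theorem phi5_le {c : Fin 5 → Fin 5 → ℝ} (hc : IsCapacity c) (S : Finset (Fin 5))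
    (hne : S.Nonempty) (hun : S ≠ Finset.univ) :
    phi5 c ≤ cutCap c S / ((S.card : ℝ) * ((5 : ℝ) - S.card)) := by
  refine csInf_le ⟨0, ?_⟩ ⟨S, hne, hun, rfl⟩
  rintro r ⟨T, hTne, hTun, rfl⟩
  exact div_nonneg (cutCap_nonneg5 hc T) (den5_pos T hTne hTun).le

theorem le_phi5 {c : Fin 5 → Fin 5 → ℝ} (a : ℝ)
    (h : ∀ S : Finset (Fin 5), S.Nonempty → S ≠ Finset.univ →
      a ≤ cutCap c S / ((S.card : ℝ) * ((5 : ℝ) - S.card))) : a ≤ phi5 c := by
  refine le_csInf ?_ ?_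
  · refine ⟨_, {0}, Finset.singleton_nonempty 0, ?_, rfl⟩
    intro h0
    have : (1 : Fin 5) ∈ ({0} : Finset (Fin 5)) := by rw [h0]; exact Finset.mem_univ _
    simp at this
  · rintro r ⟨S, hne, hun, rfl⟩
    exact h S hne hun

theorem gl5_le {c d : Fin 5 → Fin 5 → ℝ} (hc : IsCapacity c) (hd : IsGLFeasible d) :
    gl5 c ≤ glObj c d := by
  refine csInf_le ⟨0, ?_⟩ ⟨d, hd, rfl⟩
  rintro r ⟨d', hd', rfl⟩
  exact glObj_nonneg5 hc hd'

theorem le_gl5 {c : Fin 5 → Fin 5 → ℝ} (a : ℝ) (d0 : Fin 5 → Fin 5 → ℝ) (hd0 : IsGLFeasible d0)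
    (h : ∀ d : Fin 5 → Fin 5 → ℝ, IsGLFeasible d → a ≤ glObj c d) : a ≤ gl5 c := by
  refine le_csInf ⟨_, d0, hd0, rfl⟩ ?_
  rintro r ⟨d, hd, rfl⟩
  exact h d hd

/-- `Φ(c) ≤ (10 / 9) GL(c)` for all capacities on five vertices. -/
theorem phi5_le_gl5 {c : Fin 5 → Fin 5 → ℝ} (hc : IsCapacity c) (d0 : Fin 5 → Fin 5 → ℝ)
    (hd0 : IsGLFeasible d0) : phi5 c ≤ 10 / 9 * gl5 c := by
  have h : 9 / 10 * phi5 c ≤ gl5 c := by
    refine le_gl5 _ d0 hd0 fun d hd => ?_
    obtain ⟨S, hne, hun, hS⟩ := five_upper c d hc hd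
    have hden := den5_pos S hne hun
    have h1 := phi5_le hc S hne hun
    have h2 : cutCap c S / ((S.card : ℝ) * ((5 : ℝ) - S.card)) ≤ 10 / 9 * glObj c d := by
      rw [div_le_iff₀ hden]
      nlinarith [hS]
    linarith
  linarith

/-- The integrality gap on five vertices: the ratios `Φ(c) / GL(c)` over capacities with
`GL(c) > 0` have greatest element `10 / 9`. -/
theorem five_value :
    IsGreatest {r : ℝ | ∃ c : Fin 5 → Fin 5 → ℝ, IsCapacity c ∧ 0 < gl5 c ∧
      r = phi5 c / gl5 c} (10 / 9) := by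
  obtain ⟨c, hc, ⟨ε, hε, hεb⟩, d, hd, h⟩ := gap_from_five 5 (le_refl 5)
  have hgl : 0 < gl5 c := lt_of_lt_of_le hε (le_gl5 ε d hd hεb)
  constructor
  · refine ⟨c, hc, hgl, ?_⟩
    have hup := phi5_le_gl5 hc d hd
    have hlow : 10 / 9 * gl5 c ≤ phi5 c := by
      have h1 : 10 / 9 * glObj c d ≤ phi5 c := by
        refine le_phi5 _ fun S hne hun => ?_
        have hS := h S hne hun
        have hden := den5_pos S hne hun
        rw [le_div_iff₀ hden]
        norm_num at hS ⊢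
        nlinarith [hS]
      have h2 := gl5_le hc hd
      linarith
    have heq : phi5 c = 10 / 9 * gl5 c := le_antisymm hup hlow
    rw [heq]
    field_simp
  · rintro r ⟨c', hc', hgl', rfl⟩
    have hup := phi5_le_gl5 hc' d hd
    rw [div_le_iff₀ hgl']
    exact hup

end Vale.Agent.Helper28.Cut
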