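import Vale.Agent.Helper26.KTV.Johnson

/-!
# Counting in the Johnson scheme

Indicator functions of membership on the `k`-subsets of a finite set `J`, the number of
`k`-subsets containing a given set, and the resulting moment sums of products of at most four
indicators.
-/

set_option linter.unusedSectionVars false

namespace Vale.Agent.Helper28.JP

open Finset

variable {β : Type*} [DecidableEq β]

/-- indicator of membership -/
def xi (w : β) (S : Finset β) : ℝ := if w ∈ S then 1 else 0

theorem xi_mul_self (w : β) (S : Finset β) : xi w S * xi w S = xi w S := by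
  unfold xi; split_ifs <;> simp

theorem xi_of_mem {w : β} {S : Finset β} (h : w ∈ S) : xi w S = 1 := by
  unfold xi; simp [h]

theorem xi_of_notMem {w : β} {S : Finset β} (h : w ∉ S) : xi w S = 0 := by
  unfold xi; simp [h]

/-- a sum over a subset as a sum over the ground set with indicators -/
theorem sum_eq_sum_xi {J S : Finset β} (hS : S ⊆ J) (f : β → ℝ) :
    ∑ i ∈ S, f i = ∑ i ∈ J, xi i S * f i := by
  rw [← Finset.sum_subset hS (f := fun i => xi i S * f i)]
  · exact Finset.sum_congr rfl (fun i hi => by rw [xi_of_mem hi, one_mul])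
  · intro i _ hi
    rw [xi_of_notMem hi, zero_mul]

/-- number of `k`-subsets of `J` containing `A` -/
theorem card_filter_superset (J : Finset β) (k : ℕ) (A : Finset β) (hA : A ⊆ J) :
    ((J.powersetCard k).filter (fun S => A ⊆ S)).card
      = if A.card ≤ k then (J.card - A.card).choose (k - A.card) else 0 := by
  split_ifs with h
  · have h1 : ((J \ A).powersetCard (k - A.card)).card
        = (J.card - A.card).choose (k - A.card) := by
      rw [card_powersetCard, card_sdiff_of_subset hA]
    rw [← h1]
    refine Finset.card_nbij' (fun S => S \ A) (fun T => T ∪ A) ?_ ?_ ?_ ?_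
    · intro S hS
      rw [Finset.mem_coe, mem_filter, mem_powersetCard] at hS
      rw [Finset.mem_coe, mem_powersetCard]
      refine ⟨Finset.sdiff_subset_sdiff hS.1.1 (Finset.Subset.refl A), ?_⟩
      rw [card_sdiff_of_subset hS.2, hS.1.2]
    · intro T hT
      rw [Finset.mem_coe, mem_powersetCard] at hT
      rw [Finset.mem_coe, mem_filter, mem_powersetCard]
      have hd : Disjoint T A := by
        refine Finset.disjoint_left.2 (fun a haT haA => ?_)
        exact (Finset.mem_sdiff.1 (hT.1 haT)).2 haA
      refine ⟨⟨Finset.union_subset (hT.1.trans Finset.sdiff_subset) hA, ?_⟩,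
        Finset.subset_union_right⟩
      rw [Finset.card_union_of_disjoint hd, hT.2]
      omega
    · intro S hS
      rw [Finset.mem_coe, mem_filter] at hS
      exact Finset.sdiff_union_of_subset hS.2
    · intro T hT
      rw [Finset.mem_coe, mem_powersetCard] at hT
      have hd : Disjoint T A := by
        refine Finset.disjoint_left.2 (fun a haT haA => ?_)
        exact (Finset.mem_sdiff.1 (hT.1 haT)).2 haA
      exact Finset.union_sdiff_cancel_right hd
  · rw [Finset.card_eq_zero, Finset.filter_eq_empty_iff]
    intro S hS hAS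
    rw [mem_powersetCard] at hS
    exact h (hS.2 ▸ Finset.card_le_card hAS)

/-- the number of `k`-subsets of `J` containing `j` given points, as a real number -/
noncomputable def mu (J : Finset β) (k j : ℕ) : ℝ :=
  if j ≤ k then ((J.card - j).choose (k - j) : ℝ) else 0

theorem sum_subset_ind (J : Finset β) (k : ℕ) (A : Finset β) (hA : A ⊆ J) :
    ∑ S ∈ J.powersetCard k, (if A ⊆ S then (1 : ℝ) else 0) = mu J k A.card := by
  rw [Finset.sum_boole, card_filter_superset J k A hA]
  unfold mu
  split_ifs <;> simp

theorem mu_zero (J : Finset β) (k : ℕ) : mu J k 0 = ((J.powersetCard k).card : ℝ) := by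
  unfold mu
  simp [card_powersetCard]

theorem sum_xi1 (J : Finset β) (k : ℕ) {w : β} (hw : w ∈ J) :
    ∑ S ∈ J.powersetCard k, xi w S = mu J k 1 := by
  have h := sum_subset_ind J k {w} (Finset.singleton_subset_iff.2 hw)
  rw [Finset.card_singleton] at h
  rw [← h]
  refine Finset.sum_congr rfl (fun S _ => ?_)
  unfold xi
  simp [Finset.singleton_subset_iff]

theorem sum_xi2 (J : Finset β) (k : ℕ) {w z : β} (hw : w ∈ J) (hz : z ∈ J) (hwz : w ≠ z) :
    ∑ S ∈ J.powersetCard k, xi w S * xi z S = mu J k 2 := by
  have hA : ({w, z} : Finset β) ⊆ J := by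
    intro a ha
    rw [Finset.mem_insert, Finset.mem_singleton] at ha
    rcases ha with rfl | rfl <;> assumption
  have h := sum_subset_ind J k {w, z} hA
  rw [Finset.card_pair hwz] at h
  rw [← h]
  refine Finset.sum_congr rfl (fun S _ => ?_)
  unfold xi
  by_cases h1 : w ∈ S <;> by_cases h2 : z ∈ S <;> simp [h1, h2, Finset.insert_subset_iff]

theorem sum_xi3 (J : Finset β) (k : ℕ) {w z y : β} (hw : w ∈ J) (hz : z ∈ J) (hy : y ∈ J)
    (hwz : w ≠ z) (hwy : w ≠ y) (hzy : z ≠ y) :
    ∑ S ∈ J.powersetCard k, xi w S * xi z S * xi y S = mu J k 3 := by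
  have hA : ({w, z, y} : Finset β) ⊆ J := by
    intro a ha
    simp only [Finset.mem_insert, Finset.mem_singleton] at ha
    rcases ha with rfl | rfl | rfl <;> assumption
  have h := sum_subset_ind J k {w, z, y} hA
  have hc : ({w, z, y} : Finset β).card = 3 := by
    rw [Finset.card_insert_of_notMem (by simp [hwz, hwy]), Finset.card_pair hzy]
  rw [hc] at h
  rw [← h]
  refine Finset.sum_congr rfl (fun S _ => ?_)
  unfold xi
  by_cases h1 : w ∈ S <;> by_cases h2 : z ∈ S <;> by_cases h3 : y ∈ S <;>
    simp [h1, h2, h3, Finset.insert_subset_iff]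

theorem sum_xi4 (J : Finset β) (k : ℕ) {w z y v : β} (hw : w ∈ J) (hz : z ∈ J) (hy : y ∈ J)
    (hv : v ∈ J) (hwz : w ≠ z) (hwy : w ≠ y) (hwv : w ≠ v) (hzy : z ≠ y) (hzv : z ≠ v)
    (hyv : y ≠ v) :
    ∑ S ∈ J.powersetCard k, xi w S * xi z S * xi y S * xi v S = mu J k 4 := by
  have hA : ({w, z, y, v} : Finset β) ⊆ J := by
    intro a ha
    simp only [Finset.mem_insert, Finset.mem_singleton] at ha
    rcases ha with rfl | rfl | rfl | rfl <;> assumption
  have h := sum_subset_ind J k {w, z, y, v} hA
  have hc : ({w, z, y, v} : Finset β).card = 4 := by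
    rw [Finset.card_insert_of_notMem (by simp [hwz, hwy, hwv]),
      Finset.card_insert_of_notMem (by simp [hzy, hzv]), Finset.card_pair hyv]
  rw [hc] at h
  rw [← h]
  refine Finset.sum_congr rfl (fun S _ => ?_)
  unfold xi
  by_cases h1 : w ∈ S <;> by_cases h2 : z ∈ S <;> by_cases h3 : y ∈ S <;> by_cases h4 : v ∈ S <;>
    simp [h1, h2, h3, h4, Finset.insert_subset_iff]

end Vale.Agent.Helper28.JP
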