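import Vale.Agent.Helper28.P302LPGen

/-!
# P302: the LP bound for the 50-item instance

An explicit feasible solution of the configuration LP of `inst` with 38 configurations and total
weight `5039 / 300`.
-/

namespace Vale.Agent.Helper28.P302LP

open Finset
open Vale.Agent.Helper7.P302

/-- The certificate: pairs (weight numerator over 300, configuration as a list of scaled sizes). -/
def certL : List (ℕ × List ℕ) := [
  (24, [40001, 40143, 219855]),
  (276, [40001, 40411, 219582]),
  (72, [40036, 40086, 219866]),
  (228, [40036, 40086, 219871]),
  (72, [40041, 40085, 219871]),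
  (228, [40041, 40144, 219813]),
  (216, [40060, 40070, 219866]),
  (84, [40060, 40085, 219855]),
  (150, [40068, 40068, 219864]),
  (192, [40070, 40070, 219855]),
  (150, [40078, 40082, 219840]),
  (150, [40078, 40084, 219838]),
  (150, [40080, 40080, 219840]),
  (150, [40081, 40081, 219838]),
  (150, [40082, 40084, 219834]),
  (150, [40083, 40083, 219834]),
  (72, [40085, 40085, 219813]),
  (150, [40133, 40139, 219728]),
  (150, [40133, 40143, 219724]),
  (150, [40136, 40136, 219728]),
  (150, [40138, 40138, 219724]),
  (78, [40139, 40143, 219717]),
  (72, [40139, 40144, 219717]),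
  (150, [40141, 40141, 219717]),
  (24, [40143, 40143, 219582]),
  (150, [40400, 40406, 219193]),
  (150, [40400, 40410, 219190]),
  (150, [40403, 40403, 219193]),
  (150, [40405, 40405, 219190]),
  (150, [40406, 40410, 219183]),
  (150, [40408, 40408, 219183]),
  (6, [40411, 40411, 40411, 40411, 136000]),
  (72, [40817, 40817, 40817, 40817, 136000]),
  (150, [40817, 126000, 126000]),
  (150, [40817, 219864]),
  (12, [40817, 219866]),
  (200, [96000, 96000, 96000]),
  (111, [136000, 136000])]

theorem certL_cfg : ∀ p ∈ certL, (∀ s ∈ p.2, s ∈ itemsL) ∧ p.2.sum ≤ 300000 := by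
  decide

theorem certL_cov : ∀ i : Fin 50,
    300 * (univ.filter (fun i' : Fin 50 => itemsL.getD i'.1 0 = itemsL.getD i.1 0)).card
      ≤ (certL.map (fun p => p.2.countP (fun s => decide (s = itemsL.getD i.1 0)) * p.1)).sum := by
  decide

theorem certL_total : (certL.map (fun p => p.1)).sum = 5039 := by
  decide

/-- The configuration LP of the 50-item instance has value at most `5039 / 300`. -/
theorem lp_le : LP inst ≤ 5039 / 300 := by
  have h := lp_le_of_cert (L := itemsL) (S := 300000) (a := inst) (by norm_num) (by decide)
    (fun i => by simp [inst]) certL 300 (by norm_num) certL_cfg certL_cov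
  rw [certL_total] at h
  norm_num at h ⊢
  linarith

end Vale.Agent.Helper28.P302LP
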