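import Mathlib
import Vale.Agent.Helper7.P302.Defs

/-!
# P302: a list certificate for an upper bound on the configuration LP

Generic part.  The instance is given by a list `L` of scaled natural sizes and a capacity `S`:
`a i = L[i] / S`.  A certificate is a list of pairs `(w, l)`: the configuration `l` (a list of
scaled sizes) is used with weight `w / D`.
-/

namespace Vale.Agent.Helper28.P302LP

open Finset
open Vale.Agent.Helper7.P302

/-- The configuration (as a function on sizes) attached to a list of scaled sizes. -/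
noncomputable def cfgOf (S : ℕ) (l : List ℕ) : ℚ → ℕ :=
  fun σ => l.countP (fun s : ℕ => decide (((s : ℚ) / (S : ℚ)) = σ))

theorem cfgOf_nil (S : ℕ) (σ : ℚ) : cfgOf S [] σ = 0 := rfl

theorem cfgOf_cons (S : ℕ) (s : ℕ) (t : List ℕ) (σ : ℚ) :
    cfgOf S (s :: t) σ = cfgOf S t σ + if ((s : ℚ) / (S : ℚ)) = σ then 1 else 0 := by
  unfold cfgOf
  rw [List.countP_cons]
  simp

section Generic

variable {n : ℕ} {L : List ℕ} {S : ℕ} {a : Fin n → ℚ}

theorem mem_sizeSet_of_mem (hn : L.length = n) (ha : ∀ i : Fin n, a i = (L.getD i.1 0 : ℚ) / (S : ℚ))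
    {s : ℕ} (hs : s ∈ L) : ((s : ℚ) / (S : ℚ)) ∈ sizeSet a := by
  obtain ⟨i, hi, rfl⟩ := List.mem_iff_getElem.mp hs
  unfold sizeSet
  refine Finset.mem_image.mpr ⟨⟨i, hn ▸ hi⟩, Finset.mem_univ _, ?_⟩
  rw [ha]
  simp [List.getElem?_eq_getElem hi]

theorem cfgOf_vanish (hn : L.length = n) (ha : ∀ i : Fin n, a i = (L.getD i.1 0 : ℚ) / (S : ℚ))
    {l : List ℕ} (hl : ∀ s ∈ l, s ∈ L) {σ : ℚ} (hσ : σ ∉ sizeSet a) : cfgOf S l σ = 0 := by
  unfold cfgOf
  rw [List.countP_eq_zero]
  intro s hs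
  simp only [decide_eq_true_eq]
  intro h
  exact hσ (h ▸ mem_sizeSet_of_mem hn ha (hl s hs))

theorem cfgOf_size (hn : L.length = n) (ha : ∀ i : Fin n, a i = (L.getD i.1 0 : ℚ) / (S : ℚ))
    (l : List ℕ) (hl : ∀ s ∈ l, s ∈ L) :
    ∑ σ ∈ sizeSet a, σ * (cfgOf S l σ : ℚ) = (l.sum : ℚ) / (S : ℚ) := by
  induction l with
  | nil => simp [cfgOf_nil]
  | cons s t ih =>
    have ht : ∀ x ∈ t, x ∈ L := fun x hx => hl x (List.mem_cons_of_mem _ hx)
    have hs : ((s : ℚ) / (S : ℚ)) ∈ sizeSet a := mem_sizeSet_of_mem hn ha (hl s (List.mem_cons_self))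
    have h1 : ∀ σ ∈ sizeSet a, σ * (cfgOf S (s :: t) σ : ℚ)
        = σ * (cfgOf S t σ : ℚ) + (if ((s : ℚ) / (S : ℚ)) = σ then σ else 0) := by
      intro σ _
      rw [cfgOf_cons]
      split_ifs <;> simp [mul_add]
    rw [Finset.sum_congr rfl h1, Finset.sum_add_distrib, ih ht, Finset.sum_ite_eq, if_pos hs]
    simp only [List.sum_cons, Nat.cast_add]
    ring

theorem isConfig_cfgOf (hS : 0 < S) (hn : L.length = n)
    (ha : ∀ i : Fin n, a i = (L.getD i.1 0 : ℚ) / (S : ℚ))
    (l : List ℕ) (hl : ∀ s ∈ l, s ∈ L) (hsum : l.sum ≤ S) : IsConfig a (cfgOf S l) := by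
  refine ⟨fun σ hσ => cfgOf_vanish hn ha hl hσ, ?_⟩
  rw [cfgOf_size hn ha l hl]
  have hS' : (0 : ℚ) < (S : ℚ) := by exact_mod_cast hS
  rw [div_le_one hS']
  exact_mod_cast hsum

theorem cfgOf_at (hS : 0 < S) (l : List ℕ) (x : ℕ) :
    cfgOf S l ((x : ℚ) / (S : ℚ)) = l.countP (fun s => decide (s = x)) := by
  unfold cfgOf
  congr 1
  funext s
  have hS' : (S : ℚ) ≠ 0 := by
    have : (0 : ℚ) < (S : ℚ) := by exact_mod_cast hS
    exact ne_of_gt this
  have : (((s : ℚ) / (S : ℚ)) = (x : ℚ) / (S : ℚ)) ↔ s = x := by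
    rw [div_left_inj' hS']
    exact Nat.cast_inj
  simp [this]

theorem mult_at (hS : 0 < S) (ha : ∀ i : Fin n, a i = (L.getD i.1 0 : ℚ) / (S : ℚ)) (i : Fin n) :
    mult a (a i) = (univ.filter (fun i' : Fin n => L.getD i'.1 0 = L.getD i.1 0)).card := by
  unfold mult
  congr 1
  apply Finset.filter_congr
  intro i' _
  have hS' : (S : ℚ) ≠ 0 := by
    have : (0 : ℚ) < (S : ℚ) := by exact_mod_cast hS
    exact ne_of_gt this
  rw [ha, ha, div_left_inj' hS']
  exact Nat.cast_inj

/-- A list certificate gives a feasible fractional solution, hence an upper bound on `LP`. -/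
theorem lp_le_of_cert (hS : 0 < S) (hn : L.length = n)
    (ha : ∀ i : Fin n, a i = (L.getD i.1 0 : ℚ) / (S : ℚ))
    (cert : List (ℕ × List ℕ)) (D : ℕ) (hD : 0 < D)
    (hcfg : ∀ p ∈ cert, (∀ s ∈ p.2, s ∈ L) ∧ p.2.sum ≤ S)
    (hcov : ∀ i : Fin n,
      D * (univ.filter (fun i' : Fin n => L.getD i'.1 0 = L.getD i.1 0)).card
        ≤ (cert.map (fun p => p.2.countP (fun s => decide (s = L.getD i.1 0)) * p.1)).sum) :
    LP a ≤ (((cert.map (fun p => p.1)).sum : ℕ) : ℝ) / (D : ℝ) := by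
  have hD' : (0 : ℝ) < (D : ℝ) := by exact_mod_cast hD
  set c : Fin cert.length → ℚ → ℕ := fun j => cfgOf S (cert[j.1]).2 with hc
  set z : Fin cert.length → ℝ := fun j => ((cert[j.1]).1 : ℝ) / (D : ℝ) with hz
  have hsol : IsFracSol a cert.length c z := by
    refine ⟨fun j => ⟨?_, ?_⟩, ?_⟩
    · have := hcfg cert[j.1] (List.getElem_mem _)
      exact isConfig_cfgOf hS hn ha _ this.1 this.2
    · exact div_nonneg (Nat.cast_nonneg _) hD'.le
    · intro σ hσ
      obtain ⟨i, -, rfl⟩ := Finset.mem_image.mp hσ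
      rw [mult_at hS ha i]
      set F : ℕ × List ℕ → ℝ := fun p =>
        ((p.2.countP (fun s => decide (s = L.getD i.1 0)) * p.1 : ℕ) : ℝ) / (D : ℝ) with hF
      have hterm : ∀ j : Fin cert.length, (c j (a i) : ℝ) * z j = F cert[j.1] := by
        intro j
        simp only [hc, hz, hF]
        rw [ha i, cfgOf_at hS]
        push_cast
        ring
      rw [Finset.sum_congr rfl (fun j _ => hterm j), Fin.sum_univ_fun_getElem cert F]
      have hsum : (cert.map F).sum
          = (((cert.map (fun p => p.2.countP (fun s => decide (s = L.getD i.1 0)) * p.1)).sum : ℕ) : ℝ)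
              / (D : ℝ) := by
        clear hterm hcov hcfg hz z hc c
        induction cert with
        | nil => simp
        | cons p t ih =>
          simp only [List.map_cons, List.sum_cons, Nat.cast_add]
          rw [ih]
          simp only [hF]
          ring
      rw [hsum, le_div_iff₀ hD']
      have := hcov i
      calc (((univ.filter (fun i' : Fin n => L.getD i'.1 0 = L.getD i.1 0)).card : ℕ) : ℝ) * (D : ℝ)
          = ((D * (univ.filter (fun i' : Fin n => L.getD i'.1 0 = L.getD i.1 0)).card : ℕ) : ℝ) := by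
            push_cast; ring
        _ ≤ _ := by exact_mod_cast this
  have hval : ∑ j, z j = (((cert.map (fun p => p.1)).sum : ℕ) : ℝ) / (D : ℝ) := by
    set G : ℕ × List ℕ → ℝ := fun p => ((p.1 : ℕ) : ℝ) / (D : ℝ) with hG
    have hterm : ∀ j : Fin cert.length, z j = G cert[j.1] := fun j => rfl
    rw [Finset.sum_congr rfl (fun j _ => hterm j), Fin.sum_univ_fun_getElem cert G]
    clear hterm hsol hz z hc c hcov hcfg
    induction cert with
    | nil => simp
    | cons p t ih =>
      simp only [List.map_cons, List.sum_cons, Nat.cast_add]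
      rw [ih]
      simp only [hG]
      ring
  rw [← hval]
  apply csInf_le
  · refine ⟨0, ?_⟩
    rintro v ⟨k, c', z', h, rfl⟩
    exact Finset.sum_nonneg (fun j _ => (h.1 j).2)
  · exact ⟨cert.length, c, z, hsol, rfl⟩

end Generic

end Vale.Agent.Helper28.P302LP
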