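import Mathlib

namespace Vale.Agent.Helper28

/-- The spin-one matrix `S^x` in the standard basis (`S^z` diagonal). -/
noncomputable def spinX : Matrix (Fin 3) (Fin 3) ℂ :=
  (((Real.sqrt 2 : ℝ) : ℂ)⁻¹) • !![0, 1, 0; 1, 0, 1; 0, 1, 0]

/-- The spin-one matrix `S^y` in the standard basis. -/
noncomputable def spinY : Matrix (Fin 3) (Fin 3) ℂ :=
  (((Real.sqrt 2 : ℝ) : ℂ)⁻¹) • !![0, -Complex.I, 0; Complex.I, 0, -Complex.I; 0, Complex.I, 0]

/-- The spin-one matrix `S^z = diag(1, 0, -1)`. -/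
def spinZ : Matrix (Fin 3) (Fin 3) ℂ :=
  !![1, 0, 0; 0, 0, 0; 0, 0, -1]

/-- The operator on `(ℂ^3)^{⊗ L}` (matrices indexed by configurations `Fin L → Fin 3`) acting as
`A` on the tensor factor `j` and as the identity on all other factors. -/
def siteOp (L : ℕ) (j : Fin L) (A : Matrix (Fin 3) (Fin 3) ℂ) :
    Matrix (Fin L → Fin 3) (Fin L → Fin 3) ℂ :=
  fun σ τ => if ∀ k, k ≠ j → σ k = τ k then A (σ j) (τ j) else 0

/-- The spin-one antiferromagnetic Heisenberg Hamiltonian on a periodic ring of `L` sites: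
`H_L = ∑_j ∑_α S^α_j S^α_{j+1}`, indices modulo `L`. -/
noncomputable def heisenberg (L : ℕ) [NeZero L] : Matrix (Fin L → Fin 3) (Fin L → Fin 3) ℂ :=
  ∑ j : Fin L, (siteOp L j spinX * siteOp L (j + 1) spinX
    + siteOp L j spinY * siteOp L (j + 1) spinY
    + siteOp L j spinZ * siteOp L (j + 1) spinZ)

/-- `μ` is a (real) eigenvalue of the complex square matrix `M`. -/
def IsEigenvalue {n : Type*} [Fintype n] (M : Matrix n n ℂ) (μ : ℝ) : Prop :=
  ∃ v : n → ℂ, v ≠ 0 ∧ M.mulVec v = (μ : ℂ) • v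

end Vale.Agent.Helper28
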