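import Mathlib
import Vale.Agent.Helper28.SpinDefs

open Matrix

namespace Vale.Agent.Helper28

theorem sqrt2_inv_sq : (((Real.sqrt 2 : ℝ) : ℂ)⁻¹) * (((Real.sqrt 2 : ℝ) : ℂ)⁻¹) = 1 / 2 := by
  rw [← mul_inv, ← Complex.ofReal_mul, Real.mul_self_sqrt (by norm_num)]
  norm_num

theorem spinX_sq : spinX * spinX = !![1/2, 0, 1/2; 0, 1, 0; 1/2, 0, 1/2] := by
  unfold spinX
  rw [Matrix.smul_mul, Matrix.mul_smul, smul_smul, sqrt2_inv_sq]
  ext i j
  fin_cases i <;> fin_cases j <;>
    simp <;> norm_num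

theorem spinY_sq : spinY * spinY = !![1/2, 0, -1/2; 0, 1, 0; -1/2, 0, 1/2] := by
  unfold spinY
  rw [Matrix.smul_mul, Matrix.mul_smul, smul_smul, sqrt2_inv_sq]
  ext i j
  fin_cases i <;> fin_cases j <;>
    simp <;> norm_num

theorem spinZ_sq : spinZ * spinZ = !![1, 0, 0; 0, 0, 0; 0, 0, 1] := by
  unfold spinZ
  ext i j
  fin_cases i <;> fin_cases j <;> simp

theorem spinX_herm : spinXᴴ = spinX := by
  unfold spinX
  ext i j
  fin_cases i <;> fin_cases j <;> simp [Matrix.conjTranspose_apply]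

theorem spinY_herm : spinYᴴ = spinY := by
  unfold spinY
  ext i j
  fin_cases i <;> fin_cases j <;> simp [Matrix.conjTranspose_apply]

theorem spinZ_herm : spinZᴴ = spinZ := by
  unfold spinZ
  ext i j
  fin_cases i <;> fin_cases j <;> simp [Matrix.conjTranspose_apply]

theorem spin_comm_xy : spinX * spinY - spinY * spinX = Complex.I • spinZ := by
  unfold spinX spinY spinZ
  rw [Matrix.smul_mul, Matrix.mul_smul, smul_smul, Matrix.smul_mul, Matrix.mul_smul, smul_smul,
    sqrt2_inv_sq]
  ext i j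
  fin_cases i <;> fin_cases j <;>
    simp <;> ring_nf

theorem spin_comm_yz : spinY * spinZ - spinZ * spinY = Complex.I • spinX := by
  unfold spinX spinY spinZ
  ext i j
  fin_cases i <;> fin_cases j <;>
    simp <;> ring_nf

theorem spin_comm_zx : spinZ * spinX - spinX * spinZ = Complex.I • spinY := by
  unfold spinX spinY spinZ
  ext i j
  fin_cases i <;> fin_cases j <;>
    simp <;> ring_nf <;> simp [Complex.I_sq]

theorem spin_casimir : spinX * spinX + spinY * spinY + spinZ * spinZ = (2 : ℂ) • 1 := by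
  rw [spinX_sq, spinY_sq, spinZ_sq]
  ext i j
  fin_cases i <;> fin_cases j <;>
    simp <;> norm_num

/-- `1 - (S^x)^2` is an orthogonal projection. -/
theorem spinX_proj : (1 - spinX * spinX) * (1 - spinX * spinX) = 1 - spinX * spinX := by
  rw [spinX_sq]
  ext i j
  fin_cases i <;> fin_cases j <;>
    simp [Matrix.mul_apply, Fin.sum_univ_three, Matrix.one_apply] <;> norm_num

theorem spinY_proj : (1 - spinY * spinY) * (1 - spinY * spinY) = 1 - spinY * spinY := by
  rw [spinY_sq]
  ext i j
  fin_cases i <;> fin_cases j <;>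
    simp [Matrix.mul_apply, Fin.sum_univ_three, Matrix.one_apply] <;> norm_num

theorem spinZ_proj : (1 - spinZ * spinZ) * (1 - spinZ * spinZ) = 1 - spinZ * spinZ := by
  rw [spinZ_sq]
  ext i j
  fin_cases i <;> fin_cases j <;>
    simp [Matrix.mul_apply, Fin.sum_univ_three, Matrix.one_apply]

theorem spinX_diag (i : Fin 3) : spinX i i = 0 := by
  unfold spinX
  fin_cases i <;> simp

theorem spinY_diag (i : Fin 3) : spinY i i = 0 := by
  unfold spinY
  fin_cases i <;> simp

theorem spinZ_diag_zero : spinZ 0 0 = 1 := by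
  unfold spinZ; simp

theorem spinZ_diag_two : spinZ 2 2 = -1 := by
  unfold spinZ; simp

end Vale.Agent.Helper28
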