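import Mathlib
import Vale.Agent.Helper28.SpinDefs

open Matrix

namespace Vale.Agent.Helper28

variable {L : ℕ}

theorem siteOp_apply (j : Fin L) (A : Matrix (Fin 3) (Fin 3) ℂ) (σ τ : Fin L → Fin 3) :
    siteOp L j A σ τ = if ∀ k, k ≠ j → σ k = τ k then A (σ j) (τ j) else 0 := rfl

theorem siteOp_zero (j : Fin L) : siteOp L j 0 = 0 := by
  ext σ τ; simp [siteOp_apply]

theorem siteOp_add (j : Fin L) (A B : Matrix (Fin 3) (Fin 3) ℂ) :
    siteOp L j (A + B) = siteOp L j A + siteOp L j B := by
  ext σ τ
  simp only [siteOp_apply, Matrix.add_apply]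
  split_ifs <;> simp

theorem siteOp_sub (j : Fin L) (A B : Matrix (Fin 3) (Fin 3) ℂ) :
    siteOp L j (A - B) = siteOp L j A - siteOp L j B := by
  ext σ τ
  simp only [siteOp_apply, Matrix.sub_apply]
  split_ifs <;> simp

theorem siteOp_smul (j : Fin L) (c : ℂ) (A : Matrix (Fin 3) (Fin 3) ℂ) :
    siteOp L j (c • A) = c • siteOp L j A := by
  ext σ τ
  simp only [siteOp_apply, Matrix.smul_apply]
  split_ifs <;> simp

theorem siteOp_sum {ι : Type*} (s : Finset ι) (j : Fin L) (A : ι → Matrix (Fin 3) (Fin 3) ℂ) :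
    siteOp L j (∑ i ∈ s, A i) = ∑ i ∈ s, siteOp L j (A i) := by
  classical
  induction s using Finset.induction_on with
  | empty => simp [siteOp_zero]
  | insert a s ha ih => rw [Finset.sum_insert ha, Finset.sum_insert ha, siteOp_add, ih]

theorem siteOp_one (j : Fin L) : siteOp L j 1 = 1 := by
  ext σ τ
  rw [siteOp_apply]
  by_cases h2 : ∀ k, k ≠ j → σ k = τ k
  · rw [if_pos h2]
    by_cases hj : σ j = τ j
    · have hst : σ = τ := by
        funext k
        by_cases hk : k = j
        · rw [hk]; exact hj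
        · exact h2 k hk
      rw [hst, Matrix.one_apply_eq, Matrix.one_apply_eq]
    · have hst : σ ≠ τ := fun h => hj (by rw [h])
      rw [Matrix.one_apply_ne hj, Matrix.one_apply_ne hst]
  · rw [if_neg h2]
    have hst : σ ≠ τ := fun h => h2 (fun k _ => by rw [h])
    rw [Matrix.one_apply_ne hst]

theorem siteOp_conjTranspose (j : Fin L) (A : Matrix (Fin 3) (Fin 3) ℂ) :
    (siteOp L j A)ᴴ = siteOp L j Aᴴ := by
  ext σ τ
  simp only [siteOp_apply, Matrix.conjTranspose_apply]
  by_cases h : ∀ k, k ≠ j → σ k = τ k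
  · have h' : ∀ k, k ≠ j → τ k = σ k := fun k hk => (h k hk).symm
    rw [if_pos h, if_pos h']
  · have h' : ¬ ∀ k, k ≠ j → τ k = σ k := fun h2 => h (fun k hk => (h2 k hk).symm)
    rw [if_neg h, if_neg h']; simp

/-- Product of operators at the same site. -/
theorem siteOp_mul (j : Fin L) (A B : Matrix (Fin 3) (Fin 3) ℂ) :
    siteOp L j A * siteOp L j B = siteOp L j (A * B) := by
  classical
  ext σ τ
  rw [Matrix.mul_apply]
  simp only [siteOp_apply]
  by_cases h : ∀ k, k ≠ j → σ k = τ k
  · rw [if_pos h, Matrix.mul_apply]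
    symm
    apply Finset.sum_of_injOn (fun m : Fin 3 => Function.update σ j m)
    · intro m _ m' _ hmm
      have := congrFun hmm j
      simpa using this
    · intro m _; exact Finset.mem_coe.mpr (Finset.mem_univ _)
    · intro ρ _ hρ
      by_cases h1 : ∀ k, k ≠ j → σ k = ρ k
      · exfalso
        apply hρ
        refine ⟨ρ j, Finset.mem_coe.mpr (Finset.mem_univ _), ?_⟩
        funext k
        by_cases hk : k = j
        · subst hk; simp
        · simp [Function.update_of_ne hk, h1 k hk]
      · rw [if_neg h1, zero_mul]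
    · intro m _
      have h1 : ∀ k, k ≠ j → σ k = Function.update σ j m k := by
        intro k hk; rw [Function.update_of_ne hk]
      have h2 : ∀ k, k ≠ j → Function.update σ j m k = τ k := by
        intro k hk; rw [Function.update_of_ne hk]; exact h k hk
      rw [if_pos h1, if_pos h2]
      simp
  · rw [if_neg h]
    apply Finset.sum_eq_zero
    intro ρ _
    by_cases h1 : ∀ k, k ≠ j → σ k = ρ k
    · have h2 : ¬ ∀ k, k ≠ j → ρ k = τ k := by
        intro h2
        exact h (fun k hk => (h1 k hk).trans (h2 k hk))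
      rw [if_neg h2, mul_zero]
    · rw [if_neg h1, zero_mul]

/-- Entry formula for a product of operators at two different sites. -/
theorem siteOp_mul_apply_of_ne {j k : Fin L} (hjk : j ≠ k) (A B : Matrix (Fin 3) (Fin 3) ℂ)
    (σ τ : Fin L → Fin 3) :
    (siteOp L j A * siteOp L k B) σ τ =
      if ∀ i, i ≠ j → i ≠ k → σ i = τ i then A (σ j) (τ j) * B (σ k) (τ k) else 0 := by
  classical
  rw [Matrix.mul_apply]
  rw [Finset.sum_eq_single (Function.update σ j (τ j))]
  · simp only [siteOp_apply]
    have h1 : ∀ i, i ≠ j → σ i = Function.update σ j (τ j) i := by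
      intro i hi; rw [Function.update_of_ne hi]
    rw [if_pos h1]
    have hk : Function.update σ j (τ j) k = σ k := Function.update_of_ne (Ne.symm hjk) _ _
    by_cases h : ∀ i, i ≠ j → i ≠ k → σ i = τ i
    · have h2 : ∀ i, i ≠ k → Function.update σ j (τ j) i = τ i := by
        intro i hi
        by_cases hij : i = j
        · subst hij; simp
        · rw [Function.update_of_ne hij]; exact h i hij hi
      rw [if_pos h2, if_pos h, hk]
      simp
    · have h2 : ¬ ∀ i, i ≠ k → Function.update σ j (τ j) i = τ i := by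
        intro h2
        apply h
        intro i hij hik
        have := h2 i hik
        rwa [Function.update_of_ne hij] at this
      rw [if_neg h2, if_neg h, mul_zero]
  · intro ρ _ hρ
    simp only [siteOp_apply]
    by_cases h1 : ∀ i, i ≠ j → σ i = ρ i
    · by_cases h2 : ∀ i, i ≠ k → ρ i = τ i
      · exfalso
        apply hρ
        funext i
        by_cases hij : i = j
        · subst hij
          simp only [Function.update_self]
          exact h2 i hjk
        · rw [Function.update_of_ne hij]; exact (h1 i hij).symm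
      · rw [if_neg h2, mul_zero]
    · rw [if_neg h1, zero_mul]
  · intro h; exact absurd (Finset.mem_univ _) h

/-- Operators at different sites commute. -/
theorem siteOp_comm {j k : Fin L} (hjk : j ≠ k) (A B : Matrix (Fin 3) (Fin 3) ℂ) :
    siteOp L j A * siteOp L k B = siteOp L k B * siteOp L j A := by
  ext σ τ
  rw [siteOp_mul_apply_of_ne hjk, siteOp_mul_apply_of_ne (Ne.symm hjk)]
  by_cases h : ∀ i, i ≠ j → i ≠ k → σ i = τ i
  · have h' : ∀ i, i ≠ k → i ≠ j → σ i = τ i := fun i hk hj => h i hj hk
    rw [if_pos h, if_pos h', mul_comm]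
  · have h' : ¬ ∀ i, i ≠ k → i ≠ j → σ i = τ i := fun h2 => h (fun i hj hk => h2 i hk hj)
    rw [if_neg h, if_neg h']

/-- Diagonal entries of a two-site product. -/
theorem siteOp_mul_diag {j k : Fin L} (hjk : j ≠ k) (A B : Matrix (Fin 3) (Fin 3) ℂ)
    (σ : Fin L → Fin 3) :
    (siteOp L j A * siteOp L k B) σ σ = A (σ j) (σ j) * B (σ k) (σ k) := by
  rw [siteOp_mul_apply_of_ne hjk]
  simp

end Vale.Agent.Helper28
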