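import Mathlib
import Vale.Agent.Helper28.SpinSite
import Vale.Agent.Helper28.SpinMat

open Matrix

namespace Vale.Agent.Helper28

/-- The three spin matrices as a family. -/
noncomputable def spinS : Fin 3 → Matrix (Fin 3) (Fin 3) ℂ := ![spinX, spinY, spinZ]

theorem spinS_herm (α : Fin 3) : (spinS α)ᴴ = spinS α := by
  fin_cases α
  · exact spinX_herm
  · exact spinY_herm
  · exact spinZ_herm

theorem spinS_casimir : ∑ α : Fin 3, spinS α * spinS α = (2 : ℂ) • 1 := by
  rw [Fin.sum_univ_three]
  exact spin_casimir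

theorem twirl_aux {R : Type*} [Ring R] [Algebra ℂ R] (X Y Z : R)
    (hxy : X * Y - Y * X = Complex.I • Z) (hyz : Y * Z - Z * Y = Complex.I • X)
    (hzx : Z * X - X * Z = Complex.I • Y) (hsq : X * X + Y * Y + Z * Z = (2 : ℂ) • 1) :
    X * X * X + Y * X * Y + Z * X * Z = X := by
  have e1 : X * Y = Y * X + Complex.I • Z := by rw [← hxy]; abel
  have e2 : X * Z = Z * X - Complex.I • Y := by rw [← hzx]; abel
  calc X * X * X + Y * X * Y + Z * X * Z
      = X * X * X + Y * (X * Y) + Z * (X * Z) := by simp only [mul_assoc]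
    _ = X * X * X + Y * (Y * X + Complex.I • Z) + Z * (Z * X - Complex.I • Y) := by rw [e1, e2]
    _ = (X * X + Y * Y + Z * Z) * X + Complex.I • (Y * Z - Z * Y) := by
        simp only [mul_add, mul_sub, add_mul, mul_smul_comm, smul_sub, mul_assoc]; abel
    _ = ((2 : ℂ) • (1 : R)) * X + Complex.I • (Complex.I • X) := by rw [hsq, hyz]
    _ = X := by
        rw [smul_mul_assoc, one_mul, smul_smul, Complex.I_mul_I]
        module

theorem spinS_twirl (β : Fin 3) : ∑ α : Fin 3, spinS α * spinS β * spinS α = spinS β := by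
  rw [Fin.sum_univ_three]
  fin_cases β
  · exact twirl_aux spinX spinY spinZ spin_comm_xy spin_comm_yz spin_comm_zx spin_casimir
  · have h := twirl_aux spinY spinZ spinX spin_comm_yz spin_comm_zx spin_comm_xy
      (by rw [← spin_casimir]; abel)
    have e : spinX * spinY * spinX + spinY * spinY * spinY + spinZ * spinY * spinZ
        = spinY * spinY * spinY + spinZ * spinY * spinZ + spinX * spinY * spinX := by abel
    exact e.trans h
  · have h := twirl_aux spinZ spinX spinY spin_comm_zx spin_comm_xy spin_comm_yz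
      (by rw [← spin_casimir]; abel)
    have e : spinX * spinZ * spinX + spinY * spinZ * spinY + spinZ * spinZ * spinZ
        = spinZ * spinZ * spinZ + spinX * spinZ * spinX + spinY * spinZ * spinY := by abel
    exact e.trans h

/-- `1 - (S^α)^2` is a Hermitian idempotent. -/
theorem spinS_proj (α : Fin 3) :
    (1 - spinS α * spinS α)ᴴ * (1 - spinS α * spinS α) = 1 - spinS α * spinS α := by
  have hh : (1 - spinS α * spinS α)ᴴ = 1 - spinS α * spinS α := by
    rw [Matrix.conjTranspose_sub, Matrix.conjTranspose_one, Matrix.conjTranspose_mul, spinS_herm]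
  rw [hh]
  fin_cases α
  · exact spinX_proj
  · exact spinY_proj
  · exact spinZ_proj

end Vale.Agent.Helper28

namespace Vale.Agent.Helper28

section chain

variable {L : ℕ}

/-- Spin operator at site `j`, component `α`. -/
noncomputable def sOp (L : ℕ) (j : Fin L) (α : Fin 3) :
    Matrix (Fin L → Fin 3) (Fin L → Fin 3) ℂ := siteOp L j (spinS α)

theorem sOp_herm (j : Fin L) (α : Fin 3) : (sOp L j α)ᴴ = sOp L j α := by
  rw [sOp, siteOp_conjTranspose, spinS_herm]

theorem sOp_comm {j k : Fin L} (h : j ≠ k) (α β : Fin 3) :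
    sOp L j α * sOp L k β = sOp L k β * sOp L j α := siteOp_comm h _ _

theorem sOp_casimir (j : Fin L) : ∑ α : Fin 3, sOp L j α * sOp L j α = (2 : ℂ) • 1 := by
  simp only [sOp, siteOp_mul]
  rw [← siteOp_sum, spinS_casimir, siteOp_smul, siteOp_one]

theorem sOp_twirl (j : Fin L) (β : Fin 3) :
    ∑ α : Fin 3, sOp L j α * sOp L j β * sOp L j α = sOp L j β := by
  simp only [sOp, siteOp_mul]
  rw [← siteOp_sum, spinS_twirl]

variable [NeZero L]

/-- The bond operator `q_k = ∑_α S^α_k S^α_{k+1}`. -/
noncomputable def bond (L : ℕ) [NeZero L] (k : Fin L) :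
    Matrix (Fin L → Fin 3) (Fin L → Fin 3) ℂ := ∑ α : Fin 3, sOp L k α * sOp L (k + 1) α

theorem heisenberg_eq : heisenberg L = ∑ k : Fin L, bond L k := by
  unfold heisenberg bond
  refine Finset.sum_congr rfl fun k _ => ?_
  rw [Fin.sum_univ_three]
  rfl

theorem succ_ne_self (hL : 2 ≤ L) (j : Fin L) : j + 1 ≠ j := by
  intro h
  have h1 : (1 : Fin L) = 0 := add_eq_left.mp h
  have h2 := congrArg Fin.val h1
  rw [Fin.val_one', Nat.mod_eq_of_lt (by omega)] at h2
  simp at h2

theorem twirl_bond (hL : 2 ≤ L) (j k : Fin L) :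
    ∑ α : Fin 3, sOp L j α * bond L k * sOp L j α =
      if k = j ∨ k + 1 = j then bond L k else (2 : ℂ) • bond L k := by
  unfold bond
  simp only [Finset.mul_sum, Finset.sum_mul]
  rw [Finset.sum_comm]
  by_cases hkj : k = j
  · subst hkj
    rw [if_pos (Or.inl rfl)]
    refine Finset.sum_congr rfl fun β _ => ?_
    have hne : k + 1 ≠ k := succ_ne_self hL k
    have h1 : ∀ α, sOp L k α * (sOp L k β * sOp L (k + 1) β) * sOp L k α
        = (sOp L k α * sOp L k β * sOp L k α) * sOp L (k + 1) β := by
      intro α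
      calc sOp L k α * (sOp L k β * sOp L (k + 1) β) * sOp L k α
          = sOp L k α * sOp L k β * (sOp L (k + 1) β * sOp L k α) := by simp only [mul_assoc]
        _ = sOp L k α * sOp L k β * (sOp L k α * sOp L (k + 1) β) := by rw [sOp_comm hne β α]
        _ = _ := by simp only [mul_assoc]
    simp only [h1]
    rw [← Finset.sum_mul, sOp_twirl]
  · by_cases hkj' : k + 1 = j
    · rw [if_pos (Or.inr hkj')]
      subst hkj'
      refine Finset.sum_congr rfl fun β _ => ?_
      have hne : k + 1 ≠ k := succ_ne_self hL k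
      have h1 : ∀ α, sOp L (k + 1) α * (sOp L k β * sOp L (k + 1) β) * sOp L (k + 1) α
          = sOp L k β * (sOp L (k + 1) α * sOp L (k + 1) β * sOp L (k + 1) α) := by
        intro α
        calc sOp L (k + 1) α * (sOp L k β * sOp L (k + 1) β) * sOp L (k + 1) α
            = (sOp L (k + 1) α * sOp L k β) * sOp L (k + 1) β * sOp L (k + 1) α := by
              simp only [mul_assoc]
          _ = (sOp L k β * sOp L (k + 1) α) * sOp L (k + 1) β * sOp L (k + 1) α := by
              rw [sOp_comm hne α β]
          _ = _ := by simp only [mul_assoc]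
      simp only [h1]
      rw [← Finset.mul_sum, sOp_twirl]
    · have hnot : ¬ (k = j ∨ k + 1 = j) := by tauto
      rw [if_neg hnot, Finset.smul_sum]
      refine Finset.sum_congr rfl fun β _ => ?_
      have h1 : ∀ α, sOp L j α * (sOp L k β * sOp L (k + 1) β) * sOp L j α
          = (sOp L j α * sOp L j α) * (sOp L k β * sOp L (k + 1) β) := by
        intro α
        have c1 : Commute (sOp L j α) (sOp L k β) := sOp_comm (Ne.symm hkj) α β
        have c2 : Commute (sOp L j α) (sOp L (k + 1) β) := sOp_comm (Ne.symm hkj') α β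
        have c3 : Commute (sOp L j α) (sOp L k β * sOp L (k + 1) β) := c1.mul_right c2
        calc sOp L j α * (sOp L k β * sOp L (k + 1) β) * sOp L j α
            = sOp L j α * ((sOp L k β * sOp L (k + 1) β) * sOp L j α) := by rw [mul_assoc]
          _ = sOp L j α * (sOp L j α * (sOp L k β * sOp L (k + 1) β)) := by rw [c3.eq]
          _ = _ := by rw [mul_assoc]
      simp only [h1]
      rw [← Finset.sum_mul, sOp_casimir, smul_mul_assoc, one_mul]

/-- Sum rule: `∑_{j,α} S^α_j H S^α_j = (2L - 2) H`. -/
theorem sum_rule (hL : 2 ≤ L) :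
    ∑ j : Fin L, ∑ α : Fin 3, sOp L j α * heisenberg L * sOp L j α
      = (2 * (L : ℂ) - 2) • heisenberg L := by
  classical
  have h1 : ∀ j : Fin L, ∑ α : Fin 3, sOp L j α * heisenberg L * sOp L j α
      = ∑ k : Fin L, (if k = j ∨ k + 1 = j then bond L k else (2 : ℂ) • bond L k) := by
    intro j
    rw [heisenberg_eq]
    simp only [Finset.mul_sum, Finset.sum_mul]
    rw [Finset.sum_comm]
    exact Finset.sum_congr rfl fun k _ => twirl_bond hL j k
  rw [Finset.sum_congr rfl fun j _ => h1 j, Finset.sum_comm, heisenberg_eq, Finset.smul_sum]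
  refine Finset.sum_congr rfl fun k _ => ?_
  have hne : k + 1 ≠ k := succ_ne_self hL k
  have h2 : ∀ j : Fin L, (if k = j ∨ k + 1 = j then bond L k else (2 : ℂ) • bond L k)
      = (2 : ℂ) • bond L k - (if k = j then bond L k else 0)
        - (if k + 1 = j then bond L k else 0) := by
    intro j
    by_cases h : k = j
    · have h' : ¬ k + 1 = j := by rw [← h]; exact hne
      rw [if_pos (Or.inl h), if_pos h, if_neg h']
      module
    · by_cases h' : k + 1 = j
      · rw [if_pos (Or.inr h'), if_neg h, if_pos h']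
        module
      · rw [if_neg (by tauto), if_neg h, if_neg h']
        module
  rw [Finset.sum_congr rfl fun j _ => h2 j, Finset.sum_sub_distrib, Finset.sum_sub_distrib,
    Finset.sum_const, Finset.sum_ite_eq, Finset.sum_ite_eq]
  simp only [Finset.mem_univ, if_true, Finset.card_univ, Fintype.card_fin]
  module

end chain

end Vale.Agent.Helper28
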