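import Mathlib
import Vale.Agent.Helper28.SpinChain

open Matrix
open scoped ComplexOrder MatrixOrder

namespace Vale.Agent.Helper28

section order

variable {n : Type*} [Fintype n] [DecidableEq n]

/-- `(u a + v b)^* (u a + v b) ≤ 2 a^* a + 2 b^* b` for unit scalars `u, v`. -/
theorem cs_two (a b : Matrix n n ℂ) (u v : ℂ) (hu : star u * u = 1) (hv : star v * v = 1) :
    (u • a + v • b)ᴴ * (u • a + v • b) ≤ 2 • (aᴴ * a) + 2 • (bᴴ * b) := by
  have h := Matrix.posSemidef_conjTranspose_mul_self (u • a - v • b)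
  rw [Matrix.le_iff]
  have e : 2 • (aᴴ * a) + 2 • (bᴴ * b) - (u • a + v • b)ᴴ * (u • a + v • b)
      = (u • a - v • b)ᴴ * (u • a - v • b) := by
    have h1 : (u • a)ᴴ * (u • a) = aᴴ * a := by
      rw [Matrix.conjTranspose_smul, Matrix.smul_mul, Matrix.mul_smul, smul_smul, hu, one_smul]
    have h2 : (v • b)ᴴ * (v • b) = bᴴ * b := by
      rw [Matrix.conjTranspose_smul, Matrix.smul_mul, Matrix.mul_smul, smul_smul, hv, one_smul]
    rw [Matrix.conjTranspose_add, Matrix.conjTranspose_sub]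
    rw [Matrix.add_mul, Matrix.mul_add, Matrix.mul_add, Matrix.sub_mul, Matrix.mul_sub,
      Matrix.mul_sub, h1, h2]
    simp only [two_smul]
    abel
  rw [e]
  exact h

end order

end Vale.Agent.Helper28

namespace Vale.Agent.Helper28

section chainbound

variable {L : ℕ}

/-- Multiplying by a spin operator does not increase `X^* X`. -/
theorem contract (j : Fin L) (η : Fin 3) (X : Matrix (Fin L → Fin 3) (Fin L → Fin 3) ℂ) :
    (sOp L j η * X)ᴴ * (sOp L j η * X) ≤ Xᴴ * X := by
  rw [Matrix.le_iff]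
  set q := siteOp L j (1 - spinS η * spinS η) with hq
  have hqq : qᴴ * q = 1 - sOp L j η * sOp L j η := by
    rw [hq, siteOp_conjTranspose, siteOp_mul, spinS_proj, siteOp_sub, siteOp_one, ← siteOp_mul]
    rfl
  have e : Xᴴ * X - (sOp L j η * X)ᴴ * (sOp L j η * X) = (q * X)ᴴ * (q * X) := by
    rw [Matrix.conjTranspose_mul, Matrix.conjTranspose_mul, sOp_herm]
    calc Xᴴ * X - Xᴴ * sOp L j η * (sOp L j η * X)
        = Xᴴ * (1 - sOp L j η * sOp L j η) * X := by noncomm_ring
      _ = Xᴴ * (qᴴ * q) * X := by rw [hqq]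
      _ = Xᴴ * qᴴ * (q * X) := by simp only [Matrix.mul_assoc]
  rw [e]
  exact Matrix.posSemidef_conjTranspose_mul_self _

variable [NeZero L]

theorem bond_comm (hL : 2 ≤ L) (j k : Fin L) (α : Fin 3) :
    bond L k * sOp L j α - sOp L j α * bond L k =
      if k = j then
        ∑ β : Fin 3, (sOp L j β * sOp L j α - sOp L j α * sOp L j β) * sOp L (j + 1) β
      else if k + 1 = j then
        ∑ β : Fin 3, (sOp L j β * sOp L j α - sOp L j α * sOp L j β) * sOp L k β
      else 0 := by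
  unfold bond
  rw [Finset.sum_mul, Finset.mul_sum, ← Finset.sum_sub_distrib]
  by_cases hkj : k = j
  · subst hkj
    rw [if_pos rfl]
    refine Finset.sum_congr rfl fun β _ => ?_
    have hne : k + 1 ≠ k := succ_ne_self hL k
    have c : sOp L (k + 1) β * sOp L k α = sOp L k α * sOp L (k + 1) β := sOp_comm hne β α
    calc sOp L k β * sOp L (k + 1) β * sOp L k α - sOp L k α * (sOp L k β * sOp L (k + 1) β)
        = sOp L k β * (sOp L (k + 1) β * sOp L k α)
          - sOp L k α * sOp L k β * sOp L (k + 1) β := by simp only [mul_assoc]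
      _ = sOp L k β * (sOp L k α * sOp L (k + 1) β)
          - sOp L k α * sOp L k β * sOp L (k + 1) β := by rw [c]
      _ = _ := by noncomm_ring
  · rw [if_neg hkj]
    by_cases hkj' : k + 1 = j
    · rw [if_pos hkj']
      subst hkj'
      refine Finset.sum_congr rfl fun β _ => ?_
      have hc : ∀ γ, Commute (sOp L k β) (sOp L (k + 1) γ) :=
        fun γ => sOp_comm (Ne.symm (succ_ne_self hL k)) β γ
      have c1 : sOp L k β * (sOp L (k + 1) β * sOp L (k + 1) α)
          = (sOp L (k + 1) β * sOp L (k + 1) α) * sOp L k β := ((hc β).mul_right (hc α)).eq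
      have c2 : sOp L k β * sOp L (k + 1) β = sOp L (k + 1) β * sOp L k β := (hc β).eq
      calc sOp L k β * sOp L (k + 1) β * sOp L (k + 1) α
            - sOp L (k + 1) α * (sOp L k β * sOp L (k + 1) β)
          = sOp L k β * (sOp L (k + 1) β * sOp L (k + 1) α)
            - sOp L (k + 1) α * (sOp L k β * sOp L (k + 1) β) := by simp only [mul_assoc]
        _ = (sOp L (k + 1) β * sOp L (k + 1) α) * sOp L k β
            - sOp L (k + 1) α * (sOp L (k + 1) β * sOp L k β) := by rw [c1, c2]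
        _ = _ := by noncomm_ring
    · rw [if_neg hkj']
      refine Finset.sum_eq_zero fun β _ => ?_
      have c1 : Commute (sOp L j α) (sOp L k β) := sOp_comm (Ne.symm hkj) α β
      have c2 : Commute (sOp L j α) (sOp L (k + 1) β) := sOp_comm (Ne.symm hkj') α β
      have c3 : Commute (sOp L j α) (sOp L k β * sOp L (k + 1) β) := c1.mul_right c2
      rw [c3.eq, sub_self]

theorem comm_formula (hL : 2 ≤ L) (j : Fin L) (α : Fin 3) :
    heisenberg L * sOp L j α - sOp L j α * heisenberg L =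
      ∑ β : Fin 3, (sOp L j β * sOp L j α - sOp L j α * sOp L j β)
        * (sOp L (j + 1) β + sOp L (j - 1) β) := by
  classical
  rw [heisenberg_eq, Finset.sum_mul, Finset.mul_sum, ← Finset.sum_sub_distrib]
  rw [Finset.sum_congr rfl fun k _ => bond_comm hL j k α]
  have hsplit : ∀ k : Fin L,
      (if k = j then
        ∑ β : Fin 3, (sOp L j β * sOp L j α - sOp L j α * sOp L j β) * sOp L (j + 1) β
      else if k + 1 = j then
        ∑ β : Fin 3, (sOp L j β * sOp L j α - sOp L j α * sOp L j β) * sOp L k β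
      else 0)
      = (if k = j then
          ∑ β : Fin 3, (sOp L j β * sOp L j α - sOp L j α * sOp L j β) * sOp L (j + 1) β
        else 0)
        + (if k + 1 = j then
          ∑ β : Fin 3, (sOp L j β * sOp L j α - sOp L j α * sOp L j β) * sOp L k β
        else 0) := by
    intro k
    by_cases hkj : k = j
    · have hne : ¬ k + 1 = j := by rw [← hkj]; exact succ_ne_self hL k
      rw [if_pos hkj, if_pos hkj, if_neg hne, add_zero]
    · rw [if_neg hkj, if_neg hkj, zero_add]
  rw [Finset.sum_congr rfl fun k _ => hsplit k, Finset.sum_add_distrib, Finset.sum_ite_eq']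
  simp only [Finset.mem_univ, if_true]
  rw [Finset.sum_eq_single (j - 1)]
  · rw [if_pos (sub_add_cancel j 1), ← Finset.sum_add_distrib]
    refine Finset.sum_congr rfl fun β _ => ?_
    rw [mul_add]
  · intro k _ hk
    have : ¬ k + 1 = j := fun h => hk (by rw [← h, add_sub_cancel_right])
    rw [if_neg this]
  · intro h; exact absurd (Finset.mem_univ _) h

end chainbound

end Vale.Agent.Helper28

namespace Vale.Agent.Helper28

section psd

variable {L : ℕ} [NeZero L]

/-- The operator `T^β_j = S^β_{j+1} + S^β_{j-1}`. -/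
noncomputable def tOp (L : ℕ) [NeZero L] (j : Fin L) (β : Fin 3) :
    Matrix (Fin L → Fin 3) (Fin L → Fin 3) ℂ := sOp L (j + 1) β + sOp L (j - 1) β

theorem comm_x (hL : 2 ≤ L) (j : Fin L) :
    heisenberg L * sOp L j 0 - sOp L j 0 * heisenberg L =
      (-Complex.I) • (sOp L j 2 * tOp L j 1) + Complex.I • (sOp L j 1 * tOp L j 2) := by
  rw [comm_formula hL, Fin.sum_univ_three]
  have d0 : sOp L j 0 * sOp L j 0 - sOp L j 0 * sOp L j 0 = 0 := sub_self _
  have d1 : sOp L j 1 * sOp L j 0 - sOp L j 0 * sOp L j 1 = (-Complex.I) • sOp L j 2 := by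
    simp only [sOp, siteOp_mul, ← siteOp_sub, ← siteOp_smul]
    congr 1
    show spinY * spinX - spinX * spinY = (-Complex.I) • spinZ
    rw [neg_smul, ← spin_comm_xy]; abel
  have d2 : sOp L j 2 * sOp L j 0 - sOp L j 0 * sOp L j 2 = Complex.I • sOp L j 1 := by
    simp only [sOp, siteOp_mul, ← siteOp_sub, ← siteOp_smul]
    congr 1
    exact spin_comm_zx
  rw [d0, d1, d2, zero_mul, zero_add, smul_mul_assoc, smul_mul_assoc]
  rfl

theorem comm_y (hL : 2 ≤ L) (j : Fin L) :
    heisenberg L * sOp L j 1 - sOp L j 1 * heisenberg L =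
      Complex.I • (sOp L j 2 * tOp L j 0) + (-Complex.I) • (sOp L j 0 * tOp L j 2) := by
  rw [comm_formula hL, Fin.sum_univ_three]
  have d0 : sOp L j 0 * sOp L j 1 - sOp L j 1 * sOp L j 0 = Complex.I • sOp L j 2 := by
    simp only [sOp, siteOp_mul, ← siteOp_sub, ← siteOp_smul]
    congr 1
    exact spin_comm_xy
  have d1 : sOp L j 1 * sOp L j 1 - sOp L j 1 * sOp L j 1 = 0 := sub_self _
  have d2 : sOp L j 2 * sOp L j 1 - sOp L j 1 * sOp L j 2 = (-Complex.I) • sOp L j 0 := by
    simp only [sOp, siteOp_mul, ← siteOp_sub, ← siteOp_smul]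
    congr 1
    show spinZ * spinY - spinY * spinZ = (-Complex.I) • spinX
    rw [neg_smul, ← spin_comm_yz]; abel
  rw [d0, d1, d2, zero_mul, add_zero, smul_mul_assoc, smul_mul_assoc]
  rfl

theorem comm_z (hL : 2 ≤ L) (j : Fin L) :
    heisenberg L * sOp L j 2 - sOp L j 2 * heisenberg L =
      (-Complex.I) • (sOp L j 1 * tOp L j 0) + Complex.I • (sOp L j 0 * tOp L j 1) := by
  rw [comm_formula hL, Fin.sum_univ_three]
  have d0 : sOp L j 0 * sOp L j 2 - sOp L j 2 * sOp L j 0 = (-Complex.I) • sOp L j 1 := by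
    simp only [sOp, siteOp_mul, ← siteOp_sub, ← siteOp_smul]
    congr 1
    show spinX * spinZ - spinZ * spinX = (-Complex.I) • spinY
    rw [neg_smul, ← spin_comm_zx]; abel
  have d1 : sOp L j 1 * sOp L j 2 - sOp L j 2 * sOp L j 1 = Complex.I • sOp L j 0 := by
    simp only [sOp, siteOp_mul, ← siteOp_sub, ← siteOp_smul]
    congr 1
    exact spin_comm_yz
  have d2 : sOp L j 2 * sOp L j 2 - sOp L j 2 * sOp L j 2 = 0 := sub_self _
  rw [d0, d1, d2, zero_mul, add_zero, smul_mul_assoc, smul_mul_assoc]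
  rfl

theorem star_I_mul : star Complex.I * Complex.I = 1 := by
  simp

theorem star_negI_mul : star (-Complex.I) * (-Complex.I) = 1 := by
  simp

/-- Bound for a commutator of the form `u S X + v S' Y`. -/
theorem comm_bound_aux (j : Fin L) (C X Y : Matrix (Fin L → Fin 3) (Fin L → Fin 3) ℂ)
    (u v : ℂ) (hu : star u * u = 1) (hv : star v * v = 1) (η η' : Fin 3)
    (hC : C = u • (sOp L j η * X) + v • (sOp L j η' * Y)) :
    Cᴴ * C ≤ 2 • (Xᴴ * X) + 2 • (Yᴴ * Y) := by
  rw [hC]
  refine (cs_two _ _ u v hu hv).trans ?_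
  exact add_le_add (nsmul_le_nsmul_right (contract j η X) 2)
    (nsmul_le_nsmul_right (contract j η' Y) 2)

theorem tOp_bound (j : Fin L) (β : Fin 3) :
    (tOp L j β)ᴴ * tOp L j β
      ≤ 2 • (sOp L (j + 1) β * sOp L (j + 1) β) + 2 • (sOp L (j - 1) β * sOp L (j - 1) β) := by
  have h := cs_two (sOp L (j + 1) β) (sOp L (j - 1) β) 1 1 (by simp) (by simp)
  rw [one_smul, one_smul, sOp_herm, sOp_herm] at h
  exact h

theorem tOp_sum_bound (j : Fin L) :
    ∑ β : Fin 3, (tOp L j β)ᴴ * tOp L j β ≤ 8 • (1 : Matrix (Fin L → Fin 3) (Fin L → Fin 3) ℂ) := by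
  calc ∑ β : Fin 3, (tOp L j β)ᴴ * tOp L j β
      ≤ ∑ β : Fin 3, (2 • (sOp L (j + 1) β * sOp L (j + 1) β)
          + 2 • (sOp L (j - 1) β * sOp L (j - 1) β)) :=
        Finset.sum_le_sum fun β _ => tOp_bound j β
    _ = 8 • (1 : Matrix (Fin L → Fin 3) (Fin L → Fin 3) ℂ) := by
        rw [Finset.sum_add_distrib, ← Finset.smul_sum, ← Finset.smul_sum, sOp_casimir,
          sOp_casimir]
        rw [show ((2 : ℂ) • (1 : Matrix (Fin L → Fin 3) (Fin L → Fin 3) ℂ))
          = 2 • (1 : Matrix (Fin L → Fin 3) (Fin L → Fin 3) ℂ) from by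
            rw [two_smul, two_smul]]
        rw [← add_smul, smul_smul]
        norm_num

/-- The commutator bound for one site. -/
theorem comm_bound_site (hL : 2 ≤ L) (j : Fin L) :
    ∑ α : Fin 3, (heisenberg L * sOp L j α - sOp L j α * heisenberg L)ᴴ
        * (heisenberg L * sOp L j α - sOp L j α * heisenberg L)
      ≤ 32 • (1 : Matrix (Fin L → Fin 3) (Fin L → Fin 3) ℂ) := by
  have hx := comm_bound_aux j _ (tOp L j 1) (tOp L j 2) (-Complex.I) Complex.I
    star_negI_mul star_I_mul 2 1 (comm_x hL j)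
  have hy := comm_bound_aux j _ (tOp L j 0) (tOp L j 2) Complex.I (-Complex.I)
    star_I_mul star_negI_mul 2 0 (comm_y hL j)
  have hz := comm_bound_aux j _ (tOp L j 0) (tOp L j 1) (-Complex.I) Complex.I
    star_negI_mul star_I_mul 1 0 (comm_z hL j)
  have hT := tOp_sum_bound j
  rw [Fin.sum_univ_three] at hT ⊢
  calc _ ≤ (2 • ((tOp L j 1)ᴴ * tOp L j 1) + 2 • ((tOp L j 2)ᴴ * tOp L j 2))
        + (2 • ((tOp L j 0)ᴴ * tOp L j 0) + 2 • ((tOp L j 2)ᴴ * tOp L j 2))
        + (2 • ((tOp L j 0)ᴴ * tOp L j 0) + 2 • ((tOp L j 1)ᴴ * tOp L j 1)) :=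
        add_le_add (add_le_add hx hy) hz
    _ = 4 • ((tOp L j 0)ᴴ * tOp L j 0 + (tOp L j 1)ᴴ * tOp L j 1
          + (tOp L j 2)ᴴ * tOp L j 2) := by
        simp only [two_smul, smul_add]
        rw [show (4 : ℕ) = 2 + 2 from rfl]
        simp only [add_smul, two_smul]
        abel
    _ ≤ 4 • (8 • (1 : Matrix (Fin L → Fin 3) (Fin L → Fin 3) ℂ)) := nsmul_le_nsmul_right hT 4
    _ = 32 • (1 : Matrix (Fin L → Fin 3) (Fin L → Fin 3) ℂ) := by rw [smul_smul]; norm_num

end psd

end Vale.Agent.Helper28
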