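import Mathlib
import Vale.Agent.Helper28.SpinDefs

open Matrix
open scoped ComplexOrder

namespace Vale.Agent.Helper28

section spectral

variable {n : Type*} [Fintype n] [DecidableEq n]

theorem eigenvalues_isEigenvalue (H : Matrix n n ℂ) (hH : H.IsHermitian) (i : n) :
    IsEigenvalue H (hH.eigenvalues i) := by
  refine ⟨⇑(hH.eigenvectorBasis i), ?_, ?_⟩
  · intro h
    apply hH.eigenvectorBasis.orthonormal.ne_zero i
    ext k
    exact congrFun h k
  · rw [hH.mulVec_eigenvectorBasis i]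
    ext k
    simp [Complex.real_smul]

/-- `H - a = U diag(λ - a) U*`. -/
theorem conj_lin (H : Matrix n n ℂ) (hH : H.IsHermitian) (a : ℂ) :
    H - a • 1 = (hH.eigenvectorUnitary : Matrix n n ℂ)
      * diagonal (fun i => ((hH.eigenvalues i : ℝ) : ℂ) - a)
      * star (hH.eigenvectorUnitary : Matrix n n ℂ) := by
  have hsp := hH.spectral_theorem
  rw [Unitary.conjStarAlgAut_apply] at hsp
  have hUU : (hH.eigenvectorUnitary : Matrix n n ℂ) * star (hH.eigenvectorUnitary : Matrix n n ℂ)
      = 1 := Unitary.coe_mul_star_self _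
  have hd : diagonal (fun i => ((hH.eigenvalues i : ℝ) : ℂ) - a)
      = diagonal (RCLike.ofReal ∘ hH.eigenvalues) - a • (1 : Matrix n n ℂ) := by
    rw [Matrix.smul_one_eq_diagonal, ← Matrix.diagonal_sub]
    rfl
  rw [hd, Matrix.mul_sub, Matrix.sub_mul, ← hsp, Matrix.mul_smul, Matrix.mul_one,
    Matrix.smul_mul, hUU]

/-- `(H - a)(H - b) = U diag((λ - a)(λ - b)) U*`. -/
theorem conj_quad (H : Matrix n n ℂ) (hH : H.IsHermitian) (a b : ℂ) :
    (H - a • 1) * (H - b • 1) = (hH.eigenvectorUnitary : Matrix n n ℂ)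
      * diagonal (fun i => (((hH.eigenvalues i : ℝ) : ℂ) - a) * (((hH.eigenvalues i : ℝ) : ℂ) - b))
      * star (hH.eigenvectorUnitary : Matrix n n ℂ) := by
  have hUU : star (hH.eigenvectorUnitary : Matrix n n ℂ) * (hH.eigenvectorUnitary : Matrix n n ℂ)
      = 1 := Unitary.coe_star_mul_self _
  rw [conj_lin H hH a, conj_lin H hH b, ← Matrix.diagonal_mul_diagonal]
  calc (hH.eigenvectorUnitary : Matrix n n ℂ) * diagonal (fun i => ((hH.eigenvalues i : ℝ) : ℂ) - a)
        * star (hH.eigenvectorUnitary : Matrix n n ℂ)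
        * ((hH.eigenvectorUnitary : Matrix n n ℂ)
          * diagonal (fun i => ((hH.eigenvalues i : ℝ) : ℂ) - b)
          * star (hH.eigenvectorUnitary : Matrix n n ℂ))
      = (hH.eigenvectorUnitary : Matrix n n ℂ) * diagonal (fun i => ((hH.eigenvalues i : ℝ) : ℂ) - a)
        * (star (hH.eigenvectorUnitary : Matrix n n ℂ) * (hH.eigenvectorUnitary : Matrix n n ℂ))
        * diagonal (fun i => ((hH.eigenvalues i : ℝ) : ℂ) - b)
        * star (hH.eigenvectorUnitary : Matrix n n ℂ) := by simp only [Matrix.mul_assoc]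
    _ = _ := by rw [hUU, Matrix.mul_one]; simp only [Matrix.mul_assoc]

/-- Spectral dichotomy for a Hermitian matrix with least eigenvalue `E0`. -/
theorem spectral_dichotomy (H : Matrix n n ℂ) (hH : H.IsHermitian) (E0 : ℝ)
    (hmin : ∀ μ, IsEigenvalue H μ → E0 ≤ μ) :
    (H - (E0 : ℂ) • 1).PosSemidef ∧
    (H = (E0 : ℂ) • 1 ∨ ∃ μ : ℝ, IsEigenvalue H μ ∧ E0 < μ ∧
      ((H - (E0 : ℂ) • 1) * (H - (μ : ℂ) • 1)).PosSemidef) := by
  have hge : ∀ i, E0 ≤ hH.eigenvalues i := fun i => hmin _ (eigenvalues_isEigenvalue H hH i)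
  constructor
  · rw [conj_lin H hH]
    have hd : (0 : n → ℂ) ≤ fun i => ((hH.eigenvalues i : ℝ) : ℂ) - (E0 : ℂ) := by
      intro i
      have : (0 : ℝ) ≤ hH.eigenvalues i - E0 := sub_nonneg.mpr (hge i)
      have h2 : (0 : ℂ) ≤ ((hH.eigenvalues i - E0 : ℝ) : ℂ) := Complex.zero_le_real.mpr this
      simpa using h2
    exact (PosSemidef.diagonal hd).mul_mul_conjTranspose_same _
  · by_cases hall : ∀ i, hH.eigenvalues i = E0
    · left
      have h := conj_lin H hH (E0 : ℂ)
      have hz : diagonal (fun i => ((hH.eigenvalues i : ℝ) : ℂ) - (E0 : ℂ)) = 0 := by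
        have : (fun i => ((hH.eigenvalues i : ℝ) : ℂ) - (E0 : ℂ)) = 0 := by
          funext i; simp [hall i]
        rw [this]; exact Matrix.diagonal_zero
      rw [hz, Matrix.mul_zero, Matrix.zero_mul] at h
      exact sub_eq_zero.mp h
    · right
      have hall' : ∃ i, hH.eigenvalues i ≠ E0 := by
        by_contra hcon
        exact hall (fun i => by_contra fun hi => hcon ⟨i, hi⟩)
      obtain ⟨i1, hi1⟩ := hall'
      have hi1' : E0 < hH.eigenvalues i1 := lt_of_le_of_ne (hge i1) (Ne.symm hi1)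
      set S : Finset n := Finset.univ.filter (fun i => E0 < hH.eigenvalues i) with hS
      have hSne : S.Nonempty := ⟨i1, by rw [hS, Finset.mem_filter]; exact ⟨Finset.mem_univ _, hi1'⟩⟩
      obtain ⟨i0, hi0S, hi0min⟩ := Finset.exists_min_image S hH.eigenvalues hSne
      have hi0 : E0 < hH.eigenvalues i0 := by
        rw [hS, Finset.mem_filter] at hi0S; exact hi0S.2
      refine ⟨hH.eigenvalues i0, eigenvalues_isEigenvalue H hH i0, hi0, ?_⟩
      rw [conj_quad H hH]
      have hd : (0 : n → ℂ) ≤ fun i => (((hH.eigenvalues i : ℝ) : ℂ) - (E0 : ℂ))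
          * (((hH.eigenvalues i : ℝ) : ℂ) - ((hH.eigenvalues i0 : ℝ) : ℂ)) := by
        intro i
        have hreal : (0 : ℝ) ≤ (hH.eigenvalues i - E0) * (hH.eigenvalues i - hH.eigenvalues i0) := by
          rcases eq_or_lt_of_le (hge i) with heq | hlt
          · rw [← heq]; simp
          · have hiS : i ∈ S := by rw [hS, Finset.mem_filter]; exact ⟨Finset.mem_univ _, hlt⟩
            have := hi0min i hiS
            exact mul_nonneg (sub_nonneg.mpr hlt.le) (sub_nonneg.mpr this)
        have h2 : (0 : ℂ) ≤ (((hH.eigenvalues i - E0) * (hH.eigenvalues i - hH.eigenvalues i0) : ℝ) : ℂ) :=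
          Complex.zero_le_real.mpr hreal
        simpa using h2
      exact (PosSemidef.diagonal hd).mul_mul_conjTranspose_same _

end spectral

end Vale.Agent.Helper28
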