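import Mathlib
import Vale.Agent.Helper28.SpinSpectral

open Matrix
open scoped ComplexOrder

namespace Vale.Agent.Helper28

section qform

variable {n : Type*} [Fintype n] [DecidableEq n]

/-- The real part of the quadratic form `⟨Ω, M Ω⟩`. -/
noncomputable def qform (Ω : n → ℂ) (M : Matrix n n ℂ) : ℝ := (star Ω ⬝ᵥ (M *ᵥ Ω)).re

theorem qform_add (Ω : n → ℂ) (M N : Matrix n n ℂ) :
    qform Ω (M + N) = qform Ω M + qform Ω N := by
  simp [qform, Matrix.add_mulVec, dotProduct_add]

theorem qform_sub (Ω : n → ℂ) (M N : Matrix n n ℂ) :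
    qform Ω (M - N) = qform Ω M - qform Ω N := by
  simp [qform, Matrix.sub_mulVec, dotProduct_sub]

theorem qform_smul (Ω : n → ℂ) (c : ℝ) (M : Matrix n n ℂ) :
    qform Ω ((c : ℂ) • M) = c * qform Ω M := by
  simp [qform, Matrix.smul_mulVec, dotProduct_smul]

theorem qform_zero (Ω : n → ℂ) : qform Ω 0 = 0 := by
  simp [qform]

theorem qform_sum {ι : Type*} (Ω : n → ℂ) (s : Finset ι) (M : ι → Matrix n n ℂ) :
    qform Ω (∑ i ∈ s, M i) = ∑ i ∈ s, qform Ω (M i) := by
  classical
  induction s using Finset.induction_on with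
  | empty => simp [qform_zero]
  | insert a s ha ih => rw [Finset.sum_insert ha, Finset.sum_insert ha, qform_add, ih]

theorem qform_nonneg (Ω : n → ℂ) {M : Matrix n n ℂ} (hM : M.PosSemidef) : 0 ≤ qform Ω M := by
  have h := hM.dotProduct_mulVec_nonneg Ω
  exact (Complex.nonneg_iff.mp h).1

theorem qform_one_pos {Ω : n → ℂ} (hΩ : Ω ≠ 0) : 0 < qform Ω 1 := by
  have h : (0 : ℂ) < star Ω ⬝ᵥ Ω := dotProduct_star_self_pos_iff.mpr hΩ
  simp only [qform, Matrix.one_mulVec]
  exact (Complex.pos_iff.mp h).1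

theorem qform_mul_right_zero (Ω : n → ℂ) {K : Matrix n n ℂ} (hK : K *ᵥ Ω = 0)
    (X : Matrix n n ℂ) : qform Ω (X * K) = 0 := by
  simp [qform, ← Matrix.mulVec_mulVec, hK]

theorem qform_mul_left_zero (Ω : n → ℂ) {K : Matrix n n ℂ} (hKh : Kᴴ = K) (hK : K *ᵥ Ω = 0)
    (X : Matrix n n ℂ) : qform Ω (K * X) = 0 := by
  have h1 : star Ω ᵥ* K = 0 := by
    have := Matrix.star_mulVec K Ω
    rw [hK, hKh, star_zero] at this
    exact this.symm
  simp [qform, ← Matrix.mulVec_mulVec, Matrix.dotProduct_mulVec, h1]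

end qform

end Vale.Agent.Helper28

namespace Vale.Agent.Helper28

section gap

variable {n : Type*} [Fintype n] [DecidableEq n]

/-- Abstract gap bound from a sum rule and a commutator bound. -/
theorem gap_bound_abstract {ι : Type*} [Fintype ι] (H : Matrix n n ℂ) (hH : H.IsHermitian)
    (s : ι → Matrix n n ℂ) (hs : ∀ i, (s i)ᴴ = s i) (a b c : ℝ)
    (h1 : ∑ i, s i * H * s i = (a : ℂ) • H) (h2 : ∑ i, s i * s i = (b : ℂ) • 1)
    (h3 : (((c : ℂ) • (1 : Matrix n n ℂ))
      - ∑ i, (H * s i - s i * H)ᴴ * (H * s i - s i * H)).PosSemidef)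
    (E0 : ℝ) (hE0 : IsEigenvalue H E0) (hmin : ∀ μ, IsEigenvalue H μ → E0 ≤ μ)
    (hpos : 0 < (a - b) * E0) :
    ∃ μ : ℝ, IsEigenvalue H μ ∧ E0 < μ ∧ (μ - E0) * ((a - b) * E0) ≤ c := by
  obtain ⟨Ω, hΩ, hHΩ⟩ := hE0
  set K : Matrix n n ℂ := H - (E0 : ℂ) • 1 with hKdef
  have hKΩ : K *ᵥ Ω = 0 := by
    rw [hKdef, Matrix.sub_mulVec, hHΩ, Matrix.smul_mulVec, Matrix.one_mulVec, sub_self]
  have hKh : Kᴴ = K := by
    rw [hKdef, Matrix.conjTranspose_sub, Matrix.conjTranspose_smul, Matrix.conjTranspose_one,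
      hH.eq]
    simp
  set N : ℝ := qform Ω 1 with hN
  have hNpos : 0 < N := qform_one_pos hΩ
  have hqK : ∀ X : Matrix n n ℂ, qform Ω (X * K) = 0 := qform_mul_right_zero Ω hKΩ
  have hqK' : ∀ X : Matrix n n ℂ, qform Ω (K * X) = 0 := qform_mul_left_zero Ω hKh hKΩ
  -- the sum rule in terms of K
  have hsumK : ∑ i, s i * K * s i = (a : ℂ) • H - (E0 : ℂ) • ((b : ℂ) • 1) := by
    have : ∀ i, s i * K * s i = s i * H * s i - (E0 : ℂ) • (s i * s i) := by
      intro i
      rw [hKdef, Matrix.mul_sub, Matrix.sub_mul, Matrix.mul_smul, Matrix.mul_one,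
        Matrix.smul_mul]
    rw [Finset.sum_congr rfl fun i _ => this i, Finset.sum_sub_distrib, h1, ← Finset.smul_sum, h2]
  have hqH : qform Ω H = E0 * N := by
    have : H = 1 * K + (E0 : ℂ) • 1 := by rw [hKdef, one_mul]; abel
    rw [this, qform_add, hqK, qform_smul, zero_add]
  have hqsum : qform Ω (∑ i, s i * K * s i) = (a - b) * E0 * N := by
    rw [hsumK, qform_sub, qform_smul, qform_smul, qform_smul, hqH]
    ring
  obtain ⟨-, hdich⟩ := spectral_dichotomy H hH E0 hmin
  rcases hdich with hscalar | ⟨μ, hμ, hlt, hP⟩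
  · exfalso
    have hK0 : K = 0 := by rw [hKdef, hscalar, sub_self]
    have : qform Ω (∑ i, s i * K * s i) = 0 := by
      rw [hK0]; simp [qform_zero]
    rw [hqsum] at this
    have h4 : 0 < (a - b) * E0 * N := mul_pos hpos hNpos
    linarith
  · refine ⟨μ, hμ, hlt, ?_⟩
    set δ : ℝ := μ - E0 with hδ
    have hPeq : (H - (E0 : ℂ) • 1) * (H - (μ : ℂ) • 1) = K * K - (δ : ℂ) • K := by
      have : H - (μ : ℂ) • 1 = K - (δ : ℂ) • 1 := by
        rw [hKdef, hδ]; push_cast; module
      rw [this, ← hKdef, Matrix.mul_sub, Matrix.mul_smul, Matrix.mul_one]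
    rw [hPeq] at hP
    -- each conjugate is PSD
    have hconj : ∀ i, 0 ≤ qform Ω (s i * (K * K) * s i) - δ * qform Ω (s i * K * s i) := by
      intro i
      have hp := hP.conjTranspose_mul_mul_same (s i)
      rw [hs i] at hp
      have hq := qform_nonneg Ω hp
      have e : s i * (K * K - (δ : ℂ) • K) * s i
          = s i * (K * K) * s i - (δ : ℂ) • (s i * K * s i) := by
        rw [Matrix.mul_sub, Matrix.sub_mul, Matrix.mul_smul, Matrix.smul_mul]
      rw [e, qform_sub, qform_smul] at hq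
      exact hq
    -- relate to commutators
    have hcomm : ∀ i, qform Ω ((H * s i - s i * H)ᴴ * (H * s i - s i * H))
        = qform Ω (s i * (K * K) * s i) := by
      intro i
      have hC : H * s i - s i * H = K * s i - s i * K := by
        rw [hKdef, Matrix.sub_mul, Matrix.mul_sub, Matrix.smul_mul, Matrix.mul_smul,
          Matrix.one_mul, Matrix.mul_one]
        abel
      have hCh : (K * s i - s i * K)ᴴ = s i * K - K * s i := by
        rw [Matrix.conjTranspose_sub, Matrix.conjTranspose_mul, Matrix.conjTranspose_mul,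
          hs i, hKh]
      rw [hC, hCh]
      have e : (s i * K - K * s i) * (K * s i - s i * K)
          = s i * (K * K) * s i - (s i * K * s i) * K - K * (s i * K * s i)
            + (K * s i * s i) * K := by
        noncomm_ring
      rw [e, qform_add, qform_sub, qform_sub, hqK, hqK', hqK]
      ring
    have hsum0 : 0 ≤ ∑ i, (qform Ω (s i * (K * K) * s i) - δ * qform Ω (s i * K * s i)) :=
      Finset.sum_nonneg fun i _ => hconj i
    rw [Finset.sum_sub_distrib, ← Finset.mul_sum, ← qform_sum Ω Finset.univ (fun i => s i * K * s i),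
      hqsum] at hsum0
    have hbound : ∑ i, qform Ω (s i * (K * K) * s i) ≤ c * N := by
      have hq := qform_nonneg Ω h3
      rw [qform_sub, qform_smul, qform_sum] at hq
      rw [← Finset.sum_congr rfl fun i _ => hcomm i]
      linarith
    have hfin : δ * ((a - b) * E0) * N ≤ c * N := by nlinarith
    have := le_of_mul_le_mul_right hfin hNpos
    linarith

end gap

end Vale.Agent.Helper28
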