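import Mathlib
import Vale.Agent.Helper28.SpinBound
import Vale.Agent.Helper28.SpinGap

open Matrix
open scoped ComplexOrder MatrixOrder

namespace Vale.Agent.Helper28

section main

variable {L : ℕ} [NeZero L]

theorem heisenberg_isHermitian (hL : 2 ≤ L) : (heisenberg L).IsHermitian := by
  unfold Matrix.IsHermitian
  rw [heisenberg_eq, Matrix.conjTranspose_sum]
  refine Finset.sum_congr rfl fun k _ => ?_
  unfold bond
  rw [Matrix.conjTranspose_sum]
  refine Finset.sum_congr rfl fun α _ => ?_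
  rw [Matrix.conjTranspose_mul, sOp_herm, sOp_herm]
  exact sOp_comm (succ_ne_self hL k) α α

/-- The Neel configuration `0, 2, 0, 2, ...` (that is `m = +1, -1, +1, -1, ...`). -/
def neel (L : ℕ) : Fin L → Fin 3 := fun k => if k.val % 2 = 0 then 0 else 2

theorem neel_succ (hL : 2 ≤ L) (hE : Even L) (k : Fin L) :
    spinZ (neel L k) (neel L k) * spinZ (neel L (k + 1)) (neel L (k + 1)) = -1 := by
  obtain ⟨m, hm⟩ := hE
  have hv : (k + 1 : Fin L).val = (k.val + 1) % L := by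
    rw [Fin.val_add, Fin.val_one', Nat.mod_eq_of_lt (by omega : 1 < L)]
  have hk := k.isLt
  unfold neel
  by_cases h : k.val + 1 < L
  · rw [hv, Nat.mod_eq_of_lt h]
    by_cases hp : k.val % 2 = 0
    · have hp' : ¬ (k.val + 1) % 2 = 0 := by omega
      rw [if_pos hp, if_neg hp', spinZ_diag_zero, spinZ_diag_two]; norm_num
    · have hp' : (k.val + 1) % 2 = 0 := by omega
      rw [if_neg hp, if_pos hp', spinZ_diag_zero, spinZ_diag_two]; norm_num
  · have hkL : k.val + 1 = L := by omega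
    rw [hv, hkL, Nat.mod_self]
    have hp : ¬ k.val % 2 = 0 := by omega
    rw [if_neg hp, if_pos (by norm_num), spinZ_diag_zero, spinZ_diag_two]; norm_num

theorem heisenberg_neel (hL : 2 ≤ L) (hE : Even L) :
    heisenberg L (neel L) (neel L) = -(L : ℂ) := by
  unfold heisenberg
  rw [Matrix.sum_apply]
  have h : ∀ k : Fin L, (siteOp L k spinX * siteOp L (k + 1) spinX
      + siteOp L k spinY * siteOp L (k + 1) spinY
      + siteOp L k spinZ * siteOp L (k + 1) spinZ) (neel L) (neel L) = -1 := by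
    intro k
    have hne : k ≠ k + 1 := (succ_ne_self hL k).symm
    rw [Matrix.add_apply, Matrix.add_apply, siteOp_mul_diag hne, siteOp_mul_diag hne,
      siteOp_mul_diag hne, spinX_diag, spinY_diag, neel_succ hL hE k]
    simp
  rw [Finset.sum_congr rfl fun k _ => h k]
  simp

/-- The least eigenvalue is at most `-L`. -/
theorem ground_energy_le (hL : 2 ≤ L) (hE : Even L) (E0 : ℝ)
    (hmin : ∀ μ, IsEigenvalue (heisenberg L) μ → E0 ≤ μ) : E0 ≤ -(L : ℝ) := by
  obtain ⟨hpsd, -⟩ := spectral_dichotomy (heisenberg L) (heisenberg_isHermitian hL) E0 hmin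
  have hd := hpsd.diag_nonneg (i := neel L)
  rw [Matrix.sub_apply, Matrix.smul_apply, Matrix.one_apply_eq, heisenberg_neel hL hE] at hd
  have hre := (Complex.nonneg_iff.mp hd).1
  simp at hre
  linarith

/-- Main bound: the gap above the ground energy is at most `16`. -/
theorem heisenberg_gap_le (hL : 2 ≤ L) (hE : Even L) (E0 : ℝ)
    (hE0 : IsEigenvalue (heisenberg L) E0)
    (hmin : ∀ μ, IsEigenvalue (heisenberg L) μ → E0 ≤ μ) :
    ∃ E1 : ℝ, IsEigenvalue (heisenberg L) E1 ∧ E0 < E1 ∧ E1 ≤ E0 + 16 := by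
  have hLpos : (0 : ℝ) < (L : ℝ) := by
    have : 0 < L := by omega
    exact_mod_cast this
  have hE0le := ground_energy_le hL hE E0 hmin
  have h1 : ∑ p : Fin L × Fin 3, sOp L p.1 p.2 * heisenberg L * sOp L p.1 p.2
      = ((2 * (L : ℝ) - 2 : ℝ) : ℂ) • heisenberg L := by
    rw [Fintype.sum_prod_type, sum_rule hL]
    push_cast
    rfl
  have h2 : ∑ p : Fin L × Fin 3, sOp L p.1 p.2 * sOp L p.1 p.2
      = ((2 * (L : ℝ) : ℝ) : ℂ) • (1 : Matrix (Fin L → Fin 3) (Fin L → Fin 3) ℂ) := by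
    rw [Fintype.sum_prod_type, Finset.sum_congr rfl fun j _ => sOp_casimir j, Finset.sum_const,
      Finset.card_univ, Fintype.card_fin, ← Nat.cast_smul_eq_nsmul ℂ, smul_smul]
    push_cast
    ring_nf
  have h3 : ((((32 * (L : ℝ) : ℝ) : ℂ)) • (1 : Matrix (Fin L → Fin 3) (Fin L → Fin 3) ℂ)
      - ∑ p : Fin L × Fin 3, (heisenberg L * sOp L p.1 p.2 - sOp L p.1 p.2 * heisenberg L)ᴴ
        * (heisenberg L * sOp L p.1 p.2 - sOp L p.1 p.2 * heisenberg L)).PosSemidef := by
    rw [← Matrix.le_iff, Fintype.sum_prod_type]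
    calc ∑ j : Fin L, ∑ α : Fin 3,
          (heisenberg L * sOp L j α - sOp L j α * heisenberg L)ᴴ
            * (heisenberg L * sOp L j α - sOp L j α * heisenberg L)
        ≤ ∑ _j : Fin L, 32 • (1 : Matrix (Fin L → Fin 3) (Fin L → Fin 3) ℂ) :=
          Finset.sum_le_sum fun j _ => comm_bound_site hL j
      _ = (((32 * (L : ℝ) : ℝ) : ℂ)) • (1 : Matrix (Fin L → Fin 3) (Fin L → Fin 3) ℂ) := by
          rw [Finset.sum_const, Finset.card_univ, Fintype.card_fin, smul_smul,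
            ← Nat.cast_smul_eq_nsmul ℂ]
          push_cast
          ring_nf
  have hpos : 0 < ((2 * (L : ℝ) - 2) - 2 * (L : ℝ)) * E0 := by nlinarith
  obtain ⟨μ, hμ, hlt, hb⟩ := gap_bound_abstract (heisenberg L) (heisenberg_isHermitian hL)
    (fun p : Fin L × Fin 3 => sOp L p.1 p.2) (fun p => sOp_herm p.1 p.2)
    (2 * (L : ℝ) - 2) (2 * (L : ℝ)) (32 * (L : ℝ)) h1 h2 h3 E0 hE0 hmin hpos
  refine ⟨μ, hμ, hlt, ?_⟩
  have hδ : 0 < μ - E0 := sub_pos.mpr hlt
  -- (μ - E0) * (-2 E0) ≤ 32 L and -2 E0 ≥ 2 L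
  have h4 : (μ - E0) * (2 * (L : ℝ)) ≤ 32 * (L : ℝ) := by nlinarith
  have h5 : (μ - E0) * 2 ≤ 32 := by
    have := (mul_le_mul_iff_of_pos_right hLpos).mp (by nlinarith : (μ - E0) * 2 * (L : ℝ) ≤ 32 * (L : ℝ))
    exact this
  linarith

end main

end Vale.Agent.Helper28
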