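import Mathlib
import Vale.Agent.Helper28.SpinMain

/-!
Direct form of the gap bound for the periodic spin-one Heisenberg chain: the least eigenvalue and
the next distinct eigenvalue exist, and their difference is at most `16`.
-/

open Matrix

namespace Vale.Agent.Helper28

section direct

variable {n : Type*} [Fintype n] [DecidableEq n]

/-- Every real eigenvalue (with a nonzero eigenvector) of a Hermitian matrix is one of the
eigenvalues listed by the spectral theorem. -/
theorem isEigenvalue_mem_range (H : Matrix n n ℂ) (hH : H.IsHermitian) (μ : ℝ)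
    (h : IsEigenvalue H μ) : μ ∈ Set.range hH.eigenvalues := by
  rw [← hH.spectrum_real_eq_range_eigenvalues, spectrum.mem_iff]
  obtain ⟨v, hv, hHv⟩ := h
  intro hu
  apply hv
  have hz : (algebraMap ℝ (Matrix n n ℂ) μ - H) *ᵥ v = 0 := by
    rw [Matrix.sub_mulVec, hHv, Algebra.algebraMap_eq_smul_one]
    ext k
    simp [Matrix.smul_mulVec, Complex.real_smul]
  obtain ⟨u, hu'⟩ := hu
  have h2 : ((↑u⁻¹ : Matrix n n ℂ) * (algebraMap ℝ (Matrix n n ℂ) μ - H)) *ᵥ v = 0 := by
    rw [← Matrix.mulVec_mulVec, hz, Matrix.mulVec_zero]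
  rw [← hu', Units.inv_mul, Matrix.one_mulVec] at h2
  exact h2

/-- The set of real eigenvalues of a Hermitian matrix on a nonempty index type has a least
element. -/
theorem exists_isLeast_eigenvalue [Nonempty n] (H : Matrix n n ℂ) (hH : H.IsHermitian) :
    ∃ E0 : ℝ, IsLeast {μ : ℝ | IsEigenvalue H μ} E0 := by
  obtain ⟨i0, -, hi0⟩ := Finset.exists_min_image Finset.univ hH.eigenvalues Finset.univ_nonempty
  refine ⟨hH.eigenvalues i0, eigenvalues_isEigenvalue H hH i0, ?_⟩
  intro μ hμ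
  obtain ⟨i, rfl⟩ := isEigenvalue_mem_range H hH μ hμ
  exact hi0 i (Finset.mem_univ i)

/-- If some eigenvalue lies strictly above `E0`, there is a least such eigenvalue. -/
theorem exists_isLeast_eigenvalue_above (H : Matrix n n ℂ) (hH : H.IsHermitian) (E0 E : ℝ)
    (hE : IsEigenvalue H E) (hlt : E0 < E) :
    ∃ E1 : ℝ, IsLeast {μ : ℝ | IsEigenvalue H μ ∧ E0 < μ} E1 ∧ E1 ≤ E := by
  obtain ⟨j, rfl⟩ := isEigenvalue_mem_range H hH E hE
  have hne : (Finset.univ.filter fun i => E0 < hH.eigenvalues i).Nonempty :=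
    ⟨j, by simp [hlt]⟩
  obtain ⟨i1, hi1S, hi1⟩ := Finset.exists_min_image _ hH.eigenvalues hne
  have hi1' : E0 < hH.eigenvalues i1 := by simpa using hi1S
  refine ⟨hH.eigenvalues i1, ⟨⟨eigenvalues_isEigenvalue H hH i1, hi1'⟩, ?_⟩, ?_⟩
  · rintro μ ⟨hμ, hμlt⟩
    obtain ⟨i, rfl⟩ := isEigenvalue_mem_range H hH μ hμ
    exact hi1 i (by simp [hμlt])
  · exact hi1 j (by simp [hlt])

end direct

/-- Direct form: for even `L ≥ 4` the least eigenvalue `E0` of `H_L` and the least eigenvalue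
`E1` above it exist, and `E1 - E0 ≤ 16`. -/
theorem heisenberg_gap_direct (L : ℕ) [NeZero L] (hL : 4 ≤ L) (hE : Even L) :
    ∃ E0 E1 : ℝ, IsLeast {μ : ℝ | IsEigenvalue (heisenberg L) μ} E0 ∧
      IsLeast {μ : ℝ | IsEigenvalue (heisenberg L) μ ∧ E0 < μ} E1 ∧ E1 - E0 ≤ 16 := by
  have hH : (heisenberg L).IsHermitian := heisenberg_isHermitian (by omega)
  obtain ⟨E0, hE0⟩ := exists_isLeast_eigenvalue (heisenberg L) hH
  obtain ⟨E, hEe, hlt, hle⟩ := heisenberg_gap_le (by omega) hE E0 hE0.1 (fun μ hμ => hE0.2 hμ)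
  obtain ⟨E1, hE1, hE1le⟩ := exists_isLeast_eigenvalue_above (heisenberg L) hH E0 E hEe hlt
  exact ⟨E0, E1, hE0, hE1, by linarith⟩

end Vale.Agent.Helper28
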